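import Vale.Agent.P257.V4.B.NF3
import Mathlib.RingTheory.PowerSeries.Expand
import Mathlib.RingTheory.MvPowerSeries.Expand

/-!
# P257, part B: the strict automorphisms of the additive law over `F_p`-algebras

`Ser x = ∑ a_k x^{p^k}` for `x : A.G p B`; `Ser (x * y) = Ser x * Ser y` and
`Ser x • addLaw B = addLaw B`.
-/

noncomputable section

namespace Vale.Agent.P257.V4.B

open MvPowerSeries Vale.Agent.P217 Vale.Agent.P251.F

variable {p : ℕ} [hp : Fact p.Prime] {B C : Type} [CommRing B] [CommRing C]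

/-- the series `∑ a_k x^{p^k}` -/
def Ser (x : A.G p B) : InvSeries B := strictMk (pw p fun k => x.a (k + 1))

omit hp in
theorem Ser_mem (x : A.G p B) : Ser x ∈ strict B := strictMk_mem _

theorem c_Ser_ix (x : A.G p B) (k : ℕ) : (Ser x).c (ix p k + 1) = x.a (k + 1) := by
  rw [Ser, c_succ_strictMk, pw_ix hp.out]

theorem coeff_Ser_pow (x : A.G p B) (k : ℕ) : PowerSeries.coeff (p ^ k) (Ser x).val = x.a k := by
  rcases k with _ | k
  · rw [pow_zero, A.G.a_zero]
    exact mem_strict.1 (Ser_mem x)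
  · rw [← c_Ser_ix x k, InvSeries.c]
    congr 2
    have := ix_add_two hp.out k
    omega

theorem coeff_Ser_of_not (x : A.G p B) {d : ℕ} (h : d ∉ Set.range fun k => p ^ k) :
    PowerSeries.coeff d (Ser x).val = 0 := by
  rcases d with _ | _ | n
  · rw [PowerSeries.coeff_zero_eq_constantCoeff_apply]
    exact (Ser x).cc
  · exact absurd ⟨0, pow_zero p⟩ h
  · change (Ser x).c (n + 1) = 0
    rw [Ser, c_succ_strictMk, pw_of_not hp.out]
    rintro ⟨k, hk⟩
    exact h ⟨k, hk.symm⟩

omit hp in
theorem map_Ser (φ : B →+* C) (x : A.G p B) : InvSeries.map φ (Ser x) = Ser (x.map φ) := by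
  rw [Ser, Ser, map_strictMk]
  congr 1
  funext n
  rw [map_pw]
  rfl

/-- substitution in an additive series -/
theorem coeff_subst_Ser {τ : Type} (x : A.G p B) {g : MvPowerSeries τ B}
    (hg : PowerSeries.HasSubst g) (e : τ →₀ ℕ) :
    coeff e (PowerSeries.subst g (Ser x).val : MvPowerSeries τ B) =
      ∑ᶠ k : ℕ, x.a k * coeff e (g ^ (p ^ k)) := by
  have hinj : Function.Injective fun k : ℕ => p ^ k := Nat.pow_right_injective hp.out.two_le
  rw [PowerSeries.coeff_subst hg]
  have h1 : ∑ᶠ d : ℕ, PowerSeries.coeff d (Ser x).val • coeff e (g ^ d) =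
      ∑ᶠ d ∈ Set.range fun k : ℕ => p ^ k,
        PowerSeries.coeff d (Ser x).val • coeff e (g ^ d) := by
    rw [← finsum_mem_univ]
    refine finsum_mem_inter_support_eq _ _ _ ?_
    ext d
    constructor
    · rintro ⟨-, h⟩
      refine ⟨?_, h⟩
      by_contra h2
      refine h ?_
      change _ • _ = _
      rw [coeff_Ser_of_not x h2, zero_smul]
    · rintro ⟨-, h⟩
      exact ⟨Set.mem_univ _, h⟩
  rw [h1, finsum_mem_range hinj]
  refine finsum_congr fun k => ?_
  rw [coeff_Ser_pow, smul_eq_mul]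

theorem finite_Ser {τ : Type} (x : A.G p B) {g : MvPowerSeries τ B}
    (hg : PowerSeries.HasSubst g) (e : τ →₀ ℕ) :
    (Function.support fun k : ℕ => x.a k * coeff e (g ^ (p ^ k))).Finite := by
  have hinj : Function.Injective fun k : ℕ => p ^ k := Nat.pow_right_injective hp.out.two_le
  have h := (PowerSeries.coeff_subst_finite hg (Ser x).val e)
  refine Set.Finite.of_injOn (f := fun k : ℕ => p ^ k) ?_ hinj.injOn h
  intro k hk
  rw [Function.mem_support] at hk ⊢
  rw [coeff_Ser_pow, smul_eq_mul]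
  exact hk

variable [Algebra (ZMod p) B] [Algebra (ZMod p) C]

theorem hasSubst_X' {τ : Type} (i : τ) : PowerSeries.HasSubst (X i : MvPowerSeries τ B) :=
  PowerSeries.HasSubst.X i

theorem hasSubst_add {τ : Type} {f g : MvPowerSeries τ B} (hf : PowerSeries.HasSubst f)
    (hg : PowerSeries.HasSubst g) : PowerSeries.HasSubst (f + g) := by
  unfold PowerSeries.HasSubst at *
  rw [map_add]
  exact (Commute.all _ _).isNilpotent_add hf hg

/-- `Ser x` is additive. -/
theorem Ser_smul_addLaw (x : A.G p B) : Ser x • addLaw B = addLaw B := by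
  rw [InvSeries.smul_eq_iff_isHom]
  have h0 : PowerSeries.HasSubst (X 0 : MvPowerSeries (Fin 2) B) := PowerSeries.HasSubst.X 0
  have h1 : PowerSeries.HasSubst (X 1 : MvPowerSeries (Fin 2) B) := PowerSeries.HasSubst.X 1
  refine ⟨(Ser x).cc, ?_⟩
  set f0 := (PowerSeries.subst (X 0 : MvPowerSeries (Fin 2) B) (Ser x).val :
    MvPowerSeries (Fin 2) B) with hf0
  set f1 := (PowerSeries.subst (X 1 : MvPowerSeries (Fin 2) B) (Ser x).val :
    MvPowerSeries (Fin 2) B) with hf1
  have hc0 : constantCoeff f0 = 0 :=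
    PowerSeries.constantCoeff_subst_eq_zero (constantCoeff_X 0) _ (Ser x).cc
  have hc1 : constantCoeff f1 = 0 :=
    PowerSeries.constantCoeff_subst_eq_zero (constantCoeff_X 1) _ (Ser x).cc
  have hs : MvPowerSeries.HasSubst ![f0, f1] := by
    apply hasSubst_of_constantCoeff_zero
    intro i
    fin_cases i
    · exact hc0
    · exact hc1
  have hR : MvPowerSeries.subst ![f0, f1] (addLaw B).ps = f0 + f1 := by
    rw [addLaw_ps, MvPowerSeries.subst_add hs, MvPowerSeries.subst_X hs, MvPowerSeries.subst_X hs]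
    rfl
  refine Eq.trans ?_ hR.symm
  change (PowerSeries.subst (addLaw B).ps (Ser x).val : MvPowerSeries (Fin 2) B) = _
  rw [addLaw_ps]
  ext e
  rw [coeff_subst_Ser x (hasSubst_add h0 h1), map_add, hf0, hf1, coeff_subst_Ser x h0,
    coeff_subst_Ser x h1, ← finsum_add_distrib (finite_Ser x h0 e) (finite_Ser x h1 e)]
  refine finsum_congr fun k => ?_
  rw [A.add_pow_pow, map_add, mul_add]

/-- coefficients of a `p^k`-th power -/
theorem coeff_pow_pow (g : PowerSeries B) (k d : ℕ) :
    PowerSeries.coeff d (g ^ (p ^ k)) =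
      if p ^ k ∣ d then PowerSeries.coeff (d / p ^ k) g ^ (p ^ k) else 0 := by
  nontriviality B
  have : CharP B p := (Algebra.charP_iff (ZMod p) B p).mp inferInstance
  have : ExpChar B p := ExpChar.prime hp.out
  have h := MvPowerSeries.map_iterateFrobenius_expand (p := p) hp.out.ne_zero g k
  have h2 : g ^ (p ^ k) = PowerSeries.map (iterateFrobenius B p k)
      (PowerSeries.expand (p ^ k) (pow_ne_zero k hp.out.ne_zero) g) := h.symm
  rw [h2, PowerSeries.coeff_map, PowerSeries.coeff_expand]
  split_ifs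
  · rw [iterateFrobenius_def]
  · rw [map_zero]

omit hp [Algebra (ZMod p) B] in
theorem isNF_addLaw : IsNF p (addLaw B) := by
  classical
  intro n _
  rw [xC]
  refine Finset.sum_eq_zero fun i hi => ?_
  rw [Finset.mem_Ioo] at hi
  have h0 : e2 i (n + 2 - i) ≠ Finsupp.single 0 1 := by
    intro h
    have := DFunLike.congr_fun h 1
    simp [e2] at this
    omega
  have h1 : e2 i (n + 2 - i) ≠ Finsupp.single 1 1 := by
    intro h
    have := DFunLike.congr_fun h 0
    simp [e2] at this
    omega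
  rw [addLaw_ps, map_add, coeff_X, coeff_X, if_neg h0, if_neg h1, add_zero, smul_zero]

omit hp [Algebra (ZMod p) B] in
theorem multSeries_addLaw (m : ℕ) :
    multSeries (addLaw B).toFG m = m • (PowerSeries.X : PowerSeries B) := by
  induction m with
  | zero => rw [zero_smul]; rfl
  | succ m ih =>
    have hs : MvPowerSeries.HasSubst
        ![(m • (PowerSeries.X : PowerSeries B)), (PowerSeries.X : PowerSeries B)] := by
      apply hasSubst_of_constantCoeff_zero
      intro i
      fin_cases i
      · change PowerSeries.constantCoeff (m • (PowerSeries.X : PowerSeries B)) = 0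
        rw [map_nsmul, PowerSeries.constantCoeff_X, smul_zero]
      · exact PowerSeries.constantCoeff_X
    rw [multSeries_succ, ih]
    change MvPowerSeries.subst _ (X 0 + X 1 : MvPowerSeries (Fin 2) B) = _
    rw [MvPowerSeries.subst_add hs, MvPowerSeries.subst_X hs, MvPowerSeries.subst_X hs,
      succ_nsmul]
    rfl

theorem vv_addLaw (k : ℕ) : vv p (k + 1) (addLaw B) = 0 := by
  rw [vv, multSeries_addLaw, map_nsmul, nsmul_eq_mul, p_eq_zero, zero_mul]

/-- `Ser` is multiplicative. -/
theorem Ser_mul (x y : A.G p B) : Ser (x * y) = Ser x * Ser y := by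
  have := ploc_of_alg p B
  have hfix : (Ser x * Ser y) • addLaw B = addLaw B := by
    rw [mul_smul, Ser_smul_addLaw, Ser_smul_addLaw]
  refine ext_of_isNF (p := p) (addLaw B) (Ser_mem _) (mul_mem (Ser_mem _) (Ser_mem _)) ?_
    (by rw [Ser_smul_addLaw]; exact isNF_addLaw) (by rw [hfix]; exact isNF_addLaw)
  intro n hn
  obtain ⟨k, rfl⟩ := exists_of_isPw hp.out hn
  have hc : ∀ f : InvSeries B, f.c (ix p k + 1) = PowerSeries.coeff (p ^ (k + 1)) f.val := by
    intro f
    rw [InvSeries.c]
    congr 2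
    exact ix_add_two hp.out k
  rw [hc, hc, coeff_Ser_pow, InvSeries.mul_val, A.G.mul_a]
  have h1 := coeff_subst_Ser x (Ser y).hs (Finsupp.single () (p ^ (k + 1)))
  refine Eq.trans ?_ h1.symm
  have h2 : ∀ i : ℕ, x.a i * MvPowerSeries.coeff (Finsupp.single () (p ^ (k + 1)))
      ((Ser y).val ^ (p ^ i)) = if i ∈ Finset.range (k + 2) then
        x.a i * y.a (k + 1 - i) ^ (p ^ i) else 0 := by
    intro i
    have h3 := coeff_pow_pow (p := p) (Ser y).val i (p ^ (k + 1))
    change x.a i * PowerSeries.coeff (p ^ (k + 1)) ((Ser y).val ^ (p ^ i)) = _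
    rw [h3]
    by_cases hi : i ≤ k + 1
    · rw [if_pos (pow_dvd_pow p hi), if_pos (by rw [Finset.mem_range]; omega),
        Nat.pow_div hi hp.out.pos, coeff_Ser_pow]
    · rw [if_neg, if_neg (by rw [Finset.mem_range]; omega), mul_zero]
      intro h4
      have := (Nat.pow_dvd_pow_iff_le_right hp.out.one_lt).1 h4
      omega
  rw [finsum_congr h2, Finset.Nat.sum_antidiagonal_eq_sum_range_succ
    (fun i j => x.a i * y.a j ^ (p ^ i))]
  rw [finsum_eq_sum_of_support_subset (s := Finset.range (k + 2))]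
  · refine Finset.sum_congr rfl fun i hi => ?_
    rw [if_pos hi]
  · intro i hi
    by_contra h5
    refine hi ?_
    change (if i ∈ Finset.range (k + 2) then _ else _) = _
    rw [if_neg (fun h6 => h5 (Finset.mem_coe.2 h6))]

theorem Ser_one : Ser (1 : A.G p B) = 1 := by
  have h := Ser_mul (1 : A.G p B) 1
  rw [mul_one] at h
  exact (mul_eq_left.1 h.symm)

theorem Ser_inv (x : A.G p B) : Ser x⁻¹ = (Ser x)⁻¹ := by
  rw [eq_inv_iff_mul_eq_one, ← Ser_mul, inv_mul_cancel, Ser_one]

end Vale.Agent.P257.V4.B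

end
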