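import Vale.Agent.P257.V4.B.NBWt

/-!
# P257, part B: the invariant ideals in the ring of functions on normal chains

`NB.I p k s = (v_1, …, v_k) ⊆ NB p s` (so `NB p s / NB.I p k s` is the cobar complex of
`BP_* / I_{k+1}`): invariance, `v_{k+1}` is a nonzerodivisor modulo `NB.I p k s` and agrees modulo
`NB.I p k s` at all vertices.
-/

noncomputable section

namespace Vale.Agent.P257.V4.B

open MvPolynomial Vale.Agent.P217 Vale.Agent.P251.F

variable {p : ℕ} {m n l s : ℕ}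

/-- The ideal `(v_1, …, v_k)` (generated at the vertex `0`; it is the same at every vertex). -/
def NB.I (p k s : ℕ) : Ideal (NB p s) := Ideal.span {x | ∃ j < k, x = NB.v j}

theorem NB.v_mem_I {k j : ℕ} (h : j < k) : (NB.v j : NB p s) ∈ NB.I p k s :=
  Ideal.subset_span ⟨j, h, rfl⟩

theorem NB.I_zero : NB.I p 0 s = ⊥ := by
  rw [NB.I, Ideal.span_eq_bot]
  rintro x ⟨j, hj, -⟩
  exact absurd hj (Nat.not_lt_zero j)

theorem NB.I_mono {k k' : ℕ} (h : k ≤ k') : NB.I p k s ≤ NB.I p k' s :=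
  Ideal.span_mono fun _ ⟨j, hj, hx⟩ => ⟨j, hj.trans_le h, hx⟩

theorem NB.I_succ (k : ℕ) : NB.I p (k + 1) s = NB.I p k s ⊔ Ideal.span {NB.v k} := by
  apply le_antisymm
  · refine Ideal.span_le.2 ?_
    rintro x ⟨j, hj, rfl⟩
    rcases Nat.lt_succ_iff_lt_or_eq.1 hj with h | rfl
    · exact Ideal.mem_sup_left (NB.v_mem_I h)
    · exact Ideal.mem_sup_right (Ideal.mem_span_singleton_self _)
  · refine sup_le (NB.I_mono (Nat.le_succ k)) ?_
    rw [Ideal.span_singleton_le_iff_mem]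
    exact NB.v_mem_I (Nat.lt_succ_self k)

theorem NB.mem_I_iff {k : ℕ} {x : NB p s} :
    x ∈ NB.I p k s ↔ ∀ m ∈ x.support, ∃ j < k, m (Sum.inl j) ≠ 0 := by
  have h : NB.I p k s = Ideal.span (X '' {i | ∃ j < k, i = Sum.inl j}) := by
    rw [NB.I]
    congr 1
    ext x
    constructor
    · rintro ⟨j, hj, rfl⟩
      exact ⟨_, ⟨j, hj, rfl⟩, rfl⟩
    · rintro ⟨_, ⟨j, hj, rfl⟩, rfl⟩
      exact ⟨j, hj, rfl⟩
  rw [h, mem_ideal_span_X_image]
  constructor
  · intro h1 m hm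
    obtain ⟨_, ⟨j, hj, rfl⟩, h2⟩ := h1 m hm
    exact ⟨j, hj, h2⟩
  · intro h1 m hm
    obtain ⟨j, hj, h2⟩ := h1 m hm
    exact ⟨_, ⟨j, hj, rfl⟩, h2⟩

/-- `v_{k+1}` is a nonzerodivisor modulo `(v_1, …, v_k)`. -/
theorem NB.reg {k : ℕ} {x : NB p s} (h : NB.v k * x ∈ NB.I p k s) : x ∈ NB.I p k s := by
  rw [NB.mem_I_iff] at h ⊢
  intro m hm
  have h1 : Finsupp.single (Sum.inl k) 1 + m ∈ (NB.v k * x).support := by
    rw [mem_support_iff, NB.v, coeff_X_mul]
    exact mem_support_iff.1 hm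
  obtain ⟨j, hj, h2⟩ := h _ h1
  refine ⟨j, hj, ?_⟩
  rwa [Finsupp.add_apply, Finsupp.single_eq_of_ne (by
    intro h3
    exact hj.ne (Sum.inl_injective h3)), zero_add] at h2

theorem NB.comp_mem_I {k : ℕ} {x : NB p s} (h : x ∈ NB.I p k s) (D : ℤ) :
    NB.comp p s D x ∈ NB.I p k s := by
  classical
  rw [NB.mem_I_iff] at h ⊢
  intro m hm
  refine h m ?_
  rw [mem_support_iff] at hm ⊢
  intro h1
  apply hm
  change coeff m (weightedHomogeneousComponent (NB.wf p s) D x) = 0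
  rw [coeff_weightedHomogeneousComponent, h1, ite_self]

theorem NB.comp_mul {D E : ℤ} {h : NB p s} (hh : h ∈ NB.W p s E) (a : NB p s) :
    NB.comp p s (E + D) (h * a) = h * NB.comp p s D a := by
  induction a using MvPolynomial.induction_on' with
  | monomial u r =>
    have h1 : (monomial u r : NB p s) ∈ NB.W p s (Finsupp.weight (NB.wf p s) u) :=
      isWeightedHomogeneous_monomial _ u r rfl
    rw [NB.comp_of_mem h1, NB.comp_of_mem (NB.mul_mem_W hh h1)]
    by_cases h2 : Finsupp.weight (NB.wf p s) u = D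
    · rw [if_pos h2, if_pos (by rw [h2])]
    · rw [if_neg h2, if_neg (fun h3 => h2 (add_left_cancel h3)), mul_zero]
  | add x y hx hy => rw [mul_add, map_add, map_add, hx, hy, mul_add]

/-- Homogeneous division by `v_{k+1}`. -/
theorem NB.exists_of_mem_I_succ {k : ℕ} {D : ℤ} {x : NB p s} (hx : x ∈ NB.W p s D)
    (h : x ∈ NB.I p (k + 1) s) :
    ∃ y ∈ NB.W p s (D - A.Ch.N p (k + 1)), x - NB.v k * y ∈ NB.I p k s := by
  rw [NB.I_succ, Submodule.mem_sup] at h
  obtain ⟨a, ha, b, hb, hab⟩ := h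
  obtain ⟨c, rfl⟩ := Ideal.mem_span_singleton'.1 hb
  refine ⟨NB.comp p s (D - A.Ch.N p (k + 1)) c, NB.comp_mem _ _, ?_⟩
  have h1 : x = NB.comp p s D a + NB.v k * NB.comp p s (D - A.Ch.N p (k + 1)) c := by
    have h2 := NB.comp_of_mem hx D
    rw [if_pos rfl] at h2
    conv_lhs => rw [← h2, ← hab]
    rw [map_add, ← NB.comp_mul (NB.v_mem_W k), mul_comm c, add_sub_cancel]
  have h3 : x - NB.v k * NB.comp p s (D - A.Ch.N p (k + 1)) c = NB.comp p s D a :=
    sub_eq_of_eq_add h1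
  rw [h3]
  exact NB.comp_mem_I ha D

variable [hp : Fact p.Prime]

theorem NB.Ih_FN (k : ℕ) : Ih p (k + 1) (FN p s) = NB.I p k s := by
  rw [Ih]
  apply le_antisymm
  · refine Ideal.span_le.2 ?_
    rintro _ ⟨i, hi, rfl⟩
    rcases i with _ | i
    · rw [vv_zero, p_eq_zero]
      exact Ideal.zero_mem _
    · rw [FN, vv_lawV]
      exact NB.v_mem_I (by omega)
  · refine Ideal.span_le.2 ?_
    rintro _ ⟨j, hj, rfl⟩
    exact Ideal.subset_span ⟨j + 1, by omega, vv_lawV _ _⟩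

theorem vertex_UN (i : Fin (s + 1)) : (UN p s).vertex i = (UN p s).g i • FN p s := by
  rw [Chain.vertex, Laz.law_eq, UN_law]

/-- The ideal is the same at every vertex. -/
theorem NB.Ih_vertex (k : ℕ) (i : Fin (s + 1)) :
    Ih p (k + 1) ((UN p s).vertex i) = NB.I p k s := by
  rw [vertex_UN, Ih_smul, NB.Ih_FN]

theorem NB.map_v (α : Fin (m + 1) → Fin (n + 1)) (k : ℕ) :
    NB.map α (NB.v k : NB p m) = vv p (k + 1) ((UN p n).vertex (α 0)) := by
  rw [NB.map, evN_v, ← vertex_zero, vertex_res]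

/-- `v_{k+1}` is the same at every vertex, modulo `(v_1, …, v_k)`. -/
theorem NB.vv_vertex_sub_mem (k : ℕ) (i : Fin (s + 1)) :
    vv p (k + 1) ((UN p s).vertex i) - NB.v k ∈ NB.I p k s := by
  have h := vv_smul_sub_mem p (k + 1) (FN p s) ((UN p s).g i)
  rw [mem_strict.1 ((UN p s).strict i), one_pow, mul_one, one_mul, NB.Ih_FN, ← vertex_UN, FN,
    vv_lawV] at h
  exact h

theorem NB.map_v_sub_mem (α : Fin (m + 1) → Fin (n + 1)) (k : ℕ) :
    NB.map α (NB.v k : NB p m) - NB.v k ∈ NB.I p k n := by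
  rw [NB.map_v]
  exact NB.vv_vertex_sub_mem k _

/-- Invariance. -/
theorem NB.map_mem_I (α : Fin (m + 1) → Fin (n + 1)) {k : ℕ} {x : NB p m}
    (hx : x ∈ NB.I p k m) : NB.map α x ∈ NB.I p k n := by
  have h : (NB.I p k m).map (NB.map α) ≤ NB.I p k n := by
    rw [NB.I, Ideal.map_span]
    refine Ideal.span_le.2 ?_
    rintro _ ⟨_, ⟨j, hj, rfl⟩, rfl⟩
    have h1 := NB.I_mono (p := p) (s := n) hj.le (NB.map_v_sub_mem α j)
    have h2 := Ideal.add_mem _ h1 (NB.v_mem_I (p := p) (s := n) hj)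
    rwa [sub_add_cancel] at h2
  exact h (Ideal.mem_map_of_mem _ hx)

theorem NB.d_mem_I {k : ℕ} {x : NB p s} (hx : x ∈ NB.I p k s) :
    NB.d p s x ∈ NB.I p k (s + 1) := by
  rw [NB.d_apply]
  exact sum_mem fun i _ => zsmul_mem (S := Ideal (NB p (s + 1))) (NB.map_mem_I _ hx) _

end Vale.Agent.P257.V4.B

end
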