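import Vale.Agent.P257.V4.B.RightId
import Vale.Agent.P257.V4.B.NBIdeal
import Vale.Agent.P251.F.T1Coc
import Mathlib.NumberTheory.Padics.RingHoms

/-!
# P257, part B-iv / T0: the cochains `t₁`, `b₀`

* `sparse_multL`, `sparse_isoL` : sparseness over `p`-local rings;
* `vv_one_smul` : `v_1 (g • F) = v_1 F + (p ^ p - p) t`, `t` the coefficient of `g` at `x ^ p`;
* `exists_lift_UN` : the universal normal chain lifts to a normal chain over a torsion free
  `p`-local ring;
* `toNB_t` : if `p t = d v_1` in `Cob Laz 1` then `t ↦ - t₁` in `NB p 1`;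
* `toNB_bcls` : `bcls p t ↦ - b₀` in `NB p 2`.
-/

noncomputable section

namespace Vale.Agent.P257.V4.B

open Vale.Agent.P217 Vale.Agent.P251.F Vale.Agent.P251.I

variable {p : ℕ} [hp : Fact p.Prime] {B : Type} [CommRing B] {m n s : ℕ}

/-! ### sparseness over `p`-local rings -/

omit hp in
theorem PLoc.gai [PLoc p B] : PLoc p (GA p B) := PLoc.of_hom (Vale.Agent.P257.V4.B.gai p B)

omit hp in
theorem lin_gau_smulL {F : Law B} (hF : IsNF p F) :
    InvSeries.lin (gau p B) • F.map (gai p B) = F.map (gai p B) := by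
  have h1 : (InvSeries.lin (gau p B))⁻¹ • F.map (gai p B) = F.map (gai p B) := by
    refine law_ext_xC fun n => ?_
    rw [xC_lin_inv_smul]
    by_cases h : IsPw p n
    · obtain ⟨k, hk⟩ := h
      have h1 : n + 1 = p ^ k - 1 := by omega
      rw [gau_pow_eq_one (by rw [h1]; exact sub_one_dvd k), one_mul]
    · rw [(hF.map (gai p B)) n h, mul_zero]
  conv_lhs => rw [← h1]
  rw [smul_inv_smul]

omit hp in
theorem sparse_multL {F : Law B} (hF : IsNF p F) {n : ℕ} (m : ℕ)
    (hn : ¬ (p - 1) ∣ n) : PowerSeries.coeff (n + 1) (multSeries F.toFG m) = 0 := by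
  refine eq_zero_of_gau (p := p) hn ?_
  have h := coeff_multSeries_lin_inv_smul (gau p B) (F.map (gai p B)) m n
  have h1 : (InvSeries.lin (gau p B))⁻¹ • F.map (gai p B) = F.map (gai p B) := by
    rw [inv_smul_eq_iff, lin_gau_smulL hF]
  rw [h1, Law.map_toFG, ← map_multSeries, PowerSeries.coeff_map] at h
  exact h.symm

theorem sparse_isoL [PLoc p B] {F : Law B} {g : InvSeries B} (hg : g ∈ strict B)
    (hF : IsNF p F) (hgF : IsNF p (g • F)) {n : ℕ} (hn : ¬ (p - 1) ∣ n) : g.c n = 0 := by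
  refine eq_zero_of_gau (p := p) hn ?_
  have : PLoc p (GA p B) := PLoc.gai
  set u := gau p B
  set g' := InvSeries.map (gai p B) g with hg'
  have h1 : (InvSeries.lin u)⁻¹ * g' * InvSeries.lin u = g' := by
    refine ext_of_isNF (p := p) (F.map (gai p B)) ?_ (map_mem_strict _ hg) (fun m hm => ?_) ?_ ?_
    · have h := (strict_normal (B := GA p B)).conj_mem g' (map_mem_strict _ hg)
        (InvSeries.lin u)⁻¹
      rwa [inv_inv] at h
    · obtain ⟨k, hk⟩ := hm
      rw [c_conj_lin, gau_pow_eq_one (by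
        rw [show m + 1 = p ^ k - 1 by omega]; exact sub_one_dvd k), one_mul]
    · rw [mul_smul, lin_gau_smulL hF, mul_smul, hg', ← InvSeries.map_smul, inv_smul_eq_iff.2
        (lin_gau_smulL hgF).symm]
      exact hgF.map _
    · rw [hg', ← InvSeries.map_smul]
      exact hgF.map _
  have h2 := c_conj_lin u g' n
  rw [h1, hg', InvSeries.c_map] at h2
  exact h2.symm

/-- the right unit of `v_1` over `p`-local rings -/
theorem vv_one_smul [PLoc p B] {F : Law B} {g : InvSeries B} (hg : g ∈ strict B)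
    (hF : IsNF p F) (hgF : IsNF p (g • F)) :
    vv p 1 (g • F) = vv p 1 F + ((p : B) ^ p - p) * g.c (p - 1) := by
  have hp1 : p - 1 + 1 = p := Nat.sub_add_cancel hp.out.one_lt.le
  have hpp : 1 < p := hp.out.one_lt
  have hz : ∀ {G : Law B}, IsNF p G → ∀ n < p, n ≠ 1 →
      PowerSeries.coeff n (multSeries G.toFG p) = 0 := by
    intro G hG n hn hn'
    rcases Nat.eq_zero_or_pos n with rfl | h0
    · rw [PowerSeries.coeff_zero_eq_constantCoeff_apply, constantCoeff_multSeries]
    · obtain ⟨m, rfl⟩ := Nat.exists_eq_succ_of_ne_zero h0.ne'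
      refine sparse_multL hG p fun h => ?_
      have := Nat.le_of_dvd (by omega) h
      omega
  obtain ⟨a, ha⟩ := exists_two_terms (f := multSeries F.toFG p) hpp (hz hF)
  obtain ⟨a', ha'⟩ := exists_two_terms (f := multSeries (g • F).toFG p) hpp (hz hgF)
  obtain ⟨b, hb⟩ := exists_two_terms (f := g.val) hpp (fun n hn hn' => by
    rcases Nat.eq_zero_or_pos n with rfl | h0
    · rw [PowerSeries.coeff_zero_eq_constantCoeff_apply]
      exact g.cc
    · obtain ⟨m, rfl⟩ := Nat.exists_eq_succ_of_ne_zero h0.ne'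
      refine sparse_isoL hg hF hgF (n := m) fun h => ?_
      have := Nat.le_of_dvd (by omega) h
      omega)
  have hg1 : PowerSeries.coeff 1 g.val = 1 := mem_strict.1 hg
  have hgp : PowerSeries.coeff p g.val = g.c (p - 1) := by rw [InvSeries.c, hp1]
  rw [hg1, hgp, map_one, one_mul, pow_one] at hb
  have hv : ∀ G : Law B, PowerSeries.coeff p (multSeries G.toFG p) = vv p 1 G := fun G => by
    rw [vv, pow_one]
  rw [coeff_one_multSeries, hv, pow_one] at ha ha'
  set t := g.c (p - 1) with ht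
  have key := congrArg (PowerSeries.coeff p) (smul_multSeries g F p)
  set A := multSeries F.toFG p with hA
  have hAs : PowerSeries.HasSubst A := hasSubst_of_cc (constantCoeff_multSeries _ _)
  have hX : ∀ {f : PowerSeries B}, PowerSeries.constantCoeff f = 0 →
      PowerSeries.coeff p (f ^ p) = PowerSeries.coeff 1 f ^ p ∧
      ∀ h : PowerSeries B, PowerSeries.coeff p (f ^ (p + 1) * h) = 0 := by
    intro f hf
    obtain ⟨f1, h2⟩ := PowerSeries.X_dvd_iff.2 hf
    have h3 : PowerSeries.coeff 1 f = PowerSeries.constantCoeff f1 := by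
      rw [h2, ← zero_add 1, PowerSeries.coeff_succ_X_mul,
        PowerSeries.coeff_zero_eq_constantCoeff_apply]
    refine ⟨?_, fun h => ?_⟩
    · rw [h3, h2, mul_pow, PowerSeries.coeff_X_pow_mul', if_pos le_rfl, Nat.sub_self,
        PowerSeries.coeff_zero_eq_constantCoeff_apply, map_pow]
    · rw [h2, mul_pow, mul_assoc, PowerSeries.coeff_X_pow_mul', if_neg (by omega)]
  have hL : PowerSeries.coeff p (PowerSeries.subst A g.val : PowerSeries B) =
      vv p 1 F + t * (p : B) ^ p := by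
    have hA0 : PowerSeries.constantCoeff A = 0 := constantCoeff_multSeries _ _
    have e4 : (MvPowerSeries.C t : MvPowerSeries Unit B) = PowerSeries.C t := rfl
    rw [hb, PowerSeries.subst_add hAs, PowerSeries.subst_add hAs, PowerSeries.subst_mul hAs,
      PowerSeries.subst_mul hAs, PowerSeries.subst_pow hAs, PowerSeries.subst_pow hAs,
      PowerSeries.subst_X hAs, PowerSeries.subst_C, map_add, map_add, e4,
      PowerSeries.coeff_C_mul, (hX hA0).1, (hX hA0).2, hA, hv, coeff_one_multSeries, add_zero]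
  have hR : PowerSeries.coeff p (PowerSeries.subst g.val
      (multSeries (g • F).toFG p) : PowerSeries B) = p * t + vv p 1 (g • F) := by
    have hgs := g.hs
    have e4 : (MvPowerSeries.C (p : B) : MvPowerSeries Unit B) = PowerSeries.C (p : B) := rfl
    have e5 : (MvPowerSeries.C (vv p 1 (g • F)) : MvPowerSeries Unit B) =
      PowerSeries.C (vv p 1 (g • F)) := rfl
    rw [ha', PowerSeries.subst_add hgs, PowerSeries.subst_add hgs, PowerSeries.subst_mul hgs,
      PowerSeries.subst_mul hgs, PowerSeries.subst_mul hgs, PowerSeries.subst_pow hgs,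
      PowerSeries.subst_pow hgs, PowerSeries.subst_X hgs, PowerSeries.subst_C,
      PowerSeries.subst_C, map_add, map_add, e4, e5, PowerSeries.coeff_C_mul,
      PowerSeries.coeff_C_mul, (hX g.cc).1, (hX g.cc).2, hg1, hgp]
    ring
  rw [hL, hR] at key
  linear_combination -key

/-! ### lifting the universal normal chain -/

/-- a torsion free `p`-local ring over `NB p s` -/
abbrev NBZ (p : ℕ) [Fact p.Prime] (s : ℕ) : Type := MvPolynomial (ℕ ⊕ (Fin s × ℕ)) ℤ_[p]

/-- reduction modulo `p` -/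
def redZ (p : ℕ) [Fact p.Prime] (s : ℕ) : NBZ p s →+* NB p s :=
  MvPolynomial.map PadicInt.toZMod

theorem redZ_surjective : Function.Surjective (redZ p s) :=
  MvPolynomial.map_surjective _ (ZMod.ringHom_surjective _)

theorem ploc_NBZ : PLoc p (NBZ p s) := by
  have : PLoc p ℤ_[p] := ⟨fun m hm => by
    rw [PadicInt.isUnit_iff]
    have h1 := PadicInt.norm_int_lt_one_iff_dvd (p := p) (m : ℤ)
    have h2 : ¬ (‖((m : ℤ) : ℤ_[p])‖ < 1) := by
      rw [h1]
      exact_mod_cast hm
    have h3 := PadicInt.norm_le_one ((m : ℤ) : ℤ_[p])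
    rw [Int.cast_natCast] at h2 h3
    exact le_antisymm h3 (not_lt.1 h2)⟩
  exact PLoc.of_hom (MvPolynomial.C : ℤ_[p] →+* NBZ p s)

/-- the chain with given first law and given series -/
def mkCh (F : Law B) (g : Fin s → InvSeries B) (hg : ∀ i, g i ∈ strict B) : Chain Laz s B where
  pt := Laz.lift F
  g := Fin.cons 1 g
  strict := by
    intro i
    refine Fin.cases ?_ (fun i => ?_) i
    · rw [Fin.cons_zero]
      exact one_mem _
    · rw [Fin.cons_succ]
      exact hg i
  zero := Fin.cons_zero _ _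

omit hp in
theorem mkCh_g_succ (F : Law B) (g : Fin s → InvSeries B) (hg : ∀ i, g i ∈ strict B)
    (i : Fin s) : (mkCh F g hg).g i.succ = g i :=
  Fin.cons_succ (α := fun _ => InvSeries B) 1 g i

omit hp in
theorem mkCh_law (F : Law B) (g : Fin s → InvSeries B) (hg : ∀ i, g i ∈ strict B) :
    Laz.univ.map (mkCh F g hg).pt = F := Laz.univ_map_lift F

theorem exists_lift_UN (p : ℕ) [Fact p.Prime] (s : ℕ) : ∃ c : Chain Laz s (NBZ p s),
    IsNCh p c ∧ c.map (redZ p s) = UN p s := by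
  classical
  have := ploc_NBZ (p := p) (s := s)
  have h1 : ∀ n, ∃ x : NBZ p s, redZ p s x = xC (FN p s) n ∧ (¬ IsPw p n → x = 0) := by
    intro n
    by_cases h : IsPw p n
    · obtain ⟨x, hx⟩ := redZ_surjective (xC (FN p s) n)
      exact ⟨x, hx, fun h' => absurd h h'⟩
    · exact ⟨0, (map_zero _).trans (isNF_lawV (p := p) (NB.v (s := s)) n h).symm, fun _ => rfl⟩
  choose x hx hx0 using h1
  have h2 : ∀ (i : Fin s) (n : ℕ), ∃ y : NBZ p s, redZ p s y = pw p (NB.t i) n :=
    fun i n => redZ_surjective _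
  choose y hy using h2
  have hF : IsNF p (lawOfX x) := fun n hn => by rw [xC_lawOfX, hx0 n hn]
  have hFm : (lawOfX x).map (redZ p s) = FN p s := law_ext_xC fun n => by
    rw [← map_xC, xC_lawOfX, hx]
  refine ⟨mkCh (lawOfX x) (fun i => nfS p (lawOfX x) (y i)) fun i => nfS_mem _ _, ?_, ?_⟩
  · intro i
    refine Fin.cases ?_ (fun i => ?_) i
    · rw [vertex_zero, mkCh_law]
      exact hF
    · rw [Chain.vertex, Laz.law_eq, mkCh_law, mkCh_g_succ]
      exact isNF_nfS _ _
  · ext1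
    · rw [Chain.map_pt, UN_pt, ← hFm, ← Laz.comp_lift]
      rfl
    · funext i
      refine Fin.cases ?_ (fun i => ?_) i
      · rw [Chain.map_g, Chain.zero, map_one, UN_g_zero]
      · rw [Chain.map_g, mkCh_g_succ, map_nfS, hFm, UN_g_succ]
        congr 1
        funext n
        exact hy i n

/-! ### the classes `t₁` and `b₀` -/

/-- If `p t = d v_1` then `t` is `- t₁` on normal chains in characteristic `p`. -/
theorem toNB_t {t : Cob Laz 1} (ht : IsT1 p t) : toNB p 1 t = - NB.t 0 0 := by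
  obtain ⟨c, hc, hcm⟩ := exists_lift_UN p 1
  have := ploc_NBZ (p := p) (s := 1)
  have h1 := congrArg (Cob.ev c) ht
  rw [map_zsmul, Cob.ev_d, Fin.sum_univ_two, Cob.ev_C, Cob.ev_C, Laz.map_v, Laz.map_v] at h1
  have e0 : Laz.univ.map (c.res (Fin.succAbove 0)).pt = c.g 1 • c.vertex 0 := by
    rw [← vertex_zero, vertex_res, vertex_zero]
    rfl
  have e1 : Laz.univ.map (c.res (Fin.succAbove 1)).pt = c.vertex 0 := by
    rw [← vertex_zero, vertex_res]
    rfl
  have e2 : c.vertex 1 = c.g 1 • c.vertex 0 := by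
    rw [vertex_zero]
    rfl
  rw [e0, e1, vv_one_smul (c.strict 1) (hc 0) (by rw [← e2]; exact hc 1)] at h1
  have h2 : (p : NBZ p 1) * (Cob.ev c t) =
      (p : NBZ p 1) * (((p : NBZ p 1) ^ (p - 1) - 1) * (c.g 1).c (p - 1)) := by
    have h3 : (p : NBZ p 1) ^ p = (p : NBZ p 1) * (p : NBZ p 1) ^ (p - 1) := by
      rw [← pow_succ', Nat.sub_add_cancel hp.out.one_lt.le]
    rw [h3] at h1
    simp only [zsmul_eq_mul, Int.cast_natCast, Fin.val_zero, pow_zero, Int.cast_one, one_mul,
      Fin.val_one, pow_one, Int.cast_neg] at h1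
    linear_combination h1
  have hp0 : (p : NBZ p 1) ≠ 0 := by
    rw [← map_natCast (MvPolynomial.C (σ := ℕ ⊕ (Fin 1 × ℕ)) (R := ℤ_[p]))]
    intro h
    have h3 := MvPolynomial.C_injective _ _ (h.trans (map_zero _).symm)
    exact hp.out.ne_zero (by exact_mod_cast h3)
  have h3 := mul_left_cancel₀ hp0 h2
  have h4 := congrArg (redZ p 1) h3
  rw [← Cob.ev_map, hcm, map_mul, map_sub, map_pow, map_natCast, map_one, p_eq_zero p (NB p 1),
    zero_pow (by have := hp.out.one_lt; omega), zero_sub, ← InvSeries.c_map, ← Chain.map_g,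
    hcm, neg_one_mul] at h4
  have h5 := evN_t' (p := p) (UN p 1) 0
  rw [evN_UN, RingHom.id_apply] at h5
  rw [toNB, h4, h5]
  rfl

/-- `b₀` in `NB p 2` -/
def bN (p : ℕ) [Fact p.Prime] : NB p 2 :=
  (∑ i ∈ Finset.Ioo 0 p, ((p.choose i / p : ℕ) : ℤ) •
    NB.cup (a := 1) (b := 1) (NB.t 0 0 ^ i) (NB.t 0 0 ^ (p - i)) : NB p (1 + 1))

/-- The image of `bcls p t`. -/
theorem toNB_bcls (hp2 : p ≠ 2) {t : Cob Laz 1} (ht : IsT1 p t) :
    toNB p 2 (bcls p t) = - bN p := by
  rw [bcls, map_sum, bN, ← Finset.sum_neg_distrib]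
  refine Finset.sum_congr rfl fun i hi => ?_
  rw [Finset.mem_Ioo] at hi
  have h1 : toNB p (1 + 1) (Cob.cup (t ^ i) (t ^ (p - i))) =
      - NB.cup (NB.t (p := p) (s := 1) 0 0 ^ i) (NB.t 0 0 ^ (p - i)) := by
    rw [toNB_cup, map_pow, map_pow, toNB_t ht, NB.cup, NB.cup, map_pow, map_pow, map_pow,
      map_pow, map_neg, map_neg, neg_pow (NB.map (Cob.front 1 1) _) i,
      neg_pow (NB.map (Cob.back 1 1) _) (p - i)]
    have h2 : (-1 : NB p (1 + 1)) ^ i * (-1) ^ (p - i) = -1 := by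
      rw [← pow_add, Nat.add_sub_cancel' hi.2.le]
      exact (hp.out.odd_of_ne_two hp2).neg_one_pow
    linear_combination (NB.map (Cob.front 1 1) (NB.t 0 0) ^ i *
      NB.map (Cob.back 1 1) (NB.t 0 0) ^ (p - i)) * h2
  rw [map_zsmul]
  change _ • toNB p (1 + 1) _ = _
  rw [h1, smul_neg]

/-- `b₀` is a cocycle. -/
theorem NB.d_bN (hp2 : p ≠ 2) : NB.d p 2 (bN p) = 0 := by
  obtain ⟨t, ht⟩ := T1 p
  obtain ⟨-, -, -, h4, -⟩ := BCocycle p hp2 t ht
  have h := toNB_d (p := p) (bcls p t)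
  rw [h4, map_zero, toNB_bcls hp2 ht, map_neg] at h
  exact neg_eq_zero.1 h.symm

/-! ### the right unit with `NB.I` -/

/-- `d v_{k+2} = - v_{k+1} a` modulo `(v_1, …, v_k)`. -/
theorem NB.d_v_add_mem_I (k : ℕ) :
    NB.d p 0 (NB.v (k + 1)) + NB.v k * aN p k ∈ NB.I p k 1 :=
  NB.d_v_add_mem k _ fun _ hj => NB.v_mem_I hj

/-- `d a = 0` modulo `(v_1, …, v_k)`. -/
theorem NB.d_aN_mem_I (k : ℕ) : NB.d p 1 (aN p k) ∈ NB.I p k 2 :=
  NB.d_aN_mem k _ fun _ hj => NB.v_mem_I hj

theorem toNB_d_vL_mem_I (k : ℕ) :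
    toNB p 1 (Cob.d 0 (vL p 0 (k + 1)) + vL p 1 k * aL p k) ∈ NB.I p k 1 :=
  toNB_d_vL_mem k _ fun _ hj => NB.v_mem_I hj

theorem toNB_d_aL_mem_I (k : ℕ) : toNB p 2 (Cob.d 1 (aL p k)) ∈ NB.I p k 2 :=
  toNB_d_aL_mem k _ fun _ hj => NB.v_mem_I hj

end Vale.Agent.P257.V4.B

end
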