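import Vale.Agent.P257.V4.B.NBIdeal
import Vale.Agent.P257.V4.B.AddSer

/-!
# P257, part B: comparison of `NB p s` with `A.Ch p s`

`toCh p s : NB p s →+* A.Ch p s`, `v_k ↦ 0`, `NB.t i k ↦ X (i,k)`: restriction of functions to
chains of automorphisms of the additive law. It is compatible with the cosimplicial structures,
onto, homogeneous, and in the weights `< N_{k+1}` its kernel is `NB.I p k s`.
-/

noncomputable section

namespace Vale.Agent.P257.V4.B

open MvPolynomial Vale.Agent.P217 Vale.Agent.P251.F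

variable {p : ℕ} [hp : Fact p.Prime] {B C : Type} [CommRing B] [Algebra (ZMod p) B] [CommRing C]
  [Algebra (ZMod p) C] {m n l s : ℕ}

/-! ### chains of automorphisms of the additive law -/

/-- The chain of the additive law. -/
def addCh (c : A.Chain p n B) : Chain Laz n B where
  pt := Laz.lift (addLaw B)
  g i := Ser (c.g i)
  strict _ := Ser_mem _
  zero := by rw [c.zero, Ser_one]

theorem addCh_vertex (c : A.Chain p n B) (i : Fin (n + 1)) :
    (addCh c).vertex i = addLaw B := by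
  have h : (addCh c).vertex i = Ser (c.g i) • Laz.univ.map (Laz.lift (addLaw B)) := rfl
  rw [h, Laz.univ_map_lift, Ser_smul_addLaw]

theorem isNCh_addCh (c : A.Chain p n B) : IsNCh p (addCh c) := fun i => by
  rw [addCh_vertex]
  exact isNF_addLaw

theorem addCh_res (α : Fin (m + 1) → Fin (n + 1)) (c : A.Chain p n B) :
    (addCh c).res α = addCh (c.res α) := by
  ext1
  · have h : ((addCh c).res α).pt =
        Laz.lift (Ser (c.g (α 0)) • Laz.univ.map (Laz.lift (addLaw B))) := rfl
    rw [h, Laz.univ_map_lift, Ser_smul_addLaw]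
    rfl
  · funext i
    have h : ((addCh c).res α).g i = Ser (c.g (α i)) * (Ser (c.g (α 0)))⁻¹ := rfl
    have h' : (addCh (c.res α)).g i = Ser (c.g (α i) * (c.g (α 0))⁻¹) := rfl
    rw [h, h', Ser_mul, Ser_inv]

theorem addCh_map (φ : B →+* C) (c : A.Chain p n B) :
    (addCh c).map φ = addCh (c.map φ) := by
  ext1
  · have h : ((addCh c).map φ).pt = φ.comp (Laz.lift (addLaw B)) := rfl
    have h' : (addCh (c.map φ)).pt = Laz.lift (addLaw C) := rfl
    rw [h, h', Laz.comp_lift, map_addLaw]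
  · funext i
    have h : ((addCh c).map φ).g i = InvSeries.map φ (Ser (c.g i)) := rfl
    have h' : (addCh (c.map φ)).g i = Ser ((c.g i).map φ) := rfl
    rw [h, h', map_Ser]

/-! ### the map to `A.Ch` -/

/-- Restriction of functions to chains of automorphisms of the additive law. -/
def toCh (p : ℕ) [Fact p.Prime] (s : ℕ) : NB p s →+* A.Ch p s := evN p (addCh (A.Ch.univ p s))

theorem ev_toCh (c : A.Chain p s B) (x : NB p s) :
    A.Ch.ev c (toCh p s x) = evN p (addCh c) x := by
  rw [toCh, ← evN_map_apply, addCh_map, A.Ch.univ_map_ev]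

@[simp] theorem toCh_v (k : ℕ) : toCh p s (NB.v k) = 0 := by
  rw [toCh, evN_v, ← vertex_zero, addCh_vertex, vv_addLaw]

@[simp] theorem toCh_t (i : Fin s) (k : ℕ) : toCh p s (NB.t i k) = X (i, k) := by
  rw [toCh, evN_t]
  have h : (addCh (A.Ch.univ p s)).g i.succ = Ser ((A.Ch.univ p s).g i.succ) := rfl
  rw [h, A.Ch.univ_g_succ, c_Ser_ix, A.G.mk_a_succ]

theorem toCh_map (α : Fin (m + 1) → Fin (n + 1)) (x : NB p m) :
    toCh p n (NB.map α x) = A.Ch.map α (toCh p m x) := by
  apply A.Ch.ext_ev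
  intro B _ _ c
  rw [ev_toCh, evN_res (isNCh_addCh c), addCh_res, A.Ch.ev_map_res, ev_toCh]

theorem toCh_d (x : NB p n) : toCh p (n + 1) (NB.d p n x) = A.Ch.d n (toCh p n x) := by
  rw [NB.d_apply, A.Ch.d_apply, map_sum]
  refine Finset.sum_congr rfl fun i _ => ?_
  rw [map_zsmul, toCh_map]

theorem toCh_cup {a b : ℕ} (x : NB p a) (y : NB p b) :
    toCh p (a + b) (NB.cup x y) = A.Ch.cup rfl (toCh p a x) (toCh p b y) := by
  rw [NB.cup, A.Ch.cup, map_mul, toCh_map, toCh_map]
  have h : (Cob.back a b : Fin (b + 1) → Fin (a + b + 1)) =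
      A.Ch.back (n := a + b) (by omega) := by
    funext i
    apply Fin.ext
    simp only [Cob.back, A.Ch.back]
    omega
  rw [h]
  rfl

/-! ### coefficients -/

/-- the section: polynomials in the `t`'s only -/
def incl (p : ℕ) [Fact p.Prime] (s : ℕ) : A.Ch p s →+* NB p s := (rename Sum.inr : A.Ch p s →ₐ[ZMod p] NB p s)

theorem toCh_incl (x : A.Ch p s) : toCh p s (incl p s x) = x := by
  have h : (toCh p s).comp (incl p s) = RingHom.id _ := by
    refine A.Ch.hom_ext fun ik => ?_
    rw [RingHom.comp_apply, RingHom.id_apply]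
    have h1 : incl p s (X ik) = NB.t ik.1 ik.2 := by
      change rename Sum.inr (X ik) = _
      rw [rename_X]
      rfl
    rw [h1, toCh_t]
  exact congrArg (fun f : A.Ch p s →+* A.Ch p s => f x) h

theorem toCh_surjective : Function.Surjective (toCh p s) := fun x => ⟨_, toCh_incl x⟩

theorem coeff_toCh (x : NB p s) (d : (Fin s × ℕ) →₀ ℕ) :
    coeff d (toCh p s x) = coeff (d.mapDomain Sum.inr) x := by
  classical
  induction x using MvPolynomial.induction_on' with
  | monomial u a =>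
    by_cases h : ∃ k, u (Sum.inl k) ≠ 0
    · obtain ⟨k, hk⟩ := h
      have h1 : (monomial u a : NB p s) = monomial (u - Finsupp.single (Sum.inl k) 1) a *
          NB.v k := by
        rw [NB.v, ← pow_one (X (Sum.inl k)), X_pow_eq_monomial, monomial_mul, mul_one,
          tsub_add_cancel_of_le]
        rw [Finsupp.single_le_iff]
        omega
      have h2 : toCh p s (monomial u a) = 0 := by rw [h1, map_mul, toCh_v, mul_zero]
      have h3 : u ≠ d.mapDomain Sum.inr := by
        rintro rfl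
        refine hk ?_
        rw [Finsupp.mapDomain_of_notMem_range]
        rintro ⟨x, hx⟩
        exact absurd hx (by simp)
      rw [h2, coeff_zero, coeff_monomial, if_neg h3]
    · push Not at h
      have h4 : (u.support : Set (ℕ ⊕ (Fin s × ℕ))) ⊆ Set.range Sum.inr := by
        intro i hi
        rcases i with k | ik
        · exact absurd (h k) (Finsupp.mem_support_iff.1 hi)
        · exact ⟨ik, rfl⟩
      obtain ⟨u', rfl⟩ : ∃ u' : (Fin s × ℕ) →₀ ℕ, u = u'.mapDomain Sum.inr :=
        ⟨u.comapDomain Sum.inr Sum.inr_injective.injOn,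
          (Finsupp.mapDomain_comapDomain _ Sum.inr_injective u h4).symm⟩
      have h5 : (monomial (u'.mapDomain Sum.inr) a : NB p s) = incl p s (monomial u' a) := by
        change _ = rename Sum.inr (monomial u' a)
        rw [rename_monomial]
      rw [h5, toCh_incl, ← h5, coeff_monomial, coeff_monomial]
      by_cases h6 : u' = d
      · rw [if_pos h6, if_pos (by rw [h6])]
      · rw [if_neg h6, if_neg (fun h7 => h6 (Finsupp.mapDomain_injective Sum.inr_injective h7))]
  | add x y hx hy => rw [map_add, coeff_add, coeff_add, hx, hy]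

theorem exists_inl_of_toCh_eq_zero {x : NB p s} (h : toCh p s x = 0)
    {u : (ℕ ⊕ (Fin s × ℕ)) →₀ ℕ} (hu : u ∈ x.support) : ∃ k, u (Sum.inl k) ≠ 0 := by
  by_contra h1
  push Not at h1
  have h4 : (u.support : Set (ℕ ⊕ (Fin s × ℕ))) ⊆ Set.range Sum.inr := by
    intro i hi
    rcases i with k | ik
    · exact absurd (h1 k) (Finsupp.mem_support_iff.1 hi)
    · exact ⟨ik, rfl⟩
  have h2 := coeff_toCh x (u.comapDomain Sum.inr Sum.inr_injective.injOn)
  rw [h, coeff_zero, Finsupp.mapDomain_comapDomain _ Sum.inr_injective u h4] at h2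
  exact mem_support_iff.1 hu h2.symm

/-! ### weights -/

/-- elements of weight `D : ℤ` of `A.Ch p s` -/
def ChW (p : ℕ) [Fact p.Prime] (s : ℕ) (D : ℤ) : AddSubgroup (A.Ch p s) :=
  (weightedHomogeneousSubmodule (ZMod p) (fun ik : Fin s × ℕ => (A.Ch.N p (ik.2 + 1) : ℤ))
    D).toAddSubgroup

theorem mem_ChW {D : ℤ} {x : A.Ch p s} : x ∈ ChW p s D ↔
    IsWeightedHomogeneous (fun ik : Fin s × ℕ => (A.Ch.N p (ik.2 + 1) : ℤ)) x D := Iff.rfl

omit hp in
theorem weight_cast (d : (Fin s × ℕ) →₀ ℕ) :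
    Finsupp.weight (fun ik : Fin s × ℕ => (A.Ch.N p (ik.2 + 1) : ℤ)) d =
      (Finsupp.weight (A.Ch.vwt p s) d : ℤ) := by
  rw [Finsupp.weight_apply, Finsupp.weight_apply, Finsupp.sum, Finsupp.sum, Nat.cast_sum]
  refine Finset.sum_congr rfl fun i _ => ?_
  simp only [nsmul_eq_mul, smul_eq_mul, Nat.cast_mul, A.Ch.vwt]

omit hp in
theorem weight_inr (d : (Fin s × ℕ) →₀ ℕ) :
    Finsupp.weight (NB.wf p s) (d.mapDomain Sum.inr) =
      Finsupp.weight (fun ik : Fin s × ℕ => (A.Ch.N p (ik.2 + 1) : ℤ)) d := by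
  rw [Finsupp.weight_apply, Finsupp.weight_apply, Finsupp.sum_mapDomain_index]
  · rfl
  · intro i
    rw [zero_smul]
  · intro i a b
    rw [add_smul]

theorem mem_ChW_natCast {D : ℕ} {x : A.Ch p s} : x ∈ ChW p s D ↔ A.Ch.IsWt D x := by
  rw [mem_ChW, A.Ch.IsWt]
  constructor
  · intro h d hd
    have := h hd
    rw [weight_cast] at this
    exact_mod_cast this
  · intro h d hd
    rw [weight_cast]
    exact_mod_cast h hd

theorem toCh_mem_ChW {D : ℤ} {x : NB p s} (hx : x ∈ NB.W p s D) : toCh p s x ∈ ChW p s D := by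
  intro d hd
  rw [coeff_toCh] at hd
  rw [← weight_inr]
  exact hx hd

theorem incl_mem_W {D : ℤ} {x : A.Ch p s} (hx : x ∈ ChW p s D) : incl p s x ∈ NB.W p s D := by
  classical
  intro d hd
  change coeff d (rename Sum.inr x) ≠ 0 at hd
  obtain ⟨u, rfl, hu⟩ := coeff_rename_ne_zero _ _ _ hd
  rw [weight_inr]
  exact hx hu

theorem Ch_map_mem_ChW (α : Fin (m + 1) → Fin (n + 1)) {D : ℤ} {x : A.Ch p m}
    (hx : x ∈ ChW p m D) : A.Ch.map α x ∈ ChW p n D := by
  rw [← toCh_incl x, ← toCh_map]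
  exact toCh_mem_ChW (NB.map_mem_W α (incl_mem_W hx))

theorem Ch_d_mem_ChW {D : ℤ} {x : A.Ch p n} (hx : x ∈ ChW p n D) :
    A.Ch.d n x ∈ ChW p (n + 1) D := by
  rw [A.Ch.d_apply]
  exact sum_mem fun i _ => zsmul_mem (Ch_map_mem_ChW _ hx) _

omit hp in
theorem lt_of_N_lt {j k : ℕ} (h : A.Ch.N p j < A.Ch.N p k) : j < k := by
  by_contra h1
  push Not at h1
  have : A.Ch.N p k ≤ A.Ch.N p j :=
    Finset.sum_le_sum_of_subset (Finset.range_subset_range.2 h1)
  omega

/-- In the weights `< N_{k+1}` the kernel of `toCh` is `(v_1, …, v_k)`. -/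
theorem mem_I_of_toCh_eq_zero {k : ℕ} {D : ℤ} {x : NB p s} (hx : x ∈ NB.W p s D)
    (hD : D < A.Ch.N p (k + 1)) (h : toCh p s x = 0) : x ∈ NB.I p k s := by
  rw [NB.mem_I_iff]
  intro u hu
  obtain ⟨j, hj⟩ := exists_inl_of_toCh_eq_zero h hu
  refine ⟨j, ?_, hj⟩
  have h1 : Finsupp.weight (NB.wf p s) u = D := hx (mem_support_iff.1 hu)
  have h2 : (A.Ch.N p (j + 1) : ℤ) ≤ Finsupp.weight (NB.wf p s) u := by
    rw [Finsupp.weight_apply, Finsupp.sum]
    have h3 := Finset.single_le_sum (f := fun i => u i • NB.wf p s i) (s := u.support)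
      (fun i _ => nsmul_nonneg (by
        rcases i with k | ik
        · exact Int.natCast_nonneg _
        · exact Int.natCast_nonneg _) _) (Finsupp.mem_support_iff.2 hj)
    refine le_trans ?_ h3
    change (A.Ch.N p (j + 1) : ℤ) ≤ u (Sum.inl j) • (A.Ch.N p (j + 1) : ℤ)
    rw [nsmul_eq_mul]
    have h4 : (1 : ℤ) ≤ (u (Sum.inl j) : ℤ) := by
      have := Nat.pos_of_ne_zero hj
      omega
    nlinarith [Int.natCast_nonneg (A.Ch.N p (j + 1))]
  have h5 := lt_of_N_lt (p := p) (j := j + 1) (k := k + 1) (by omega)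
  omega

theorem toCh_eq_zero_of_mem_I {k : ℕ} {x : NB p s} (hx : x ∈ NB.I p k s) : toCh p s x = 0 := by
  have h : NB.I p k s ≤ RingHom.ker (toCh p s) := by
    refine Ideal.span_le.2 ?_
    rintro _ ⟨j, -, rfl⟩
    exact toCh_v j
  exact h hx

end Vale.Agent.P257.V4.B

end
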