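import Vale.Agent.P257.V4.B.Classes
import Vale.Agent.P257.V4.B.ToCh

/-!
# P257, part B: the standard classes in `A.Ch`

`tL ↦ t_1`, `a_k ↦ h_(1,k+1)`, `t ↦ -t_1` and `bcls t ↦ -b_0` under `Cob Laz s → NB p s → Ch p s`.
-/

noncomputable section

namespace Vale.Agent.P257.V4.B

open MvPolynomial Vale.Agent.P217 Vale.Agent.P251.F Vale.Agent.P251.I

variable {p : ℕ} [hp : Fact p.Prime] {s : ℕ}

theorem A.Ch.t_succ (k : ℕ) : A.Ch.t p (k + 1) = X (0, k) := by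
  rw [A.Ch.t]
  have h : (1 : Fin 2) = Fin.succ (0 : Fin 1) := rfl
  rw [h, A.Ch.univ_g_succ, A.G.mk_a_succ]

/-- `NB.t ↦ t_1`. -/
theorem toCh_t1 : toCh p 1 (NB.t 0 0) = A.Ch.t p 1 := by
  rw [toCh_t, A.Ch.t_succ]

/-- `a_k ↦ h_(1,k+1)`. -/
theorem toCh_aN (k : ℕ) : toCh p 1 (aN p k) = A.Ch.h p 1 (k + 1) := by
  have h2 := hp.out.two_le
  rw [aN, map_sub, map_mul, map_pow, map_pow, toCh_v, zero_pow (by omega), zero_mul, sub_zero,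
    toCh_t1, A.Ch.h]

/-- `bN ↦ b_0`. -/
theorem toCh_bN : toCh p 2 (bN p) = A.Ch.b0 p := by
  rw [bN, A.Ch.b0, map_sum]
  refine Finset.sum_congr rfl fun i _ => ?_
  rw [map_zsmul]
  have h := toCh_cup (p := p) (a := 1) (b := 1) (NB.t 0 0 ^ i) (NB.t 0 0 ^ (p - i))
  rw [map_pow, map_pow, toCh_t1] at h
  exact congrArg _ h

/-- The coordinate `t_1`. -/
theorem toCh_toNB_tL : toCh p 1 (toNB p 1 (tL p)) = A.Ch.t p 1 := by
  rw [toNB_tL, toCh_t1]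

theorem toCh_toNB_vL (k : ℕ) : toCh p s (toNB p s (vL p s k)) = 0 := by
  rw [toNB_vL, toCh_v]

/-- For `V(3)`: `aL p 3 ↦ h_(1,4)`. -/
theorem toCh_toNB_aL (k : ℕ) : toCh p 1 (toNB p 1 (aL p k)) = A.Ch.h p 1 (k + 1) := by
  rw [toNB_aL, toCh_aN]

theorem toCh_toNB_t {t : Cob Laz 1} (ht : IsT1 p t) : toCh p 1 (toNB p 1 t) = - A.Ch.t p 1 := by
  rw [toNB_t ht, map_neg, toCh_t1]

/-- The class of Toda: `bcls p t ↦ -b_0`. -/
theorem toCh_toNB_bcls (hp2 : p ≠ 2) {t : Cob Laz 1} (ht : IsT1 p t) :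
    toCh p 2 (toNB p 2 (bcls p t)) = - A.Ch.b0 p := by
  rw [toNB_bcls hp2 ht, map_neg, toCh_bN]

end Vale.Agent.P257.V4.B
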