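import Vale.Agent.P257.V4.B.Loc
import Vale.Agent.P251.X.Split
import Vale.Agent.P251.X.RetMon

/-!
# P257, part B: the retract `B` of `MU_(p)`

`BData D p` : a commutative monoid `B` with morphisms of monoids `i : B ⟶ MU ⊗ Sp p`,
`r : MU ⊗ Sp p ⟶ B`, `i ≫ r = 𝟙`, such that `r ≫ i` is the normalisation. Morphisms of monoids
`B ⟶ N`, `N` `p`-local, are the morphisms of monoids `g : MU ⟶ N` with `lawOf g` normal.
-/

open CategoryTheory MonoidalCategory MonObj Limits Pretriangulated

universe v u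

set_option linter.unusedSectionVars false

noncomputable section

namespace Vale.Agent.P257.V4.B

open Vale.Agent.P251.S Vale.Agent.P251.T Vale.Agent.P251.M Vale.Agent.P251.F Vale.Agent.P251.I
  Vale.Agent.P251.X EvenSpheres Vale.Agent.P093.PLoc

variable {T : Type u} [Category.{v} T] [Preadditive T] [HasZeroObject T]
    [HasShift T ℤ] [∀ n : ℤ, (shiftFunctor T n).Additive] [Pretriangulated T] [IsTriangulated T]
    [MonoidalCategory T] [SymmetricCategory T] [TensorTriangulated T] [MonoidalClosed T]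
    [HasCoproducts.{0} T] [HasProducts.{0} T] [StableCat T]

variable (D : MUData T) (p : ℕ) [hp : Fact p.Prime]

/-- `MU_(p)` -/
abbrev Kp : T := D.R ⊗ Sp T p

theorem isPLocal_Kp : IsPLocal p (Kp D p) := isPLocal_tensor_Sp hp.out.ne_one D.R

/-- The retract `B` of `MU_(p)`. -/
structure BData where
  /-- the object -/
  obj : T
  [mon : MonObj obj]
  [comm : IsCommMonObj obj]
  /-- the inclusion -/
  i : obj ⟶ Kp D p
  /-- the retraction -/
  r : Kp D p ⟶ obj
  [hom_i : IsMonHom i]
  [hom_r : IsMonHom r]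
  i_r : i ≫ r = 𝟙 obj
  ser_eq : ser (locM p D.R) (locM p D.R ≫ r ≫ i) = nf p (lawOf (locM p D.R))

attribute [instance] BData.mon BData.comm BData.hom_i BData.hom_r

variable {D p}

theorem ser_congr {K : T} [MonObj K] [IsCommMonObj K] {f f' g g' : D.R ⟶ K} [IsMonHom f]
    [IsMonHom f'] [IsMonHom g] [IsMonHom g'] (hf : f = f') (hg : g = g') :
    ser f g = ser f' g' := by
  subst hf hg
  rfl

theorem lawOf_congr {K : T} [MonObj K] [IsCommMonObj K] {f f' : D.R ⟶ K} [IsMonHom f]
    [IsMonHom f'] (hf : f = f') : lawOf f = lawOf f' := by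
  subst hf
  rfl

/-- Extension of a morphism whose series is the normalising series. -/
theorem ser_nf_comp {K N : T} [MonObj K] [IsCommMonObj K] [MonObj N] [IsCommMonObj N]
    (hK : IsPLocal p K) (f f' : D.R ⟶ K) [IsMonHom f] [IsMonHom f']
    (h : ser f f' = nf p (lawOf f)) (g : K ⟶ N) [IsMonHom g] :
    ser (f ≫ g) (f' ≫ g) = nf p (lawOf (f ≫ g)) := by
  have := pLoc_HRing (E := stdEven T) hK
  rw [← map_ser, h, map_nf, lawOf_map]

theorem isNF_of_ser_nf {K : T} [MonObj K] [IsCommMonObj K] (hK : IsPLocal p K)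
    (f f' : D.R ⟶ K) [IsMonHom f] [IsMonHom f'] (h : ser f f' = nf p (lawOf f)) :
    IsNF p (lawOf f') := by
  have := pLoc_HRing (E := stdEven T) hK
  rw [← ser_smul f f', h]
  exact isNF_nf _

section exist

variable {F : SpaceFunctor T} {e : F.S.obj CCF ≅ (stdEven T).L} (H : MUUniv e D)

include H

theorem exists_nf {K : T} [MonObj K] [IsCommMonObj K] (hK : IsPLocal p K) (f : D.R ⟶ K)
    [IsMonHom f] : ∃ f' : D.R ⟶ K, ∃ _ : IsMonHom f', ser f f' = nf p (lawOf f) :=
  exists_ser f H _ (isHg_nf H hK f) (nf_mem _)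

variable (p) in
/-- **The normalisation idempotent of `MU_(p)`.** -/
theorem exists_idem : ∃ ε : Kp D p ⟶ Kp D p, ∃ _ : IsMonHom ε, ε ≫ ε = ε ∧
    ser (locM p D.R) (locM p D.R ≫ ε) = nf p (lawOf (locM p D.R)) := by
  have hK := isPLocal_Kp D p
  obtain ⟨f', hf', h⟩ := exists_nf H hK (locM p D.R)
  have h2 : locM p D.R ≫ extM hK f' = f' := locM_extM hK f'
  refine ⟨extM hK f', inferInstance, ?_, ?_⟩
  · apply loc_ext hK
    rw [← Category.assoc, h2]
    have h3 := ser_nf_comp hK _ _ h (extM hK f')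
    have h4 : ser f' (f' ≫ extM hK f') = 1 := by
      have := pLoc_HRing (E := stdEven T) hK
      rw [← nf_eq_one (isNF_of_ser_nf hK _ _ h), ← ser_congr h2 rfl, h3]
      exact congrArg (nf p) (lawOf_congr h2)
    exact (eq_of_ser_one _ _ H h4).symm
  · rw [← h]
    exact ser_congr rfl h2

variable (p) in
/-- **Existence of `B`.** -/
theorem exists_BData : Nonempty (BData D p) := by
  obtain ⟨ε, hε, h1, h2⟩ := exists_idem p H
  obtain ⟨B, i, r, h3, h4⟩ := exists_split ε h1
  have h5 : IsRetMon i r := ⟨h3, by rw [h4]; exact hε⟩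
  let _ : MonObj B := h5.monObj
  have h6 : IsCommMonObj B := h5.isCommMonObj
  have h7 : IsMonHom i := h5.isMonHom_s
  have h8 : IsMonHom r := h5.isMonHom_r
  have h9 : ser (locM p D.R) (locM p D.R ≫ r ≫ i) = nf p (lawOf (locM p D.R)) := by
    rw [← h2]
    exact ser_congr rfl (by rw [h4])
  exact ⟨{ obj := B, i := i, r := r, i_r := h3, ser_eq := h9 }⟩

end exist

namespace BData

variable (b : BData D p)

/-- the orientation -/
def u : D.R ⟶ b.obj := locM p D.R ≫ b.r

instance : IsMonHom b.u := inferInstanceAs (IsMonHom (locM p D.R ≫ b.r))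

theorem isPLocal : IsPLocal p b.obj := (isPLocal_Kp D p).retract b.i b.r b.i_r

/-- **The law of `B` is normal.** -/
theorem isNF : IsNF p (lawOf b.u) := by
  have h1 := isNF_of_ser_nf (isPLocal_Kp D p) _ _ b.ser_eq
  have h2 : (locM p D.R ≫ b.r ≫ b.i) ≫ b.r = b.u := by
    rw [Category.assoc, Category.assoc, b.i_r, Category.comp_id]
    rfl
  have h3 := h1.map (HRing.map (E := stdEven T) b.r)
  rw [lawOf_map] at h3
  rwa [← lawOf_congr h2]

/-- **Uniqueness of the morphisms out of `B`.** -/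
theorem hom_ext {N : T} (hN : IsPLocal p N) {f g : b.obj ⟶ N} (h : b.u ≫ f = b.u ≫ g) : f = g := by
  have h1 : b.r ≫ f = b.r ≫ g := by
    apply loc_ext hN
    have h2 := h
    unfold u at h2
    rwa [Category.assoc, Category.assoc] at h2
  rw [← Category.id_comp f, ← Category.id_comp g, ← b.i_r, Category.assoc, Category.assoc, h1]

/-- `u ≫ i` is the normalisation of the localization map. -/
theorem u_i : b.u ≫ b.i = locM p D.R ≫ b.r ≫ b.i := by
  unfold u
  rw [Category.assoc]

variable {F : SpaceFunctor T} {e : F.S.obj CCF ≅ (stdEven T).L} (H : MUUniv e D)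

include H

theorem u_desc {N : T} [MonObj N] [IsCommMonObj N] (hN : IsPLocal p N) (g : D.R ⟶ N)
    [IsMonHom g] (hg : IsNF p (lawOf g)) : b.u ≫ b.i ≫ extM hN g = g := by
  have hK := isPLocal_Kp D p
  have h3 := ser_nf_comp hK _ _ b.ser_eq (extM hN g)
  have h2 : locM p D.R ≫ extM hN g = g := locM_extM hN g
  have h5 : ser g (b.u ≫ b.i ≫ extM hN g) = 1 := by
    have := pLoc_HRing (E := stdEven T) hN
    rw [← nf_eq_one hg, ← lawOf_congr h2, ← h3]
    refine ser_congr h2.symm ?_
    rw [← Category.assoc, b.u_i]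
  exact (eq_of_ser_one _ _ H h5).symm

/-- **The universal property of `B`.** -/
theorem exists_desc {N : T} [MonObj N] [IsCommMonObj N] (hN : IsPLocal p N) (g : D.R ⟶ N)
    [IsMonHom g] (hg : IsNF p (lawOf g)) : ∃ h : b.obj ⟶ N, IsMonHom h ∧ b.u ≫ h = g :=
  ⟨b.i ≫ extM hN g, inferInstance, b.u_desc H hN g hg⟩

end BData

end Vale.Agent.P257.V4.B
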