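import Vale.Agent.P257.V4.B.ModP
import Vale.Agent.P257.V4.B.Ret

/-!
# P257, part B: the homotopy of `B^{⊗ (s+1)} ⊗ S/p` for the retract `B` of `MU_(p)`

For `b : BData D p`, `p` odd and the cofibre `iC : 𝟙 ⟶ C` of `p`:
* `b.rmod : RMod cobK b.obj`;
* `b.xM` : `π_k (B^{⊗ (s+1)} ⊗ S/p) = 0` unless `2 (p - 1) ∣ k`, generated by functions on chains;
* `b.mem_kx` : the kernel is the set of the functions which vanish on normal chains modulo `p`.
-/

open CategoryTheory MonoidalCategory MonObj Limits Pretriangulated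

universe v u

set_option linter.unusedSectionVars false

noncomputable section

namespace Vale.Agent.P257.V4.B

open Vale.Agent.P251.S Vale.Agent.P251.T Vale.Agent.P251.M Vale.Agent.P251.F Vale.Agent.P251.I
  Vale.Agent.P251.X EvenSpheres Vale.Agent.P093.PLoc

open Vale.Agent.P257.V4.E (CosR RMod ux)

variable {T : Type u} [Category.{v} T] [Preadditive T] [HasZeroObject T]
    [HasShift T ℤ] [∀ n : ℤ, (shiftFunctor T n).Additive] [Pretriangulated T] [IsTriangulated T]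
    [MonoidalCategory T] [SymmetricCategory T] [TensorTriangulated T] [MonoidalClosed T]
    [HasCoproducts.{0} T] [HasProducts.{0} T] [StableCat T]

variable {D : MUData T} {p : ℕ} [hp : Fact p.Prime]

section cone

variable {C : T} {iC : 𝟙_ T ⟶ C} {δC : C ⟶ (𝟙_ T)⟦(1 : ℤ)⟧}
  (hC : Triangle.mk ((p : ℤ) • 𝟙 (𝟙_ T)) iC δC ∈ distTriang T)

include hC in
/-- the cone of `p` is `p`-local -/
theorem isPLocal_cone : IsPLocal p C := by
  intro q hq
  have h1 : (((p : ℤ) * p : ℤ)) • 𝟙 C = 0 := sq_zero hC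
  have h2 : IsCoprime ((q : ℕ) : ℤ) ((p : ℤ) * p) := by
    have h3 : IsCoprime ((q : ℕ) : ℤ) (p : ℤ) := Nat.isCoprime_iff_coprime.2 hq
    exact h3.mul_right h3
  obtain ⟨a, b, hab⟩ := h2
  have h3 : (a * q) • 𝟙 C = 𝟙 C := by
    have h4 : (a * q) • 𝟙 C + (b * (p * p)) • 𝟙 C = 𝟙 C := by
      rw [← add_smul, hab, one_smul]
    rwa [mul_smul b, h1, smul_zero, add_zero] at h4
  refine ⟨a • 𝟙 C, ?_, ?_⟩
  · rw [Preadditive.zsmul_comp, Preadditive.comp_zsmul, Category.comp_id, smul_smul, mul_comm, h3]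
  · rw [Preadditive.zsmul_comp, Preadditive.comp_zsmul, Category.comp_id, smul_smul, h3]

include hC in
theorem isIso_eta_cone : IsIso (eta T p ▷ C) := by
  have h1 : IsIso (etaX p C) := (isPLocal_cone hC).isIso_etaX hp.out.ne_one
  have h2 : eta T p ▷ C = (λ_ C).hom ≫ etaX p C := by
    rw [etaX, Iso.hom_inv_id_assoc]
  rw [h2]
  infer_instance

include hC in
/-- `MU ⟶ MU_(p)` is an equivalence modulo `p` -/
theorem isIso_locM_cone (X : T) [MonObj X] : IsIso (locM p X ▷ C) := by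
  have h1 := isIso_eta_cone (p := p) hC
  have h2 : locM p X ▷ C = (ρ_ X).inv ▷ C ≫ (α_ X (𝟙_ T) C).hom ≫ X ◁ (eta T p ▷ C) ≫
      (α_ X (Sp T p) C).inv := by
    rw [locM_eq, etaR, comp_whiskerRight, associator_inv_naturality_middle,
      Iso.hom_inv_id_assoc]
  rw [h2]
  infer_instance

end cone

namespace BData

variable (b : BData D p)

/-- the action of the functions on chains -/
def rmod : RMod cobK b.obj := rmodOf b.u

variable {C : T} {iC : 𝟙_ T ⟶ C} {δC : C ⟶ (𝟙_ T)⟦(1 : ℤ)⟧}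
  (hC : Triangle.mk ((p : ℤ) • 𝟙 (𝟙_ T)) iC δC ∈ distTriang T)

include hC in
theorem mem_kx (hp2 : p ≠ 2) {s : ℕ} {w : ℤ} (z : cobK.wt s w) :
    z ∈ b.rmod.kx iC s w ↔ toNB p s z.1 = 0 :=
  mem_kx_modP (locM p D.R) b.i b.r hC hp2 b.i_r (isPLocal_Kp D p) b.ser_eq
    (isIso_locM_cone hC D.R) z

include hC in
theorem xM (hp2 : p ≠ 2) : b.rmod.XM (2 * ((p : ℤ) - 1)) iC :=
  xM_modP (locM p D.R) b.i b.r hC hp2 b.i_r (isPLocal_Kp D p) b.ser_eq (isIso_locM_cone hC D.R)

end BData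

end Vale.Agent.P257.V4.B

end
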