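import Vale.Agent.P257.V4.B.Spj
import Vale.Agent.P257.V4.B.XMB
import Vale.Agent.P257.V4.O.Lift
import Vale.Agent.P257.V4.K.Chp
import Vale.Agent.P251.X.HQ

/-!
# P257, part B: connectivity of the tower of the retract `B` of `MU_(p)`

`b : BData D p`, `U : UnitCof b.obj`.

* `isRet_J` : for `p`-local `Y` the object `J_B ⊗ Y` is a retract of `J_MU ⊗ Y`;
* `conn_J` : `J_B ⊗ Y` is `(m+2)`-connective if `Y` is `p`-local and `m`-connective;
* `conn_B` : `Hom(𝟙⟦n⟧, B s X) = 0` for `n < q s`, if `X` is `p`-local, connective and sparse;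
* `Conn U X` in the sense of part O;
* the iterated cofibres `Chp p v n X u` are `p`-local and connective.
-/

open CategoryTheory MonoidalCategory MonObj Limits Pretriangulated

universe v u

set_option linter.unusedSectionVars false

namespace Vale.Agent.P257.V4.B

open Vale.Agent.P251.S Vale.Agent.P251.T Vale.Agent.P251.M Vale.Agent.P251.F Vale.Agent.P251.I
  Vale.Agent.P251.X Vale.Agent.P093.PLoc

variable {T : Type u} [Category.{v} T] [Preadditive T] [HasZeroObject T]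
    [HasShift T ℤ] [∀ n : ℤ, (shiftFunctor T n).Additive] [Pretriangulated T] [IsTriangulated T]
    [MonoidalCategory T] [SymmetricCategory T] [TensorTriangulated T] [MonoidalClosed T]
    [HasCoproducts.{0} T] [HasProducts.{0} T] [StableCat T]

/-- Coproducts of connective objects are connective. -/
theorem conn_coprod {n : ℤ} {I : Type} (X : I → T) (h : ∀ i, Conn n (X i)) : Conn n (∐ X) := by
  intro k hk f
  obtain ⟨s, g, rfl⟩ := cpt_sphere k X f
  refine Finset.sum_eq_zero fun i _ => ?_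
  rw [h i k hk (g i), zero_comp]

theorem conn_tensor_bigCell {m a : ℤ} {X J : T} (hX : Conn m X)
    (hJ : BigCell T a J) (p : ℤ) (h : m + a = p) : Conn p (X ⊗ J) := by
  induction hJ with
  | sphere k hk =>
    exact Conn.of_iso (tensorUnitShiftIso X k).symm ((hX.shift k (m + k) rfl).mono (by omega))
  | coprod Y _ ih =>
    exact Conn.of_iso (PreservesCoproduct.iso (tensorLeft X) Y).symm (conn_coprod _ ih)
  | ext Δ hΔ _ _ ih₁ ih₃ =>
    exact Conn.ext _ (TensorTriangulated.distinguished X Δ hΔ) ih₁ ih₃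

theorem conn_bigCell_tensor {m a : ℤ} {X J : T} (hX : Conn m X)
    (hJ : BigCell T a J) (p : ℤ) (h : m + a = p) : Conn p (J ⊗ X) :=
  (conn_tensor_bigCell hX hJ p h).of_iso (β_ X J)

theorem exists_cofib_map {Y A A' J J' : T} {a : Y ⟶ A} {a' : Y ⟶ A'} {ρ : A ⟶ J} {ρ' : A' ⟶ J'}
    {δ : J ⟶ Y⟦(1 : ℤ)⟧} {δ' : J' ⟶ Y⟦(1 : ℤ)⟧} (h : Triangle.mk a ρ δ ∈ distTriang T)
    (h' : Triangle.mk a' ρ' δ' ∈ distTriang T) (g : A ⟶ A') (hg : a ≫ g = a') :
    ∃ c : J ⟶ J', ρ ≫ c = g ≫ ρ' ∧ δ = c ≫ δ' := by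
  obtain ⟨c, h1, h2⟩ := complete_distinguished_triangle_morphism _ _ h h' (𝟙 Y) g (by
    change a ≫ g = 𝟙 Y ≫ a'
    rw [hg, Category.id_comp])
  refine ⟨c, h1, ?_⟩
  change δ ≫ (𝟙 Y)⟦(1 : ℤ)⟧' = c ≫ δ' at h2
  rwa [CategoryTheory.Functor.map_id, Category.comp_id] at h2

/-- cofibres of split data are retracts -/
theorem isRet_cofib {Y A A' J J' : T} {a : Y ⟶ A} {a' : Y ⟶ A'} {ρ : A ⟶ J} {ρ' : A' ⟶ J'}
    {δ : J ⟶ Y⟦(1 : ℤ)⟧} {δ' : J' ⟶ Y⟦(1 : ℤ)⟧} (h : Triangle.mk a ρ δ ∈ distTriang T)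
    (h' : Triangle.mk a' ρ' δ' ∈ distTriang T) (g : A ⟶ A') (f : A' ⟶ A) (hg : a ≫ g = a')
    (hf : a' ≫ f = a) (hgf : g ≫ f = 𝟙 A) : IsRet J J' := by
  obtain ⟨c, h1, h2⟩ := exists_cofib_map h h' g hg
  obtain ⟨e, h3, h4⟩ := exists_cofib_map h' h f hf
  have h5 : IsIso (c ≫ e) := by
    let φ : Triangle.mk a ρ δ ⟶ Triangle.mk a ρ δ :=
      { hom₁ := 𝟙 Y
        hom₂ := 𝟙 A
        hom₃ := c ≫ e
        comm₁ := (Category.comp_id a).trans (Category.id_comp a).symm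
        comm₂ := by
          change ρ ≫ c ≫ e = 𝟙 A ≫ ρ
          rw [reassoc_of% h1, h3, reassoc_of% hgf, Category.id_comp]
        comm₃ := by
          change δ ≫ (𝟙 Y)⟦(1 : ℤ)⟧' = (c ≫ e) ≫ δ
          rw [CategoryTheory.Functor.map_id, Category.comp_id, Category.assoc, ← h4, ← h2] }
    exact isIso₃_of_isIso₁₂ φ h h (inferInstanceAs (IsIso (𝟙 Y)))
      (inferInstanceAs (IsIso (𝟙 A)))
  exact ⟨c, e ≫ inv (c ≫ e), by rw [← Category.assoc, IsIso.hom_inv_id]⟩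

theorem isIso_locM_of_isPLocal {p : ℕ} [hp : Fact p.Prime] {Y : T} (hY : IsPLocal p Y) (X : T)
    [MonObj X] : IsIso (locM p X ▷ Y) := by
  have h1 : IsIso (etaX p Y) := hY.isIso_etaX hp.out.ne_one
  have h2 : eta T p ▷ Y = (λ_ Y).hom ≫ etaX p Y := by
    rw [etaX, Iso.hom_inv_id_assoc]
  have h3 : IsIso (eta T p ▷ Y) := by
    rw [h2]
    infer_instance
  have h4 : locM p X ▷ Y = (ρ_ X).inv ▷ Y ≫ (α_ X (𝟙_ T) Y).hom ≫ X ◁ (eta T p ▷ Y) ≫
      (α_ X (Sp T p) Y).inv := by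
    rw [locM_eq, etaR, comp_whiskerRight, associator_inv_naturality_middle,
      Iso.hom_inv_id_assoc]
  rw [h4]
  infer_instance

namespace BData

variable {D : MUData T} {p : ℕ} [hp : Fact p.Prime] (b : BData D p)

theorem unitMap_hom {R R' : T} [MonObj R] [MonObj R'] (f : R ⟶ R') [IsMonHom f] (Y : T) :
    unitMap R Y ≫ f ▷ Y = unitMap R' Y := by
  rw [unitMap, unitMap, Category.assoc, ← comp_whiskerRight, IsMonHom.one_hom f]

/-- for `p`-local `Y` the object `J_B ⊗ Y` is a retract of `J_MU ⊗ Y` -/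
theorem isRet_J (U : UnitCof b.obj) (V : UnitCof D.R) {Y : T} (hY : IsPLocal p Y) :
    IsRet (U.J ⊗ Y) (V.J ⊗ Y) := by
  have h0 := isIso_locM_of_isPLocal hY D.R
  refine isRet_cofib (U.triangle_distinguished Y) (V.triangle_distinguished Y)
    (b.i ▷ Y ≫ inv (locM p D.R ▷ Y)) (b.u ▷ Y) ?_ (unitMap_hom b.u Y) ?_
  · rw [← Category.assoc, IsIso.comp_inv_eq, unitMap_hom, unitMap_hom]
  · have h1 : b.u ▷ Y = locM p D.R ▷ Y ≫ b.r ▷ Y := by
      rw [← comp_whiskerRight]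
      rfl
    rw [h1, Category.assoc, IsIso.inv_hom_id_assoc, ← comp_whiskerRight, b.i_r,
      id_whiskerRight]

/-- `J_B ⊗ -` raises the connectivity of `p`-local objects by two -/
theorem conn_J (U : UnitCof b.obj) {Y : T} {c : ℤ} (hY : IsPLocal p Y) (hc : Conn c Y) :
    Conn (c + 2) (U.J ⊗ Y) := by
  obtain ⟨V⟩ := exists_unitCof D.R
  exact conn_ret (conn_bigCell_tensor hc (D.conn V.J V.ρ V.δ V.dist) (c + 2) rfl)
    (b.isRet_J U V hY)

/-- **(CON)** -/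
theorem conn_B (U : UnitCof b.obj) {q : ℤ} (hq : 2 ≤ q) {X : T} (hX : IsPLocal p X)
    (hc : Conn 0 X) (hs : ∀ s, Spa q (Am b.obj (s + 1) ⊗ X)) (s : ℕ) :
    Conn (q * s) (U.cobar.B s X) := by
  have h1 := conn_cobar (p := p) U hq (fun Y c hY hc => b.conn_J U hY hc)
    (fun Y hY => hY.tensor_left U.J) s 0 (dvd_zero q) hX hc (spa_Q U hs)
  rwa [zero_add] at h1

/-- connectivity of the tower in the sense of part O -/
theorem conn_O (U : UnitCof b.obj) {q : ℤ} (hq : 2 ≤ q) {X : T} (hX : IsPLocal p X)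
    (hc : Conn 0 X) (hs : ∀ s, Spa q (Am b.obj (s + 1) ⊗ X)) : O.Conn U X := by
  intro n
  refine ⟨(n + 1).toNat, fun s hs' y => ?_⟩
  have h1 : n + (s : ℤ) < q * s := by
    have h2 : n + 1 ≤ s := by omega
    nlinarith
  have h3 := b.conn_B U hq hX hc hs s _ h1 (E.dT U X (𝟙_ T) rfl y)
  exact (E.dT U X (𝟙_ T) rfl).injective (h3.trans (map_zero _).symm)

end BData

section chp

variable {p : ℕ} [hp : Fact p.Prime] {B : T} [MonObj B] {d : ℕ → ℤ}
  {v : ∀ k, (𝟙_ T)⟦d k⟧ ⟶ B}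

/-- the iterated cofibres are `p`-local -/
theorem isPLocal_of_chp {n : ℕ} {X : T} {u : 𝟙_ T ⟶ X} (h : K.Chp p v n X u) : IsPLocal p X := by
  induction h with
  | base u δ hd => exact isPLocal_cone hd
  | step hn h f q δ hd hf ih => exact IsPLocal.ext₃ hd (ih.shift _) ih

/-- the iterated cofibres are connective -/
theorem conn_of_chp (h0 : Conn (T := T) 0 (𝟙_ T)) (hd0 : ∀ k, 0 ≤ d k) {n : ℕ} {X : T}
    {u : 𝟙_ T ⟶ X} (h : K.Chp p v n X u) : Conn 0 X := by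
  induction h with
  | base u δ hd => exact Conn.ext₃ _ hd h0 (h0.mono (by norm_num))
  | step hn h f q δ hd hf ih =>
    exact Conn.ext₃ _ hd ih ((ih.shift _ _ rfl).mono (by have := hd0 ‹ℕ›; omega))

end chp

section iv

variable {D : MUData T} {p : ℕ} [hp : Fact p.Prime] (b : BData D p) (U : UnitCof b.obj)
  {I : ℕ → ∀ (s : ℕ) (w : ℤ), AddSubgroup (cobK.wt s w)} {w : ℕ → ℤ}
  {z : ∀ k, cobK.wt 0 (w k)} {n : ℕ} {X : T} {u : 𝟙_ T ⟶ X}

theorem two_le_q : (2 : ℤ) ≤ ((2 * p - 2 : ℕ) : ℤ) := by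
  have := hp.out.two_le
  omega

include U in
/-- (SPJ) for the tower -/
theorem BData.spj_iv {q : ℤ} (h : b.rmod.XM q u) (m k : ℕ) :
    Spa q (U.cobar.B m (b.obj ⊗ U.cobar.B k X)) :=
  spj U (fun s => h.spa s) m k

/-- (CON) for the tower -/
theorem BData.conn_iv (hw : ∀ k, 0 ≤ w k) (h : b.rmod.XM ((2 * p - 2 : ℕ) : ℤ) u)
    (hc : K.Chp p (fun k => O.cls b.rmod (z k)) n X u) (s : ℕ) :
    Conn (((2 * p - 2 : ℕ) : ℤ) * s) (U.cobar.B s X) :=
  b.conn_B U two_le_q (isPLocal_of_chp hc)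
    (conn_of_chp D.conn_unit (fun k => mul_nonneg (by norm_num) (hw k)) hc) (fun s => h.spa s) s

/-- connectivity in the sense of part O -/
theorem BData.conn_O_iv (hw : ∀ k, 0 ≤ w k) (h : b.rmod.XM ((2 * p - 2 : ℕ) : ℤ) u)
    (hc : K.Chp p (fun k => O.cls b.rmod (z k)) n X u) : O.Conn U X :=
  b.conn_O U two_le_q (isPLocal_of_chp hc)
    (conn_of_chp D.conn_unit (fun k => mul_nonneg (by norm_num) (hw k)) hc) (fun s => h.spa s)

end iv

end Vale.Agent.P257.V4.B
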