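import Vale.Agent.P257.V4.B.RetBasis

/-!
# P257, part B: `A ⊗ B` is free over `A`

* `exists_coordBasis` : the graded basis of `K ⊗ MU` over `K` in the adapted coordinates;
* `BData.exists_basis` : the graded basis of `A ⊗ B` over `A`.
-/

open CategoryTheory MonoidalCategory MonObj Limits Pretriangulated

universe v u

set_option linter.unusedSectionVars false

noncomputable section

namespace Vale.Agent.P257.V4.B

open Vale.Agent.P251.S Vale.Agent.P251.T Vale.Agent.P251.M Vale.Agent.P251.F Vale.Agent.P251.I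
  Vale.Agent.P251.X EvenSpheres Vale.Agent.P093.PLoc

variable {T : Type u} [Category.{v} T] [Preadditive T] [HasZeroObject T]
    [HasShift T ℤ] [∀ n : ℤ, (shiftFunctor T n).Additive] [Pretriangulated T] [IsTriangulated T]
    [MonoidalCategory T] [SymmetricCategory T] [TensorTriangulated T] [MonoidalClosed T]
    [HasCoproducts.{0} T] [HasProducts.{0} T] [StableCat T]

variable {D : MUData T} {p : ℕ} [hp : Fact p.Prime] {K : T} [MonObj K] [IsCommMonObj K]

/-- the monomials in a sequence -/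
def mo (z : ℕ → HRing (stdEven T) K) (a : ℕ →₀ ℕ) : HRing (stdEven T) K :=
  a.prod fun m e => z m ^ e

theorem mon_eq_mo (w : InvSeries (HRing (stdEven T) K)) (a : ℕ →₀ ℕ) :
    mon w a = mo (fun n => w.c (n + 1)) a := rfl

theorem mo_congr {z z' : ℕ → HRing (stdEven T) K} {a : ℕ →₀ ℕ} (h : ∀ m ∈ a.support, z m = z' m) :
    mo z a = mo z' a :=
  Finsupp.prod_congr fun m hm => by rw [h m hm]

theorem mo_eq_zero {z : ℕ → HRing (stdEven T) K} {a : ℕ →₀ ℕ} {m : ℕ} (hm : m ∈ a.support)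
    (h : z m = 0) : mo z a = 0 :=
  Finset.prod_eq_zero hm (by
    dsimp only
    rw [h, zero_pow (Finsupp.mem_support_iff.1 hm)])

theorem map_mo {K' : T} [MonObj K'] [IsCommMonObj K'] (g : K ⟶ K') [IsMonHom g]
    (z : ℕ → HRing (stdEven T) K) (a : ℕ →₀ ℕ) :
    HRing.map (E := stdEven T) g (mo z a) =
      mo (fun n => HRing.map (E := stdEven T) g (z n)) a := by
  rw [mo, mo, Finsupp.prod, Finsupp.prod, map_prod]
  exact Finset.prod_congr rfl fun m _ => map_pow _ _ _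

variable {F : SpaceFunctor T} {e : F.S.obj CCF ≅ (stdEven T).L} (H : MUUniv e D)

/-- the image of the coordinates -/
theorem map_crd_ser {K' : T} [MonObj K'] [IsCommMonObj K'] (hK : IsPLocal p K) (Φ : K ⟶ K')
    [IsMonHom Φ] (f g : D.R ⟶ K) [IsMonHom f] [IsMonHom g] (n : ℕ) :
    HRing.map (E := stdEven T) Φ (crd p (lawOf f) (ser f g) n) =
      crd p (lawOf (f ≫ Φ)) (ser (f ≫ Φ) (g ≫ Φ)) n := by
  have := pLoc_HRing (E := stdEven T) hK
  rw [map_crd, map_ser, lawOf_map]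

include H

/-- **The graded basis of `K ⊗ MU` over `K` in the adapted coordinates.** -/
theorem exists_coordBasis (hK : IsPLocal p K) (f : D.R ⟶ K) [IsMonHom f] :
    ∃ b : GBasis (stdEven T) (inlM K D.R) (ℕ →₀ ℕ), (∀ a, b.k a = Cob.degU a) ∧
      ∀ a, HRing.of (stdEven T) (K ⊗ D.R) (b.k a) (b.w a) =
        mo (crd p (lawOf (f ≫ inlM K D.R)) (ser (f ≫ inlM K D.R) (inrM K D.R))) a := by
  have hP : IsPLocal p (K ⊗ D.R) := hK.tensor_right D.R
  have hL := pLoc_HRing (E := stdEven T) hP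
  obtain ⟨b, hk, hw⟩ := D.exists_basis_of f H
  set f₁ : D.R ⟶ K ⊗ D.R := f ≫ inlM K D.R with hf₁
  set f₂ : D.R ⟶ K ⊗ D.R := inrM K D.R with hf₂
  have hf₁' : IsMonHom f₁ := by rw [hf₁]; infer_instance
  have hf₂' : IsMonHom f₂ := by rw [hf₂]; infer_instance
  obtain ⟨g', hg', h1⟩ := exists_ser f₁ H (strictMk (crd p (lawOf f₁) (ser f₁ f₂)))
    (isHg_strictMk fun n => isHg_crd H hP f₁ f₂ n) (strictMk_mem _)
  obtain ⟨g'', hg'', h2⟩ := exists_crd H hP f₁ (fun n => (ser f₁ f₂).c (n + 1))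
    (fun n => isHg_ser f₁ f₂ (n + 1))
  let Φ : K ⊗ D.R ⟶ K ⊗ D.R := descM (inlM K D.R) g'
  let Ψ : K ⊗ D.R ⟶ K ⊗ D.R := descM (inlM K D.R) g''
  have a1 : inlM K D.R ≫ Φ = inlM K D.R := inlM_descM _ _
  have a2 : inlM K D.R ≫ Ψ = inlM K D.R := inlM_descM _ _
  have a3 : f₂ ≫ Φ = g' := inrM_descM _ _
  have a4 : f₂ ≫ Ψ = g'' := inrM_descM _ _
  have a5 : f₁ ≫ Φ = f₁ := by rw [hf₁, Category.assoc, a1]
  have a6 : f₁ ≫ Ψ = f₁ := by rw [hf₁, Category.assoc, a2]
  have i1 : Φ ≫ Ψ = 𝟙 _ := by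
    apply hom_ext_tensor
    · rw [← Category.assoc, a1, a2, Category.comp_id]
    · rw [← Category.assoc]
      change (f₂ ≫ Φ) ≫ Ψ = f₂ ≫ 𝟙 _
      rw [a3, Category.comp_id]
      refine eq_of_ser f₁ (g' ≫ Ψ) f₂ H ?_
      rw [← ser_congr a6 rfl, ← map_ser, h1, map_strictMk]
      have h3 : (fun n => HRing.map (E := stdEven T) Ψ (crd p (lawOf f₁) (ser f₁ f₂) n)) =
          fun n => (ser f₁ f₂).c (n + 1) := by
        funext n
        rw [map_crd_ser hP Ψ f₁ f₂ n, ← congrFun h2 n]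
        rw [ser_congr a6 a4, lawOf_congr a6]
      rw [h3]
      exact strictMk_c (ser_strict _ _)
  have i2 : Ψ ≫ Φ = 𝟙 _ := by
    apply hom_ext_tensor
    · rw [← Category.assoc, a2, a1, Category.comp_id]
    · rw [← Category.assoc]
      change (f₂ ≫ Ψ) ≫ Φ = f₂ ≫ 𝟙 _
      rw [a4, Category.comp_id]
      refine eq_of_crd H hP f₁ (g'' ≫ Φ) f₂ ?_
      funext n
      have h3 := map_crd_ser hP Φ f₁ g'' n
      rw [congrFun h2 n, ← InvSeries.c_map, map_ser, ser_congr a5 a3, h1, c_succ_strictMk,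
        ser_congr a5 rfl, lawOf_congr a5] at h3
      exact h3.symm
  have : IsIso Φ := ⟨Ψ, i1, i2⟩
  refine ⟨isoBasis b Φ a1, fun a => hk a, fun a => ?_⟩
  change HRing.of (stdEven T) (K ⊗ D.R) (b.k a) (b.w a ≫ Φ) = _
  rw [of_w_comp f H hw Φ a]
  have h3 : f ≫ inlM K D.R ≫ Φ = f₁ := by rw [a1]
  rw [ser_congr h3 a3, h1, mon_eq_mo]
  exact mo_congr fun m _ => c_succ_strictMk _ _

omit H

variable (p) in
/-- the monomials in the variables `n`, `n + 2` a power of `p` -/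
def Jp : AddSubmonoid (ℕ →₀ ℕ) where
  carrier := {a | ∀ m ∈ a.support, IsPw p m}
  zero_mem' := fun m hm => absurd hm (by simp)
  add_mem' {a b} ha hb m hm := by
    classical
    rcases Finset.mem_union.1 (Finsupp.support_add hm) with h | h
    · exact ha m h
    · exact hb m h

theorem dvd_degU {a : ℕ →₀ ℕ} (ha : a ∈ Jp p) : ((p - 1 : ℕ) : ℤ) ∣ Cob.degU a := by
  refine Finset.dvd_sum fun m hm => Dvd.dvd.mul_left ?_ _
  obtain ⟨k, hk⟩ := ha m hm
  rw [Int.natCast_dvd_natCast]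
  have h1 := Nat.sub_one_dvd_pow_sub_one p k
  rwa [← hk] at h1

include H in
/-- **`A ⊗ B` is free over `A`**: the graded basis of the monomials in the coefficients at
`x^{p^k}` of the isomorphism from the law of `A` to the law of `B`. -/
theorem BData.exists_basis (b : BData D p) {A : T} [MonObj A] [IsCommMonObj A]
    (hA : IsPLocal p A) (f : D.R ⟶ A) [IsMonHom f] :
    ∃ c : GBasis (stdEven T) (inlM A b.obj) (Jp p), (∀ a, c.k a = Cob.degU a.1) ∧
      (∀ a, HRing.of (stdEven T) (A ⊗ b.obj) (c.k a) (c.w a) =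
        Vale.Agent.P257.V4.B.mon (ser (f ≫ inlM A b.obj) (b.u ≫ inrM A b.obj)) a.1) := by
  have hP : IsPLocal p (A ⊗ D.R) := hA.tensor_right D.R
  have hQ : IsPLocal p (A ⊗ b.obj) := hA.tensor_right b.obj
  have hL := pLoc_HRing (E := stdEven T) hP
  obtain ⟨c, hk, hw⟩ := exists_coordBasis H hA f
  let f₁ : D.R ⟶ A ⊗ D.R := f ≫ inlM A D.R
  let f₂ : D.R ⟶ A ⊗ D.R := inrM A D.R
  have hf₁' : IsMonHom f₁ := inferInstanceAs (IsMonHom (f ≫ inlM A D.R))
  have hf₂' : IsMonHom f₂ := inferInstanceAs (IsMonHom (inrM A D.R))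
  let s : A ⊗ b.obj ⟶ A ⊗ D.R := descM (inlM A D.R) (b.i ≫ extM hP f₂)
  let r : A ⊗ D.R ⟶ A ⊗ b.obj := descM (inlM A b.obj) (b.u ≫ inrM A b.obj)
  have s1 : inlM A b.obj ≫ s = inlM A D.R := inlM_descM _ _
  have s2 : inrM A b.obj ≫ s = b.i ≫ extM hP f₂ := inrM_descM _ _
  have r1 : inlM A D.R ≫ r = inlM A b.obj := inlM_descM _ _
  have r2 : f₂ ≫ r = b.u ≫ inrM A b.obj := inrM_descM _ _
  have hsr : s ≫ r = 𝟙 _ := by
    apply hom_ext_tensor
    · rw [← Category.assoc, s1, r1, Category.comp_id]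
    · rw [← Category.assoc, s2, Category.comp_id]
      apply b.hom_ext hQ
      rw [Category.assoc, ← Category.assoc b.u, b.u_i, Category.assoc, Category.assoc]
      have h1 : b.r ≫ inrM A b.obj = extM hP f₂ ≫ r := by
        apply loc_ext hQ
        rw [← Category.assoc, ← Category.assoc, locM_extM, r2]
        rfl
      rw [← h1, ← Category.assoc b.i, b.i_r, Category.id_comp]
      exact (Category.assoc _ _ _).symm
  have hrs1 : inlM A D.R ≫ r ≫ s = inlM A D.R := by rw [← Category.assoc, r1, s1]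
  have e1 : f₁ ≫ r ≫ s = f₁ := by
    change (f ≫ inlM A D.R) ≫ r ≫ s = f ≫ inlM A D.R
    rw [Category.assoc, hrs1]
  -- the normalised second orientation
  have e2 : ser f₂ (f₂ ≫ r ≫ s) = nf p (lawOf f₂) := by
    have h1 := ser_nf_comp (isPLocal_Kp D p) _ _ b.ser_eq (extM hP f₂)
    have h2 : locM p D.R ≫ extM hP f₂ = f₂ := locM_extM hP f₂
    have h3 : (locM p D.R ≫ b.r ≫ b.i) ≫ extM hP f₂ = f₂ ≫ r ≫ s := by
      rw [← Category.assoc f₂, r2, Category.assoc b.u, s2, ← Category.assoc b.u, b.u_i]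
    rw [← ser_congr h2 h3, h1, lawOf_congr h2]
  have e3 := isNF_of_ser_nf hP _ _ e2
  -- the coordinates
  have e4 : ∀ m, IsPw p m → HRing.map (E := stdEven T) (r ≫ s) (crd p (lawOf f₁) (ser f₁ f₂) m) =
      crd p (lawOf f₁) (ser f₁ f₂) m := by
    intro m hm
    rw [map_crd_ser hP (r ≫ s) f₁ f₂ m, crd_ser f₁ f₂ (f₂ ≫ r ≫ s) e2, if_pos hm,
      lawOf_congr e1, ser_congr e1 rfl, crd_ser f₁ (f₂ ≫ r ≫ s) (f₂ ≫ r ≫ s) (by
        rw [ser_self, nf_eq_one e3]), if_pos hm]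
  have e5 : ∀ m, ¬ IsPw p m →
      HRing.map (E := stdEven T) (r ≫ s) (crd p (lawOf f₁) (ser f₁ f₂) m) = 0 := by
    intro m hm
    rw [map_crd_ser hP (r ≫ s) f₁ f₂ m, lawOf_congr e1, ser_congr e1 rfl,
      crd_ser f₁ (f₂ ≫ r ≫ s) (f₂ ≫ r ≫ s) (by rw [ser_self, nf_eq_one e3]), if_neg hm, ser_self,
      InvSeries.c_one_succ]
  refine ⟨retBasis c (fun a => a ∈ Jp p) s r hsr hrs1 ?_ ?_ (inlM A b.obj) r1, fun a => hk a.1, ?_⟩
  · intro a ha
    apply of_inj
    rw [← HRing.map_of, hw, map_mo]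
    exact mo_congr fun m hm => e4 m (ha m hm)
  · intro a ha
    have h1 : ∃ m ∈ a.support, ¬ IsPw p m := by
      by_contra h
      push Not at h
      exact ha h
    obtain ⟨m, hm, hm'⟩ := h1
    apply of_inj
    rw [← HRing.map_of, hw, map_mo, mo_eq_zero hm (e5 m hm')]
    exact (map_zero _).symm
  · intro a
    change HRing.of (stdEven T) (A ⊗ b.obj) (c.k a.1) (c.w a.1 ≫ r) = _
    rw [← HRing.map_of, hw, map_mo, mon_eq_mo]
    refine mo_congr fun m hm => ?_
    have h1 := crd_ser f₁ f₂ (f₂ ≫ r ≫ s) e2 m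
    rw [if_pos (a.2 m hm)] at h1
    change HRing.map (E := stdEven T) r (crd p (lawOf f₁) (ser f₁ f₂) m) = _
    rw [h1, ← InvSeries.c_map, map_ser]
    refine congrArg (fun w => InvSeries.c w (m + 1)) (ser_congr ?_ ?_)
    · change (f ≫ inlM A D.R) ≫ r = _
      rw [Category.assoc, r1]
    · rw [Category.assoc, Category.assoc, hsr, Category.comp_id, r2]

/-- a basis of monomials is multiplicative -/
theorem isMulBasis_of_mon {A P : T} [MonObj A] [MonObj P] [IsCommMonObj P] {φ : A ⟶ P}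
    (c : GBasis (stdEven T) φ (Jp p)) (hk : ∀ a, c.k a = Cob.degU a.1)
    (w : InvSeries (HRing (stdEven T) P))
    (hw : ∀ a, HRing.of (stdEven T) P (c.k a) (c.w a) = mon w a.1) : IsMulBasis c := by
  have h0 : c.k 0 = 0 := by
    rw [hk]
    exact degU_zero
  have hadd : ∀ i j, c.k i + c.k j = c.k (i + j) := fun i j => by
    rw [hk, hk, hk]
    exact degU_add i.1 j.1
  refine ⟨h0, hadd, ?_, fun i j => ?_⟩
  · apply of_inj
    rw [hw, of_cast, of_one]
    exact mon_zero w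
  · apply of_inj
    rw [hw, ← of_mul_of, hw, hw]
    exact (mon_add w i.1 j.1).symm

theorem degU_nonneg (a : ℕ →₀ ℕ) : 0 ≤ Cob.degU a :=
  Finset.sum_nonneg fun m _ => by positivity

theorem degU_eq_zero {a : ℕ →₀ ℕ} (h : Cob.degU a = 0) : a = 0 := by
  unfold Cob.degU Finsupp.sum at h
  rw [Finset.sum_eq_zero_iff_of_nonneg (fun m _ => by positivity)] at h
  by_contra hne
  obtain ⟨m, hm⟩ := Finsupp.support_nonempty_iff.2 hne
  have h1 := h m hm
  rw [Finsupp.mem_support_iff] at hm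
  rcases mul_eq_zero.1 h1 with h2 | h2
  · exact hm (by exact_mod_cast h2)
  · have h3 : (m + 1 : ℕ) = 0 := by exact_mod_cast h2
    omega

end Vale.Agent.P257.V4.B
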