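import Vale.Agent.P251.F.Deform

/-!
# P257, part B: the sparse normal form of formal group laws over `p`-local rings

`IsNF p F` : the Lazard coordinates `xC F n` vanish whenever `n + 2` is not a power of `p`.
For every law `F` over a `p`-local ring and every sequence `t` there is exactly one strict series
`nfS p F t` whose coefficients at `x^{p^k}` are given by `t` and such that `nfS p F t • F` is
normal.
-/

noncomputable section

namespace Vale.Agent.P257.V4.B

open MvPowerSeries Vale.Agent.P217 Vale.Agent.P251.F Finsupp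

/-- all integers prime to `p` are invertible -/
class PLoc (p : ℕ) (B : Type*) [CommRing B] : Prop where
  isUnit : ∀ m : ℕ, ¬ p ∣ m → IsUnit (m : B)

variable {p : ℕ} {A B C : Type*} [CommRing A] [CommRing B] [CommRing C]

theorem PLoc.of_hom [PLoc p A] (φ : A →+* B) : PLoc p B :=
  ⟨fun m hm => by
    have h := (PLoc.isUnit (p := p) (B := A) m hm).map φ
    rwa [map_natCast] at h⟩

theorem PLoc.of_zero [hp : Fact p.Prime] (h : (p : B) = 0) : PLoc p B :=
  ⟨fun m hm => by
    have h1 : IsCoprime (p : ℤ) (m : ℤ) := by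
      rw [Nat.isCoprime_iff_coprime]
      exact (Nat.Prime.coprime_iff_not_dvd hp.out).2 hm
    obtain ⟨a, b, hab⟩ := h1
    refine IsUnit.of_mul_eq_one (b : B) ?_
    have h2 := congrArg (Int.cast (R := B)) hab
    push_cast at h2
    rw [h, mul_zero, zero_add] at h2
    rw [mul_comm]
    exact h2⟩

/-- `n + 2` is a power of `p` -/
def IsPw (p n : ℕ) : Prop := ∃ k, n + 2 = p ^ k

theorem not_dvd_dC [hp : Fact p.Prime] {n : ℕ} (h : ¬ IsPw p n) : ¬ p ∣ dC (n + 2) := by
  by_cases h1 : IsPrimePow (n + 2)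
  · obtain ⟨l, k, hl, hk, h2⟩ := (isPrimePow_nat_iff _).1 h1
    rw [← h2, dC_pow hl hk.ne']
    intro h3
    have h4 := (Nat.prime_dvd_prime_iff_eq hp.out hl).1 h3
    exact h ⟨k, by rw [h4, h2]⟩
  · rw [dC_of_not h1]
    intro h3
    exact hp.out.one_lt.ne' (Nat.dvd_one.1 h3)

theorem isUnit_dC [Fact p.Prime] [PLoc p B] {n : ℕ} (h : ¬ IsPw p n) : IsUnit (dC (n + 2) : B) :=
  PLoc.isUnit (p := p) _ (not_dvd_dC h)

/-- comparison of `xC` for two strict series which agree in low degrees -/
theorem xC_strictMk_smul_sub (F : Law B) (b b' : ℕ → B) (n : ℕ) (h : ∀ k < n, b k = b' k) :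
    xC (strictMk b • F) n = xC (strictMk b' • F) n + (dC (n + 2) : B) * (b n - b' n) := by
  classical
  set f := strictMk b with hf
  set g := strictMk b' with hg
  have h1 : (f * g⁻¹) • (g • F) = f • F := by
    rw [mul_smul, inv_smul_smul]
  have h2 := mul_inv_sub_mem (f := f) (g := g) (strictMk_mem b') (n := n) (fun k hk => by
    rcases k with _ | k
    · rw [hf, hg, c_zero_strictMk, c_zero_strictMk]
    · rw [hf, hg, c_succ_strictMk, c_succ_strictMk]
      exact h k (by omega))
  rw [hf, hg, c_succ_strictMk, c_succ_strictMk, ← hf, ← hg] at h2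
  have h3 : ∀ i j, 1 ≤ i → 1 ≤ j → i + j = n + 2 →
      coeff (e2 i j) (f • F).ps = coeff (e2 i j) (g • F).ps +
        ((n + 2).choose i : B) * (b n - b' n) := by
    intro i j hi hj hij
    have h4 := change_of_variable (isLaw_formalGroup (g • F).toFG)
      (isLaw_formalGroup (f • F).toFG) (by omega) h2 (by
        have h5 := (InvSeries.isHom_smul (f * g⁻¹) (g • F)).2
        rw [h1] at h5
        exact h5) (e2 i j) (by rw [degree_e2]; omega)
    have h6 : coeff (e2 i j) ((X 0 + X 1 : MvPowerSeries (Fin 2) B) ^ (n + 2) - X 0 ^ (n + 2) -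
        X 1 ^ (n + 2)) = ((n + 2).choose i : B) := by
      rw [← dC_smul_CPS (by omega), ← map_natCast (MvPowerSeries.C (σ := Fin 2) (R := B)),
        coeff_C_mul, coeff_CPS (n + 2) i j hi hj hij, ← Nat.cast_mul, dC_mul_cC hi (by omega)]
    rw [map_sub, map_sub, coeff_C_mul, h6] at h4
    linear_combination h4
  have h7 : (dC (n + 2) : B) * (b n - b' n) = ∑ i ∈ Finset.Ioo 0 (n + 2),
      lz n i • (((n + 2).choose i : B) * (b n - b' n)) := by
    have h8 : ∀ i ∈ Finset.Ioo 0 (n + 2), lz n i • (((n + 2).choose i : B) * (b n - b' n)) =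
        (lz n i * (cC (n + 2) i : ℤ)) • ((dC (n + 2) : B) * (b n - b' n)) := by
      intro i hi
      rw [Finset.mem_Ioo] at hi
      rw [← dC_mul_cC (by omega) hi.2]
      simp only [zsmul_eq_mul]
      push_cast
      ring
    rw [Finset.sum_congr rfl h8, ← Finset.sum_smul, lz_spec, one_smul]
  rw [h7, xC, xC, ← Finset.sum_add_distrib]
  refine Finset.sum_congr rfl fun i hi => ?_
  rw [Finset.mem_Ioo] at hi
  rw [h3 i (n + 2 - i) (by omega) (by omega) (by omega), smul_add]

/-! ### the recursion -/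

open Classical in
/-- the `n`-th step: the coefficient at `x^{n+2}` of the normalising series, given the lower
coefficients -/
def nfStep (p : ℕ) (F : Law B) (t : ℕ → B) (b : ℕ → B) (n : ℕ) : B :=
  if IsPw p n then t n else -(Ring.inverse (dC (n + 2) : B) * xC (strictMk b • F) n)

/-- the first `n` coefficients -/
def nfAux (p : ℕ) (F : Law B) (t : ℕ → B) : ℕ → ℕ → B
  | 0 => 0
  | n + 1 => Function.update (nfAux p F t n) n (nfStep p F t (nfAux p F t n) n)

/-- the coefficients of the normalising series -/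
def nfB (p : ℕ) (F : Law B) (t : ℕ → B) (n : ℕ) : B := nfAux p F t (n + 1) n

theorem nfB_eq (F : Law B) (t : ℕ → B) (n : ℕ) :
    nfB p F t n = nfStep p F t (nfAux p F t n) n := by
  rw [nfB, nfAux, Function.update_self]

theorem nfAux_of_le (F : Law B) (t : ℕ → B) {n k : ℕ} (h : n ≤ k) : nfAux p F t n k = 0 := by
  induction n with
  | zero => rfl
  | succ n ih =>
    rw [nfAux, Function.update_of_ne (by omega)]
    exact ih (by omega)

theorem nfAux_of_lt (F : Law B) (t : ℕ → B) {n k : ℕ} (h : k < n) :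
    nfAux p F t n k = nfB p F t k := by
  induction n with
  | zero => omega
  | succ n ih =>
    rcases Nat.lt_or_ge k n with h1 | h1
    · rw [nfAux, Function.update_of_ne (by omega)]
      exact ih h1
    · obtain rfl : k = n := by omega
      rfl

/-- the law is in normal form -/
def IsNF (p : ℕ) (F : Law B) : Prop := ∀ n, ¬ IsPw p n → xC F n = 0

/-- the normalising series with parameters `t` -/
def nfS (p : ℕ) (F : Law B) (t : ℕ → B) : InvSeries B := strictMk (nfB p F t)

theorem nfS_mem (F : Law B) (t : ℕ → B) : nfS p F t ∈ strict B := strictMk_mem _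

theorem nfB_pw (F : Law B) (t : ℕ → B) {n : ℕ} (h : IsPw p n) : nfB p F t n = t n := by
  rw [nfB_eq, nfStep, if_pos h]

theorem c_nfS_pw (F : Law B) (t : ℕ → B) {n : ℕ} (h : IsPw p n) :
    (nfS p F t).c (n + 1) = t n := by
  rw [nfS, c_succ_strictMk, nfB_pw F t h]

variable [hp : Fact p.Prime]

theorem isNF_nfS [PLoc p B] (F : Law B) (t : ℕ → B) : IsNF p (nfS p F t • F) := by
  intro n hn
  rw [nfS, xC_strictMk_smul_sub F (nfB p F t) (nfAux p F t n) n
    (fun k hk => (nfAux_of_lt F t hk).symm), nfAux_of_le F t le_rfl, sub_zero, nfB_eq, nfStep,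
    if_neg hn, mul_neg, ← mul_assoc, Ring.mul_inverse_cancel _ (isUnit_dC hn), one_mul,
    add_neg_cancel]

/-- uniqueness of the coefficients -/
theorem eq_nfB [PLoc p B] (F : Law B) (t b : ℕ → B) (ht : ∀ n, IsPw p n → b n = t n)
    (hb : IsNF p (strictMk b • F)) : b = nfB p F t := by
  funext n
  induction n using Nat.strong_induction_on with
  | _ n ih =>
    by_cases hn : IsPw p n
    · rw [nfB_pw F t hn, ht n hn]
    · have h1 := xC_strictMk_smul_sub F b (nfB p F t) n ih
      rw [hb n hn, ← nfS, isNF_nfS F t n hn, zero_add] at h1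
      have h2 := ((isUnit_dC (B := B) hn).mul_right_eq_zero).1 h1.symm
      exact sub_eq_zero.1 h2

/-- uniqueness of the normalising series -/
theorem eq_nfS [PLoc p B] (F : Law B) (t : ℕ → B) {g : InvSeries B} (hg : g ∈ strict B)
    (ht : ∀ n, IsPw p n → g.c (n + 1) = t n) (hb : IsNF p (g • F)) : g = nfS p F t := by
  rw [nfS, ← eq_nfB F t (fun n => g.c (n + 1)) ht]
  · exact (strictMk_c hg).symm
  · rwa [strictMk_c hg]

/-- two strict series with normal targets and the same coefficients at `x^{p^k}` are equal -/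
theorem ext_of_isNF [PLoc p B] (F : Law B) {g g' : InvSeries B} (hg : g ∈ strict B)
    (hg' : g' ∈ strict B) (h : ∀ n, IsPw p n → g.c (n + 1) = g'.c (n + 1))
    (hb : IsNF p (g • F)) (hb' : IsNF p (g' • F)) : g = g' :=
  (eq_nfS F (fun n => g'.c (n + 1)) hg h hb).trans
    (eq_nfS F (fun n => g'.c (n + 1)) hg' (fun _ _ => rfl) hb').symm

omit hp in
theorem IsNF.map {F : Law A} (h : IsNF p F) (φ : A →+* B) : IsNF p (F.map φ) := fun n hn => by
  rw [← map_xC, h n hn, map_zero]

theorem map_nfS [PLoc p A] (φ : A →+* B) (F : Law A) (t : ℕ → A) :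
    InvSeries.map φ (nfS p F t) = nfS p (F.map φ) (fun n => φ (t n)) := by
  have := PLoc.of_hom (p := p) φ
  refine eq_nfS _ _ (map_mem_strict φ (nfS_mem F t)) (fun n hn => ?_) ?_
  · rw [InvSeries.c_map, c_nfS_pw F t hn]
  · rw [← InvSeries.map_smul]
    exact (isNF_nfS F t).map φ

/-! ### normalisation -/

/-- the normalising series (no coefficients at `x^{p^k}`) -/
def nf (p : ℕ) (F : Law B) : InvSeries B := nfS p F 0

omit hp in
theorem nf_mem (F : Law B) : nf p F ∈ strict B := nfS_mem F 0

theorem isNF_nf [PLoc p B] (F : Law B) : IsNF p (nf p F • F) := isNF_nfS F 0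

theorem map_nf [PLoc p A] (φ : A →+* B) (F : Law A) :
    InvSeries.map φ (nf p F) = nf p (F.map φ) := by
  rw [nf, map_nfS]
  congr 1
  funext n
  exact map_zero φ

theorem nf_eq_one [PLoc p B] {F : Law B} (h : IsNF p F) : nf p F = 1 := by
  refine (eq_nfS F 0 (one_mem _) (fun n _ => InvSeries.c_one_succ n) ?_).symm
  rwa [one_smul]

theorem nf_nf [PLoc p B] (F : Law B) : nf p (nf p F • F) = 1 := nf_eq_one (isNF_nf F)

omit hp in
theorem isNF_lin {F : Law B} (u : Bˣ) (h : IsNF p F) :
    IsNF p ((InvSeries.lin u)⁻¹ • F) := fun n hn => by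
  rw [xC_lin_inv_smul, h n hn, mul_zero]

end Vale.Agent.P257.V4.B

end
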