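import Vale.Agent.P257.V4.B.MonBasis
import Vale.Agent.P251.M.KBasisMU
import Vale.Agent.P251.X.Defs

/-!
# P257, part B: morphisms of monoids `MU ⟶ K` and strict series

For morphisms of commutative monoids `f g : MU ⟶ K`: the strict series `ser f g` over
`π_{2*} K`, with `lawOf g = ser f g • lawOf f`, the cocycle rule, naturality, homogeneity; for
fixed `f` the map `g ↦ ser f g` is a bijection onto the homogeneous strict series.
-/

open CategoryTheory MonoidalCategory MonObj Limits Pretriangulated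

universe v u

set_option linter.unusedSectionVars false

noncomputable section

namespace Vale.Agent.P257.V4.B

open Vale.Agent.P251.S Vale.Agent.P251.T Vale.Agent.P251.M Vale.Agent.P251.F Vale.Agent.P251.I
  Vale.Agent.P251.X EvenSpheres

section hg

variable {T : Type u} [Category.{v} T] [Preadditive T] [MonoidalCategory T]
  [MonoidalPreadditive T] [SymmetricCategory T] {E : EvenSpheres T} {K : T} [MonObj K]

/-- `x` is homogeneous of degree `n`. -/
def IsHg (n : ℤ) (x : HRing E K) : Prop := ∃ a : E.S n ⟶ K, x = HRing.of E K n a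

theorem isHg_of (n : ℤ) (a : E.S n ⟶ K) : IsHg n (HRing.of E K n a) := ⟨a, rfl⟩

theorem isHg_one : IsHg 0 (1 : HRing E K) := ⟨_, of_one.symm⟩

theorem isHg_zero (n : ℤ) : IsHg n (0 : HRing E K) := ⟨0, (map_zero _).symm⟩

theorem IsHg.add {n : ℤ} {x y : HRing E K} (hx : IsHg n x) (hy : IsHg n y) : IsHg n (x + y) := by
  obtain ⟨a, rfl⟩ := hx
  obtain ⟨b, rfl⟩ := hy
  exact ⟨a + b, (map_add _ _ _).symm⟩

theorem IsHg.neg {n : ℤ} {x : HRing E K} (hx : IsHg n x) : IsHg n (-x) := by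
  obtain ⟨a, rfl⟩ := hx
  exact ⟨-a, (map_neg _ _).symm⟩

theorem IsHg.sum {I : Type*} (t : Finset I) {n : ℤ} (x : I → HRing E K)
    (h : ∀ i ∈ t, IsHg n (x i)) : IsHg n (∑ i ∈ t, x i) := by
  classical
  induction t using Finset.induction_on with
  | empty => exact isHg_zero n
  | insert i t hi ih =>
    rw [Finset.sum_insert hi]
    exact (h i (Finset.mem_insert_self i t)).add
      (ih fun j hj => h j (Finset.mem_insert_of_mem hj))

theorem IsHg.mul {m n : ℤ} {x y : HRing E K} (hx : IsHg m x) (hy : IsHg n y) :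
    IsHg (m + n) (x * y) := by
  obtain ⟨a, rfl⟩ := hx
  obtain ⟨b, rfl⟩ := hy
  exact ⟨_, of_mul_of rfl a b⟩

theorem IsHg.pow {m : ℤ} {x : HRing E K} (hx : IsHg m x) (e : ℕ) :
    IsHg ((e : ℤ) * m) (x ^ e) := by
  induction e with
  | zero => simpa using isHg_one
  | succ e ih =>
    rw [pow_succ]
    have h : ((e + 1 : ℕ) : ℤ) * m = (e : ℤ) * m + m := by
      push_cast
      ring
    rw [h]
    exact ih.mul hx

theorem IsHg.map {K' : T} [MonObj K'] (g : K ⟶ K') [IsMonHom g] {n : ℤ} {x : HRing E K}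
    (hx : IsHg n x) : IsHg n (HRing.map g x) := by
  obtain ⟨a, rfl⟩ := hx
  exact ⟨a ≫ g, HRing.map_of _ _ _⟩

theorem IsHg.prod {I : Type*} [IsCommMonObj K] (t : Finset I) (n : I → ℤ) (x : I → HRing E K)
    (h : ∀ i ∈ t, IsHg (n i) (x i)) : IsHg (∑ i ∈ t, n i) (∏ i ∈ t, x i) := by
  classical
  induction t using Finset.induction_on with
  | empty => simpa using isHg_one
  | insert i t hi ih =>
    rw [Finset.prod_insert hi, Finset.sum_insert hi]
    exact (h i (Finset.mem_insert_self i t)).mul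
      (ih fun j hj => h j (Finset.mem_insert_of_mem hj))

omit [MonoidalPreadditive T] [MonObj K] in
theorem of_inj {n : ℤ} {a b : E.S n ⟶ K} (h : HRing.of E K n a = HRing.of E K n b) : a = b :=
  DirectSum.of_injective n h

end hg

variable {T : Type u} [Category.{v} T] [Preadditive T] [HasZeroObject T]
    [HasShift T ℤ] [∀ n : ℤ, (shiftFunctor T n).Additive] [Pretriangulated T] [IsTriangulated T]
    [MonoidalCategory T] [SymmetricCategory T] [TensorTriangulated T] [MonoidalClosed T]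
    [HasCoproducts.{0} T] [HasProducts.{0} T] [StableCat T] (D : MUData T)

variable {K : T} [MonObj K] [IsCommMonObj K]

/-! ### Families of morphisms -/

/-- The value of the functions on chains at a family of morphisms of monoids `MU ⟶ K`. -/
def evOf {s : ℕ} (fs : Fin (s + 1) → (D.R ⟶ K)) [∀ i, IsMonHom (fs i)] :
    Cob Laz s →+* HRing (stdEven T) K :=
  (HRing.map (Am.lift fs)).comp (D.ev s)

theorem evOf_apply {s : ℕ} (fs : Fin (s + 1) → (D.R ⟶ K)) [∀ i, IsMonHom (fs i)]
    (z : Cob Laz s) : evOf D fs z = HRing.map (E := stdEven T) (Am.lift fs) (D.ev s z) := rfl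

/-- restriction of families -/
theorem evOf_map {m n : ℕ} (α : Fin (m + 1) → Fin (n + 1)) (fs : Fin (n + 1) → (D.R ⟶ K))
    [∀ i, IsMonHom (fs i)] (z : Cob Laz m) :
    evOf D (fun i => fs (α i)) z = evOf D fs (Cob.map α z) := by
  have h : Am.map D.R α ≫ Am.lift fs = Am.lift fun i => fs (α i) := by
    apply Am.hom_ext
    intro i
    rw [Am.v_map_assoc, Am.v_lift, Am.v_lift]
  rw [evOf_apply, evOf_apply, ← D.ev_map m n α z]
  have h2 : HRing.map (E := stdEven T) (Am.lift fun i => fs (α i)) =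
      (HRing.map (E := stdEven T) (Am.lift fs)).comp (HRing.map (Am.map D.R α)) := by
    rw [← HRing.map_comp, HRing_map_congr h]
  rw [h2, RingHom.comp_apply]

/-- naturality -/
theorem map_evOf {K' : T} [MonObj K'] [IsCommMonObj K'] (g : K ⟶ K') [IsMonHom g] {s : ℕ}
    (fs : Fin (s + 1) → (D.R ⟶ K)) [∀ i, IsMonHom (fs i)] :
    (HRing.map (E := stdEven T) g).comp (evOf D fs) = evOf D (fun i => fs i ≫ g) := by
  have h : Am.lift fs ≫ g = Am.lift fun i => fs i ≫ g := by
    apply Am.hom_ext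
    intro i
    rw [Am.v_lift_assoc, Am.v_lift]
  have h2 : HRing.map (E := stdEven T) (Am.lift fun i => fs i ≫ g) =
      (HRing.map (E := stdEven T) g).comp (HRing.map (Am.lift fs)) := by
    rw [← HRing.map_comp, HRing_map_congr h]
  rw [evOf, evOf, h2, RingHom.comp_assoc]

theorem isHg_evOf {s : ℕ} (fs : Fin (s + 1) → (D.R ⟶ K)) [∀ i, IsMonHom (fs i)] {w : ℤ}
    {z : Cob Laz s} (hz : Cob.IsWt w z) : IsHg w (evOf D fs z) := by
  obtain ⟨a, ha⟩ := D.ev_wt s w z hz
  rw [evOf_apply, ha]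
  exact (isHg_of w a).map _

/-- the isomorphism from the first law to the `i`-th law -/
def serOf {s : ℕ} (fs : Fin (s + 1) → (D.R ⟶ K)) [∀ i, IsMonHom (fs i)] (i : Fin (s + 1)) :
    InvSeries (HRing (stdEven T) K) := InvSeries.map (evOf D fs) ((Cob.univ Laz s).g i)

theorem serOf_strict {s : ℕ} (fs : Fin (s + 1) → (D.R ⟶ K)) [∀ i, IsMonHom (fs i)]
    (i : Fin (s + 1)) : serOf D fs i ∈ Vale.Agent.P251.F.strict (HRing (stdEven T) K) :=
  map_mem_strict _ ((Cob.univ Laz s).strict i)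

theorem serOf_zero {s : ℕ} (fs : Fin (s + 1) → (D.R ⟶ K)) [∀ i, IsMonHom (fs i)] :
    serOf D fs 0 = 1 := by
  rw [serOf, (Cob.univ Laz s).zero, map_one]

theorem lawOf_eq {s : ℕ} (fs : Fin (s + 1) → (D.R ⟶ K)) [∀ i, IsMonHom (fs i)]
    (i : Fin (s + 1)) :
    lawOf (fs i) = serOf D fs i • Laz.univ.map ((evOf D fs).comp MvPolynomial.C) := by
  have h1 : HRing.map (E := stdEven T) (fs i) =
      (HRing.map (E := stdEven T) (Am.lift fs)).comp (HRing.map (Am.v D.R i)) := by
    rw [← HRing.map_comp, HRing_map_congr (Am.v_lift fs i)]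
  rw [lawOf, h1, ← Law.map_map, D.law_map_v, InvSeries.map_smul, InvSeries.map_map, Law.map_map]
  rfl

theorem serOf_comp {m n : ℕ} (α : Fin (m + 1) → Fin (n + 1)) (fs : Fin (n + 1) → (D.R ⟶ K))
    [∀ i, IsMonHom (fs i)] (i : Fin (m + 1)) :
    serOf D (fun i => fs (α i)) i = serOf D fs (α i) * (serOf D fs (α 0))⁻¹ := by
  have h1 : evOf D (fun i => fs (α i)) = (evOf D fs).comp (Cob.map α) :=
    RingHom.ext fun z => evOf_map D α fs z
  have h2 : (Cob.univ Laz m).map (Cob.map α) = (Cob.univ Laz n).res α := Cob.univ_map_ev _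
  have h3 := congrArg (fun c => Chain.g c i) h2
  rw [Chain.map_g, Chain.res_g] at h3
  rw [serOf, h1, ← InvSeries.map_map, h3, map_mul, map_inv]
  rfl

/-! ### Pairs -/

/-- the family `(f, g)` -/
def pair (f g : D.R ⟶ K) : Fin (1 + 1) → (D.R ⟶ K) := ![f, g]

variable {D}

instance isMonHom_pair (f g : D.R ⟶ K) [IsMonHom f] [IsMonHom g] (i : Fin (1 + 1)) :
    IsMonHom (pair D f g i) := by
  fin_cases i
  · change IsMonHom f
    infer_instance
  · change IsMonHom g
    infer_instance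

/-- **The strict series of a pair of morphisms of monoids** `f g : MU ⟶ K`. -/
def ser (f g : D.R ⟶ K) [IsMonHom f] [IsMonHom g] : InvSeries (HRing (stdEven T) K) :=
  serOf D (pair D f g) 1

variable (f g h : D.R ⟶ K) [IsMonHom f] [IsMonHom g] [IsMonHom h]

theorem ser_strict : ser f g ∈ Vale.Agent.P251.F.strict (HRing (stdEven T) K) :=
  serOf_strict _ _ _

theorem ser_c_zero : (ser f g).c 0 = 1 := ser_strict f g

theorem serOf_congr {s : ℕ} (fs gs : Fin (s + 1) → (D.R ⟶ K)) [∀ i, IsMonHom (fs i)]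
    [∀ i, IsMonHom (gs i)] (h : fs = gs) (i : Fin (s + 1)) : serOf D fs i = serOf D gs i := by
  subst h
  rfl

theorem serOf_eq_ser {s : ℕ} (fs : Fin (s + 1) → (D.R ⟶ K)) [∀ i, IsMonHom (fs i)]
    (i j : Fin (s + 1)) : ser (fs i) (fs j) = serOf D fs j * (serOf D fs i)⁻¹ := by
  have h1 := serOf_comp D (m := 1) ![i, j] fs 1
  change serOf D _ 1 = serOf D fs j * (serOf D fs i)⁻¹ at h1
  rw [← h1]
  refine serOf_congr _ _ ?_ 1
  funext k
  fin_cases k <;> rfl

theorem ser_self : ser f f = 1 := by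
  have h1 := serOf_eq_ser (D := D) (s := 0) (fun _ => f) 0 0
  rwa [mul_inv_cancel] at h1

/-- **The cocycle rule.** -/
theorem ser_mul : ser g h * ser f g = ser f h := by
  have hi : ∀ i : Fin (2 + 1), IsMonHom ((![f, g, h] : Fin (2 + 1) → (D.R ⟶ K)) i) := by
    intro i
    fin_cases i
    · change IsMonHom f
      infer_instance
    · change IsMonHom g
      infer_instance
    · change IsMonHom h
      infer_instance
  have h1 := serOf_eq_ser (D := D) (s := 2) (![f, g, h] : Fin (2 + 1) → (D.R ⟶ K)) 0 1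
  have h2 := serOf_eq_ser (D := D) (s := 2) (![f, g, h] : Fin (2 + 1) → (D.R ⟶ K)) 1 2
  have h3 := serOf_eq_ser (D := D) (s := 2) (![f, g, h] : Fin (2 + 1) → (D.R ⟶ K)) 0 2
  change ser f g = _ at h1
  change ser g h = _ at h2
  change ser f h = _ at h3
  rw [h1, h2, h3, _root_.mul_assoc, inv_mul_cancel_left]

theorem ser_inv : (ser f g)⁻¹ = ser g f := by
  rw [inv_eq_iff_mul_eq_one, ser_mul, ser_self]

/-- **`ser f g` is the isomorphism from the law of `f` to the law of `g`.** -/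
theorem ser_smul : ser f g • lawOf f = lawOf g := by
  have h0 := lawOf_eq D (pair D f g) 0
  have h1 := lawOf_eq D (pair D f g) 1
  rw [serOf_zero, one_smul] at h0
  change lawOf f = _ at h0
  change lawOf g = _ at h1
  rw [h0, h1]
  rfl

/-- **Naturality.** -/
theorem map_ser {K' : T} [MonObj K'] [IsCommMonObj K'] (k : K ⟶ K') [IsMonHom k] :
    InvSeries.map (HRing.map (E := stdEven T) k) (ser f g) = ser (f ≫ k) (g ≫ k) := by
  rw [ser, serOf, InvSeries.map_map, map_evOf]
  refine serOf_congr _ _ ?_ 1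
  funext i
  fin_cases i <;> rfl

/-- The series is homogeneous. -/
theorem isHg_ser (m : ℕ) : IsHg (m : ℤ) ((ser f g).c m) := by
  rcases m with _ | m
  · rw [ser_c_zero]
    exact isHg_one
  · rw [ser, serOf, InvSeries.c_map]
    have h1 : ((Cob.univ Laz 1).g 1).c (m + 1) = MvPolynomial.X ((0 : Fin 1), m) := by
      have h2 : (Cob.univ Laz 1).g 1 = strictMk fun m => MvPolynomial.X (0, m) :=
        Cob.univ_g_succ (N := Laz) (n := 1) 0
      rw [h2, c_succ_strictMk]
    rw [h1]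
    exact isHg_evOf D _ (Cob.isWt_X 0 m)

theorem lawOf_map {K' : T} [MonObj K'] [IsCommMonObj K'] (k : K ⟶ K') [IsMonHom k] :
    (lawOf f).map (HRing.map (E := stdEven T) k) = lawOf (f ≫ k) := by
  rw [lawOf, lawOf, Law.map_map, ← HRing.map_comp]

/-! ### The bijection -/

/-- the monomials in the coefficients of a series -/
def mon (u : InvSeries (HRing (stdEven T) K)) (a : ℕ →₀ ℕ) : HRing (stdEven T) K :=
  a.prod fun m e => u.c (m + 1) ^ e

theorem mon_zero (u : InvSeries (HRing (stdEven T) K)) : mon u 0 = 1 := Finsupp.prod_zero_index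

theorem mon_add (u : InvSeries (HRing (stdEven T) K)) (a b : ℕ →₀ ℕ) :
    mon u (a + b) = mon u a * mon u b :=
  Finsupp.prod_add_index' (fun _ => pow_zero _) (fun _ _ _ => pow_add _ _ _)

theorem mon_single (u : InvSeries (HRing (stdEven T) K)) (m : ℕ) :
    mon u (Finsupp.single m 1) = u.c (m + 1) := by
  rw [mon, Finsupp.prod_single_index (h := fun m e => u.c (m + 1) ^ e) (pow_zero _), pow_one]

theorem isHg_mon {u : InvSeries (HRing (stdEven T) K)} (hu : ∀ m : ℕ, IsHg (m : ℤ) (u.c m))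
    (a : ℕ →₀ ℕ) : IsHg (Cob.degU a) (mon u a) :=
  IsHg.prod _ _ _ fun m _ => (hu (m + 1)).pow _

theorem degU_zero : Cob.degU 0 = 0 := Finsupp.sum_zero_index

theorem degU_add (a b : ℕ →₀ ℕ) : Cob.degU a + Cob.degU b = Cob.degU (a + b) := by
  symm
  refine Finsupp.sum_add_index' (fun _ => ?_) (fun _ _ _ => ?_)
  · simp
  · push_cast
    ring

theorem evOf_monomial (a : ℕ →₀ ℕ) :
    evOf D (pair D f g) (MvPolynomial.monomial (Cob.last 0 a) 1) = mon (ser f g) a := by
  rw [MvPolynomial.monomial_eq, MvPolynomial.C_1, _root_.one_mul, Cob.last,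
    Finsupp.prod_mapDomain_index_inj Cob.last_inj, Finsupp.prod, map_prod]
  refine Finset.prod_congr rfl fun m _ => ?_
  dsimp only
  rw [map_pow, ser, serOf, InvSeries.c_map]
  have h2 : (Cob.univ Laz 1).g 1 = strictMk fun m => MvPolynomial.X (0, m) :=
    Cob.univ_g_succ (N := Laz) (n := 1) 0
  rw [h2, c_succ_strictMk]
  rfl

theorem isMulBasis_of {F : SpaceFunctor T} {e : F.S.obj CCF ≅ (stdEven T).L} (_ : MUUniv e D)
    {b : GBasis (stdEven T) (inlM K D.R) (ℕ →₀ ℕ)} (hk : ∀ a, b.k a = Cob.degU a)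
    (hw : ∀ a, HRing.of (stdEven T) (K ⊗ D.R) (b.k a) (b.w a) =
        HRing.map (E := stdEven T) (D.toKR f)
          (D.ev 1 (MvPolynomial.monomial (Cob.last 0 a) 1))) : IsMulBasis b := by
  have h0 : b.k 0 = 0 := by rw [hk, degU_zero]
  have hadd : ∀ i j, b.k i + b.k j = b.k (i + j) := fun i j => by rw [hk, hk, hk, degU_add]
  refine ⟨h0, hadd, ?_, fun i j => ?_⟩
  · apply of_inj
    rw [hw, of_cast, of_one]
    have : MvPolynomial.monomial (Cob.last 0 (0 : ℕ →₀ ℕ)) (1 : Laz) = 1 := by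
      rw [Cob.last, Finsupp.mapDomain_zero]
      rfl
    rw [this, map_one, map_one]
  · apply of_inj
    rw [hw, ← of_mul_of, hw, hw, ← map_mul, ← map_mul, MvPolynomial.monomial_mul, _root_.one_mul,
      Cob.last, Cob.last, Cob.last, Finsupp.mapDomain_add]

section biject

variable {F : SpaceFunctor T} {e : F.S.obj CCF ≅ (stdEven T).L} (H : MUUniv e D)

include H

/-- morphisms of monoids `Φ : K ⊗ MU ⟶ N` over `K` -/
theorem of_w_comp {N : T} [MonObj N] [IsCommMonObj N]
    {b : GBasis (stdEven T) (inlM K D.R) (ℕ →₀ ℕ)}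
    (hw : ∀ a, HRing.of (stdEven T) (K ⊗ D.R) (b.k a) (b.w a) =
        HRing.map (E := stdEven T) (D.toKR f)
          (D.ev 1 (MvPolynomial.monomial (Cob.last 0 a) 1)))
    (Φ : K ⊗ D.R ⟶ N) [IsMonHom Φ] (a : ℕ →₀ ℕ) :
    HRing.of (stdEven T) N (b.k a) (b.w a ≫ Φ) =
      mon (ser (f ≫ inlM K D.R ≫ Φ) (inrM K D.R ≫ Φ)) a := by
  rw [← HRing.map_of, hw, ← evOf_monomial, evOf_apply, ← RingHom.comp_apply, ← HRing.map_comp]
  have h1 : D.toKR f ≫ Φ = Am.lift (pair D (f ≫ inlM K D.R ≫ Φ) (inrM K D.R ≫ Φ)) := by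
    apply Am.hom_ext
    intro i
    rw [Am.v_lift]
    fin_cases i
    · change Am.v D.R (0 : Fin 2) ≫ _ = f ≫ inlM K D.R ≫ Φ
      rw [← Category.assoc, D.v_zero_toKR, Category.assoc]
    · change Am.v D.R (1 : Fin 2) ≫ _ = inrM K D.R ≫ Φ
      rw [← Category.assoc, D.v_one_toKR]
  exact congrArg (fun φ : HRing (stdEven T) (Am D.R 2) →+* HRing (stdEven T) N => φ _)
    (HRing_map_congr h1)

/-- **Existence**: every homogeneous strict series over a `K`-algebra comes from a morphism of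
monoids `K ⊗ MU ⟶ N`. -/
theorem exists_hom_tensor {N : T} [MonObj N] [IsCommMonObj N] (k : K ⟶ N) [IsMonHom k]
    (u : InvSeries (HRing (stdEven T) N)) (hu : ∀ m : ℕ, IsHg (m : ℤ) (u.c m))
    (hs : u.c 0 = 1) :
    ∃ g' : D.R ⟶ N, ∃ _ : IsMonHom g', ser (f ≫ k) g' = u := by
  obtain ⟨b, hk, hw⟩ := D.exists_basis_of f H
  have hb := isMulBasis_of f H hk hw
  have hy : ∀ a : ℕ →₀ ℕ, ∃ y : (stdEven T).S (b.k a) ⟶ N,
      mon u a = HRing.of (stdEven T) N (b.k a) y := by
    intro a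
    have h1 := isHg_mon hu a
    rw [← hk] at h1
    exact h1
  choose y hy using hy
  have hfam : IsMulFam hb y := by
    constructor
    · apply of_inj
      rw [← hy, of_cast, of_one, mon_zero]
    · intro i j
      apply of_inj
      rw [← of_mul_of, ← hy, ← hy, ← hy, mon_add]
  obtain ⟨Φ, hΦ, h1, h2⟩ := exists_hom hb k y hfam
  refine ⟨inrM K D.R ≫ Φ, inferInstance, ?_⟩
  have h3 : ∀ a, mon (ser (f ≫ inlM K D.R ≫ Φ) (inrM K D.R ≫ Φ)) a = mon u a := by
    intro a
    rw [← of_w_comp f H hw Φ a, h2, ← hy]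
  refine InvSeries.ext_c fun m => ?_
  rcases m with _ | m
  · rw [hs, ser_c_zero]
  · have h4 := h3 (Finsupp.single m 1)
    rw [mon_single, mon_single] at h4
    rw [← h4]
    have h5 : f ≫ k = f ≫ inlM K D.R ≫ Φ := by rw [h1]
    simp only [h5]

/-- **Existence.** -/
theorem exists_ser (u : InvSeries (HRing (stdEven T) K)) (hu : ∀ m : ℕ, IsHg (m : ℤ) (u.c m))
    (hs : u.c 0 = 1) : ∃ g' : D.R ⟶ K, ∃ _ : IsMonHom g', ser f g' = u := by
  obtain ⟨g', hg', h⟩ := exists_hom_tensor f H (𝟙 K) u hu hs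
  refine ⟨g', hg', ?_⟩
  rw [← h]
  simp only [Category.comp_id]

/-- **Uniqueness.** -/
theorem eq_of_ser (heq : ser f g = ser f h) : g = h := by
  obtain ⟨b, hk, hw⟩ := D.exists_basis_of f H
  have hb := isMulBasis_of f H hk hw
  have h1 : descM (𝟙 K) g = descM (𝟙 K) h := by
    refine hom_unique (b := b) (by rw [inlM_descM, inlM_descM]) fun a => ?_
    apply of_inj
    rw [of_w_comp f H hw, of_w_comp f H hw]
    simp only [inlM_descM, inrM_descM, Category.comp_id, heq]
  rw [← inrM_descM (𝟙 K) g, h1, inrM_descM]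

theorem eq_of_ser_one (heq : ser f g = 1) : f = g := by
  refine eq_of_ser f f g H ?_
  rw [heq, ser_self]

end biject

end Vale.Agent.P257.V4.B
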