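import Vale.Agent.P093.N.PLocRight
import Vale.Agent.P257.V4.B.NF1
import Vale.Agent.P257.V4.B.RingMap
import Vale.Agent.P251.F.LazWt

/-!
# P257, part B: the `p`-localization of commutative monoids; homogeneity of normal forms

* `exists_extM`, `extM_unique` : morphisms of monoids `X ⊗ Sp p ⟶ N` for `p`-local `N`;
* `pLoc_HRing` : the homotopy ring of a `p`-local monoid is a `p`-local ring;
* `isHg_nfS` : the normalising series of `lawOf f` is homogeneous.
-/

open CategoryTheory MonoidalCategory MonObj Limits Pretriangulated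

universe v u

set_option linter.unusedSectionVars false

noncomputable section

namespace Vale.Agent.P257.V4.B

open Vale.Agent.P251.S Vale.Agent.P251.T Vale.Agent.P251.M Vale.Agent.P251.F Vale.Agent.P251.I
  Vale.Agent.P251.X EvenSpheres Vale.Agent.P093.PLoc

section loc

variable {T : Type u} [Category.{v} T] [Preadditive T] [HasZeroObject T] [HasShift T ℤ]
  [∀ n : ℤ, (shiftFunctor T n).Additive] [Pretriangulated T]
  [MonoidalCategory T] [SymmetricCategory T] [TensorTriangulated T] [MonoidalClosed T]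
  [HasCoproducts.{0} T] {p : ℕ} [hp : Fact p.Prime]

/-- the morphism of monoids `Sp p ⟶ N` to a `p`-local monoid -/
theorem exists_unitSp {N : T} [MonObj N] (hN : IsPLocal p N) :
    ∃ σ : Sp T p ⟶ N, IsMonHom σ ∧ eta T p ≫ σ = η[N] := by
  obtain ⟨g, hg⟩ := hN.exists_desc (η[N] : 𝟙_ T ⟶ N)
  have h1 : eta T p ≫ (ρ_ (Sp T p)).inv ≫ g = η[N] := by
    rw [← hg]
    unfold etaX
    rw [rightUnitor_inv_naturality_assoc, unitors_inv_equal, Category.assoc]
  refine ⟨(ρ_ (Sp T p)).inv ≫ g, ⟨h1, ?_⟩, h1⟩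
  refine hN.hom_ext ?_
  set σ : Sp T p ⟶ N := (ρ_ (Sp T p)).inv ≫ g with hσ
  rw [mul_Sp, etaX_mu_assoc]
  unfold etaX
  have h2 : eta T p ▷ Sp T p ≫ (σ ⊗ₘ σ) = (𝟙_ T) ◁ σ ≫ η[N] ▷ N := by
    rw [tensorHom_def, ← comp_whiskerRight_assoc, h1, ← whisker_exchange]
  rw [Category.assoc, reassoc_of% h2, MonObj.one_mul]
  simp

variable (p) in
/-- the inclusion of a monoid into its `p`-localization -/
def locM (X : T) : X ⟶ X ⊗ Sp T p := inlM X (Sp T p)

instance (X : T) [MonObj X] : IsMonHom (locM p X) := inferInstanceAs (IsMonHom (inlM X (Sp T p)))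

theorem locM_eq (X : T) : locM p X = etaR p X := rfl

/-- extension of morphisms of monoids to the localization -/
theorem exists_extM {X N : T} [MonObj X] [MonObj N] [IsCommMonObj N] (hN : IsPLocal p N)
    (g : X ⟶ N) [IsMonHom g] : ∃ h : X ⊗ Sp T p ⟶ N, IsMonHom h ∧ locM p X ≫ h = g := by
  obtain ⟨σ, hσ, -⟩ := exists_unitSp hN
  exact ⟨descM g σ, inferInstance, inlM_descM _ _⟩

/-- the extension of a morphism of monoids to the localization -/
def extM {X N : T} [MonObj X] [MonObj N] [IsCommMonObj N] (hN : IsPLocal p N)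
    (g : X ⟶ N) [IsMonHom g] : X ⊗ Sp T p ⟶ N := (exists_extM hN g).choose

instance {X N : T} [MonObj X] [MonObj N] [IsCommMonObj N] (hN : IsPLocal p N)
    (g : X ⟶ N) [IsMonHom g] : IsMonHom (extM hN g) := (exists_extM hN g).choose_spec.1

@[reassoc]
theorem locM_extM {X N : T} [MonObj X] [MonObj N] [IsCommMonObj N] (hN : IsPLocal p N)
    (g : X ⟶ N) [IsMonHom g] : locM p X ≫ extM hN g = g := (exists_extM hN g).choose_spec.2

theorem loc_ext {X N : T} (hN : IsPLocal p N) {f g : X ⊗ Sp T p ⟶ N}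
    (h : locM p X ≫ f = locM p X ≫ g) : f = g := hN.hom_ext_right h

end loc

section ring

variable {T : Type u} [Category.{v} T] [Preadditive T] [MonoidalCategory T]
  [MonoidalPreadditive T] [SymmetricCategory T] {E : EvenSpheres T} {K : T} [MonObj K]
  [IsCommMonObj K] {p : ℕ} [hp : Fact p.Prime]

omit [IsCommMonObj K] in
theorem natCast_mul_of (m : ℕ) (n : ℤ) (a : E.S n ⟶ K) :
    (m : HRing E K) * HRing.of E K n a = HRing.of E K n ((m : ℤ) • a) := by
  rw [← nsmul_eq_mul, natCast_zsmul]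
  exact (map_nsmul (DirectSum.of (E.Gr K) n) m a).symm

theorem pLoc_HRing (hK : IsPLocal p K) : PLoc p (HRing E K) := by
  refine ⟨fun m hm => ?_⟩
  have h1 : ((m : ℤ)).natAbs.Coprime p := by
    rw [Int.natAbs_natCast, Nat.coprime_comm]
    exact (Nat.Prime.coprime_iff_not_dvd hp.out).2 hm
  obtain ⟨g, hg⟩ := hK.exists_div h1 (E.zero.inv ≫ η[K])
  refine IsUnit.of_mul_eq_one (HRing.of E K 0 g) ?_
  rw [natCast_mul_of, hg]
  rfl

theorem IsHg.inverse_mul (hK : IsPLocal p K) {m : ℕ} (hm : ¬ p ∣ m) {n : ℤ} {x : HRing E K}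
    (hx : IsHg n x) : IsHg n (Ring.inverse (m : HRing E K) * x) := by
  obtain ⟨a, rfl⟩ := hx
  have h1 : ((m : ℤ)).natAbs.Coprime p := by
    rw [Int.natAbs_natCast, Nat.coprime_comm]
    exact (Nat.Prime.coprime_iff_not_dvd hp.out).2 hm
  have := pLoc_HRing (E := E) hK
  obtain ⟨g, hg⟩ := hK.exists_div h1 a
  refine ⟨g, ?_⟩
  rw [← hg, ← natCast_mul_of, Ring.inverse_mul_cancel_left _ _ (PLoc.isUnit (p := p) m hm)]

end ring

variable {T : Type u} [Category.{v} T] [Preadditive T] [HasZeroObject T]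
    [HasShift T ℤ] [∀ n : ℤ, (shiftFunctor T n).Additive] [Pretriangulated T] [IsTriangulated T]
    [MonoidalCategory T] [SymmetricCategory T] [TensorTriangulated T] [MonoidalClosed T]
    [HasCoproducts.{0} T] [HasProducts.{0} T] [StableCat T] {D : MUData T}
    {K : T} [MonObj K] [IsCommMonObj K] {p : ℕ} [hp : Fact p.Prime]

/-- the Lazard coordinates of the law of a morphism are homogeneous -/
theorem isHg_xC (f : D.R ⟶ K) [IsMonHom f] (n : ℕ) :
    IsHg ((n + 1 : ℕ) : ℤ) (xC (lawOf f) n) := by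
  have h0 := lawOf_eq D (fun _ : Fin (0 + 1) => f) 0
  rw [serOf_zero, one_smul] at h0
  rw [h0, ← map_xC, RingHom.comp_apply]
  exact isHg_evOf D _ (Laz.isWt_x n)

section nf

variable {F : SpaceFunctor T} {e : F.S.obj CCF ≅ (stdEven T).L} (H : MUUniv e D)

include H

/-- the Lazard coordinates of the transported law are homogeneous -/
theorem isHg_xC_smul (f : D.R ⟶ K) [IsMonHom f] (b : ℕ → HRing (stdEven T) K)
    (hb : ∀ n : ℕ, IsHg ((n + 1 : ℕ) : ℤ) (b n)) (n : ℕ) :
    IsHg ((n + 1 : ℕ) : ℤ) (xC (strictMk b • lawOf f) n) := by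
  obtain ⟨g, hg, h⟩ := exists_ser f H (strictMk b) (fun m => by
    rcases m with _ | m
    · rw [c_zero_strictMk]
      exact isHg_one
    · rw [c_succ_strictMk]
      exact hb m) (c_zero_strictMk b)
  rw [← h, ser_smul]
  exact isHg_xC g n

variable (hK : IsPLocal p K)

include hK

theorem isHg_nfAux (f : D.R ⟶ K) [IsMonHom f] (t : ℕ → HRing (stdEven T) K)
    (ht : ∀ n : ℕ, IsHg ((n + 1 : ℕ) : ℤ) (t n)) (n : ℕ) :
    ∀ k : ℕ, IsHg ((k + 1 : ℕ) : ℤ) (nfAux p (lawOf f) t n k) := by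
  induction n with
  | zero => exact fun k => isHg_zero _
  | succ n ih =>
    intro k
    rw [nfAux]
    by_cases hk : k = n
    · subst hk
      rw [Function.update_self, nfStep]
      split_ifs with h1
      · exact ht k
      · refine IsHg.neg ?_
        exact (isHg_xC_smul H f _ ih k).inverse_mul hK (not_dvd_dC h1)
    · rw [Function.update_of_ne hk]
      exact ih k

theorem isHg_nfB (f : D.R ⟶ K) [IsMonHom f] (t : ℕ → HRing (stdEven T) K)
    (ht : ∀ n : ℕ, IsHg ((n + 1 : ℕ) : ℤ) (t n)) (n : ℕ) :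
    IsHg ((n + 1 : ℕ) : ℤ) (nfB p (lawOf f) t n) := isHg_nfAux H hK f t ht (n + 1) n

/-- **The normalising series of the law of a morphism is homogeneous.** -/
theorem isHg_nfS (f : D.R ⟶ K) [IsMonHom f] (t : ℕ → HRing (stdEven T) K)
    (ht : ∀ n : ℕ, IsHg ((n + 1 : ℕ) : ℤ) (t n)) (m : ℕ) :
    IsHg (m : ℤ) ((nfS p (lawOf f) t).c m) := by
  rcases m with _ | m
  · rw [nfS, c_zero_strictMk]
    exact isHg_one
  · rw [nfS, c_succ_strictMk]
    exact isHg_nfB H hK f t ht m

theorem isHg_nf (f : D.R ⟶ K) [IsMonHom f] (m : ℕ) : IsHg (m : ℤ) ((nf p (lawOf f)).c m) :=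
  isHg_nfS H hK f 0 (fun _ => isHg_zero _) m

end nf

end Vale.Agent.P257.V4.B
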