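import Vale.Agent.P257.V4.B.NF5
import Vale.Agent.P257.V4.B.RingMap
import Vale.Agent.P257.V4.E.Step
import Vale.Agent.P093.N.PLocSp
import Vale.Agent.P251.S.AmitsurCup

/-!
# P257, part B: the homotopy of `B^{⊗ (s+1)} ⊗ S/p`

`K` a `p`-local commutative monoid under `MU`, `j : MU ⟶ K`, equivalent to `MU` modulo `p`, `B` a
retract of `K` (as a monoid), such that the idempotent of `K` corresponds to the normal form of
formal group laws. Then `B` is a module over the cosimplicial ring `Cob Laz` in the sense of part E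
(`rmodOf`), the homotopy of `B^{⊗ (s+1)} ⊗ S/p` is generated by the functions on chains
(`xM_modP`), and the kernel consists of the functions which vanish on all normal chains modulo `p`
(`mem_kx_modP`).
-/

open CategoryTheory MonoidalCategory MonObj Limits Pretriangulated

universe v u

set_option linter.unusedSectionVars false

noncomputable section

namespace Vale.Agent.P257.V4.B

open Vale.Agent.P251.S Vale.Agent.P251.T Vale.Agent.P251.M Vale.Agent.P251.F Vale.Agent.P251.I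
  Vale.Agent.P251.X Vale.Agent.P093.PLoc EvenSpheres

open Vale.Agent.P257.V4.E (CosR RMod ux ux_nat ux_comp sphE)

/-- The cosimplicial ring of functions on chains of formal group laws. -/
abbrev cobK : CosR where
  A s := Cob Laz s
  wt s w := Cob.wt Laz s w
  mul_mem hx hy := Cob.IsWt.mul hx hy
  map α := Cob.map α
  map_mem α _ _ hx := Cob.IsWt.map hx α
  map_map α β x := Cob.map_map β α x

section amHom

variable {T : Type u} [Category.{v} T] [MonoidalCategory T] [SymmetricCategory T]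
  {R R' R'' : T} [MonObj R] [MonObj R'] [MonObj R''] [IsCommMonObj R] [IsCommMonObj R']
  [IsCommMonObj R'']

/-- the tensor powers of a morphism of monoids -/
def amHom (f : R ⟶ R') (n : ℕ) : Am R n ⟶ Am R' n := Am.lift fun i => f ≫ Am.v R' i

variable (f : R ⟶ R') (g : R' ⟶ R'') [IsMonHom f] [IsMonHom g]

instance isMonHom_amHom (n : ℕ) : IsMonHom (amHom f n) := by
  unfold amHom
  infer_instance

@[reassoc]
theorem v_amHom {n : ℕ} (i : Fin n) : Am.v R i ≫ amHom f n = f ≫ Am.v R' i := by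
  rw [amHom, Am.v_lift]

theorem amHom_comp (n : ℕ) : amHom f n ≫ amHom g n = amHom (f ≫ g) n := by
  apply Am.hom_ext
  intro i
  rw [v_amHom_assoc, v_amHom, v_amHom, Category.assoc]

theorem amHom_id (n : ℕ) : amHom (𝟙 R) n = 𝟙 _ := by
  apply Am.hom_ext
  intro i
  rw [v_amHom, Category.id_comp, Category.comp_id]

theorem amHom_congr {f f' : R ⟶ R'} (h : f = f') (n : ℕ) : amHom f n = amHom f' n := by
  rw [h]

theorem amHom_succ (n : ℕ) : amHom f (n + 1) = amHom f n ⊗ₘ f := by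
  apply Am.hom_ext
  intro i
  rw [v_amHom]
  refine Fin.lastCases ?_ (fun k => ?_) i
  · rw [Am.v_last, Am.v_last, tensorHom_def, inrM_whiskerRight_assoc, inrM_whiskerLeft]
  · rw [Am.v_castSucc, Am.v_castSucc, tensorHom_def', Category.assoc, inlM_whiskerLeft_assoc,
      inlM_whiskerRight, v_amHom_assoc]

end amHom

section iso

variable {T : Type u} [Category.{v} T] [MonoidalCategory T] [SymmetricCategory T]

theorem isIso_whisker_middle {X X' C : T} (f : X ⟶ X') (Y : T) (h : IsIso (f ▷ C)) :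
    IsIso ((f ▷ Y) ▷ C) := by
  have h1 : (f ▷ Y) ▷ C = (α_ X Y C).hom ≫ X ◁ (β_ Y C).hom ≫ (α_ X C Y).inv ≫ (f ▷ C) ▷ Y ≫
      (α_ X' C Y).hom ≫ X' ◁ (β_ Y C).inv ≫ (α_ X' Y C).inv := by
    rw [← associator_inv_naturality_left_assoc, Iso.inv_hom_id_assoc, ← whisker_exchange_assoc,
      ← MonoidalCategory.whiskerLeft_comp_assoc, Iso.hom_inv_id, MonoidalCategory.whiskerLeft_id,
      Category.id_comp, associator_inv_naturality_left, Iso.hom_inv_id_assoc]
  rw [h1]
  infer_instance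

theorem isIso_tensor_whisker {X X' Y Y' C : T} (f : X ⟶ X') (g : Y ⟶ Y') (h1 : IsIso (f ▷ C))
    (h2 : IsIso (g ▷ C)) : IsIso ((f ⊗ₘ g) ▷ C) := by
  have h3 := isIso_whisker_middle f Y h1
  have h4 : (X' ◁ g) ▷ C = (α_ X' Y C).hom ≫ X' ◁ (g ▷ C) ≫ (α_ X' Y' C).inv := by
    rw [associator_inv_naturality_middle, Iso.hom_inv_id_assoc]
  have h5 : IsIso ((X' ◁ g) ▷ C) := by
    rw [h4]
    infer_instance
  rw [tensorHom_def, comp_whiskerRight]
  infer_instance

end iso

section amIso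

variable {T : Type u} [Category.{v} T] [MonoidalCategory T] [SymmetricCategory T]
  {R R' : T} [MonObj R] [MonObj R'] [IsCommMonObj R] [IsCommMonObj R']

theorem isIso_amHom (f : R ⟶ R') [IsMonHom f] {C : T} (h : IsIso (f ▷ C)) (n : ℕ) :
    IsIso (amHom f n ▷ C) := by
  induction n with
  | zero =>
    have h1 : amHom f 0 = 𝟙 (𝟙_ T) := by
      change η[𝟙_ T] = _
      rfl
    rw [h1, id_whiskerRight]
    infer_instance
  | succ n ih =>
    rw [amHom_succ]
    exact isIso_tensor_whisker _ _ ih h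

end amIso

section main

variable {T : Type u} [Category.{v} T] [Preadditive T] [HasZeroObject T]
    [HasShift T ℤ] [∀ n : ℤ, (shiftFunctor T n).Additive] [Pretriangulated T] [IsTriangulated T]
    [MonoidalCategory T] [SymmetricCategory T] [TensorTriangulated T] [MonoidalClosed T]
    [HasCoproducts.{0} T] [HasProducts.{0} T] [StableCat T] {D : MUData T}

/-- `Cob Laz` acts on every commutative monoid under `MU`. -/
def rmodOf {B : T} [MonObj B] [IsCommMonObj B] (g : D.R ⟶ B) [IsMonHom g] : RMod cobK B where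
  ev s := (HRing.map (amHom g (s + 1))).comp (D.ev s)
  ev_wt s w z hz := by
    obtain ⟨a, ha⟩ := D.ev_wt s w z hz
    exact ⟨a ≫ amHom g (s + 1), by rw [RingHom.comp_apply, ha, HRing.map_of]⟩
  ev_map m n α z := by
    have h1 : amHom g (m + 1) ≫ Am.map B α = Am.map D.R α ≫ amHom g (n + 1) := by
      apply Am.hom_ext
      intro i
      rw [v_amHom_assoc, Am.v_map, Am.v_map_assoc, v_amHom]
    change HRing.map (Am.map B α) (HRing.map (amHom g (m + 1)) (D.ev m z)) =
      HRing.map (amHom g (n + 1)) (D.ev n (Cob.map α z))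
    have h2 : (HRing.map (E := stdEven T) (Am.map B α)).comp (HRing.map (amHom g (m + 1))) =
        (HRing.map (amHom g (n + 1))).comp (HRing.map (Am.map D.R α)) := by
      rw [← HRing.map_comp, ← HRing.map_comp, HRing_map_congr h1]
    rw [← D.ev_map m n α z]
    exact congrArg (fun φ => φ (D.ev m z)) h2

theorem rmodOf_ev {B : T} [MonObj B] [IsCommMonObj B] (g : D.R ⟶ B) [IsMonHom g] (s : ℕ)
    (z : Cob Laz s) : (rmodOf g).ev s z = HRing.map (amHom g (s + 1)) (D.ev s z) := rfl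

theorem rmodOf_ev_eq_evOf {B : T} [MonObj B] [IsCommMonObj B] (g : D.R ⟶ B) [IsMonHom g] (s : ℕ)
    (z : Cob Laz s) : (rmodOf g).ev s z = evOf D (fun i => g ≫ Am.v B i) z := rfl

/-- `evw` through `MU` -/
theorem rmodOf_evw {B : T} [MonObj B] [IsCommMonObj B] (g : D.R ⟶ B) [IsMonHom g] {s : ℕ} {w : ℤ}
    (z : cobK.wt s w) {a : (stdEven T).S w ⟶ Am D.R (s + 1)}
    (ha : D.ev s z.1 = HRing.of (stdEven T) (Am D.R (s + 1)) w a) :
    (rmodOf g).evw s w z = a ≫ amHom g (s + 1) := by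
  apply RMod.evw_eq
  rw [rmodOf_ev, ha, HRing.map_of]

theorem ploc_HRing {p : ℕ} [hp : Fact p.Prime] {X : T} [MonObj X] [IsCommMonObj X]
    (hX : IsPLocal p X) : PLoc p (HRing (stdEven T) X) := by
  refine ⟨fun m hm => ?_⟩
  obtain ⟨g, hg⟩ := hX.exists_div (q := m) (by
    rw [Int.natAbs_natCast]
    exact ((Nat.Prime.coprime_iff_not_dvd hp.out).2 hm).symm)
    ((stdEven T).zero.inv ≫ η[X])
  refine IsUnit.of_mul_eq_one (HRing.of (stdEven T) X 0 g) ?_
  rw [← of_one, ← hg]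
  refine Eq.trans ?_ (map_zsmul (DirectSum.of ((stdEven T).Gr X) 0) (m : ℤ) g).symm
  rw [zsmul_eq_mul, Int.cast_natCast, mul_comm]

/-! ### the chain of a family of morphisms -/

section fam

variable {A : T} [MonObj A] [IsCommMonObj A] {s : ℕ}

theorem vtxH_evOf (fs : Fin (s + 1) → (D.R ⟶ A)) [∀ i, IsMonHom (fs i)] (i : Fin (s + 1)) :
    vtxH (evOf D fs) i = lawOf (fs i) := (lawOf_eq D fs i).symm

theorem serOf_eq (fs : Fin (s + 1) → (D.R ⟶ A)) [∀ i, IsMonHom (fs i)] (i : Fin (s + 1)) :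
    serOf D fs i = ser (fs 0) (fs i) := by
  rw [serOf_eq_ser, serOf_zero, inv_one, _root_.mul_one]

/-- If the isomorphisms between the laws of two families are the normalising series, the second
chain is the normalisation of the first. -/
theorem isNorm_evOf {p : ℕ} (fs fs' : Fin (s + 1) → (D.R ⟶ A)) [∀ i, IsMonHom (fs i)]
    [∀ i, IsMonHom (fs' i)] (h : ∀ i, ser (fs i) (fs' i) = nf p (lawOf (fs i))) :
    IsNorm p (evOf D fs) (evOf D fs') := by
  constructor
  · have h1 : Laz.univ.map ((evOf D fs').comp MvPolynomial.C) = lawOf (fs' 0) := by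
      rw [lawOf_eq D fs' 0, serOf_zero, one_smul]
    rw [h1, vtxH_evOf, ← h 0, ser_smul]
  · intro i
    rw [vtxH_evOf, vtxH_evOf, ← h i, ← h 0]
    change serOf D fs' i = _ * serOf D fs i * _
    rw [ser_inv, serOf_eq, serOf_eq, _root_.mul_assoc, ser_mul, ser_mul]

end fam

/-! ### the retract -/

section retract

variable {p : ℕ} [hp : Fact p.Prime] {K B : T} [MonObj K] [IsCommMonObj K] [MonObj B]
  [IsCommMonObj B] (j : D.R ⟶ K) [IsMonHom j] (i : B ⟶ K) (r : K ⟶ B) [IsMonHom i] [IsMonHom r]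

theorem isPLocal_am {K : T} [MonObj K] (hK : IsPLocal p K) (s : ℕ) : IsPLocal p (Am K (s + 1)) :=
  hK.tensor_left (Am K s)

/-- the normalisation of functions is the effect of the idempotent -/
theorem exists_rN_am (hK : IsPLocal p K) (hs : ser j (j ≫ r ≫ i) = nf p (lawOf j)) {s : ℕ} {w : ℤ}
    {z : Cob Laz s} (hz : Cob.IsWt w z) : ∃ (M : ℕ) (z' : Cob Laz s), ¬ p ∣ M ∧ Cob.IsWt w z' ∧
      (toNB p s z = 0 ↔ ∃ y : Cob Laz s, z' = (p : ℤ) • y) ∧
      (M : HRing (stdEven T) (Am K (s + 1))) *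
        HRing.map (amHom i (s + 1)) ((rmodOf (j ≫ r)).ev s z) =
          HRing.map (amHom j (s + 1)) (D.ev s z') := by
  obtain ⟨M, z', hM, hz', hi, h⟩ := exists_rN_hom (p := p) hz
  refine ⟨M, z', hM, hz', hi, ?_⟩
  have hl : PLoc p (HRing (stdEven T) (Am K (s + 1))) := ploc_HRing (isPLocal_am hK s)
  have hlK : PLoc p (HRing (stdEven T) K) := ploc_HRing hK
  have h1 := h _ _ _ (isNorm_evOf (D := D) (p := p) (fun k => j ≫ Am.v K k)
    (fun k => (j ≫ r ≫ i) ≫ Am.v K k : Fin (s + 1) → _)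
    (fun k => by rw [← map_ser, hs, map_nf, lawOf_map]))
  have h2 : amHom (j ≫ r) (s + 1) ≫ amHom i (s + 1) =
      Am.lift (fun k => (j ≫ r ≫ i) ≫ Am.v K k) := by
    rw [amHom_comp, Category.assoc]
    rfl
  have h3 : HRing.map (amHom i (s + 1)) ((rmodOf (j ≫ r)).ev s z) =
      evOf D (fun k => (j ≫ r ≫ i) ≫ Am.v K k) z := by
    have h4 : (HRing.map (E := stdEven T) (amHom i (s + 1))).comp
        (HRing.map (amHom (j ≫ r) (s + 1))) =
        HRing.map (Am.lift (fun k => (j ≫ r ≫ i) ≫ Am.v K k)) := by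
      rw [← HRing.map_comp, HRing_map_congr h2]
    exact congrArg (fun φ => φ (D.ev s z)) h4
  rw [h3]
  exact h1

variable {C : T} {iC : 𝟙_ T ⟶ C} {δC : C ⟶ (𝟙_ T)⟦(1 : ℤ)⟧}
  (hC : Triangle.mk ((p : ℤ) • 𝟙 (𝟙_ T)) iC δC ∈ distTriang T)

include hC in
theorem zsmul_ux (N : T) : (p : ℤ) • ux iC N = 0 := by
  have h1 : ((p : ℤ) • 𝟙 (𝟙_ T)) ≫ iC = 0 := comp_distTriang_mor_zero₁₂ _ hC
  rw [Preadditive.zsmul_comp, Category.id_comp] at h1
  have h2 : (p : ℤ) • ux iC N = (ρ_ N).inv ≫ (N ◁ ((p : ℤ) • iC)) := by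
    rw [ux, whiskerLeft_zsmul, Preadditive.comp_zsmul]
  rw [h2, h1]
  simp

theorem coprime_of_not_dvd {M : ℕ} (hM : ¬ p ∣ M) : (M : ℤ).natAbs.Coprime p := by
  rw [Int.natAbs_natCast]
  exact ((Nat.Prime.coprime_iff_not_dvd hp.out).2 hM).symm

/-- `M * of a = of b` in degree `w` -/
theorem nsmul_eq_of_mul {N : T} [MonObj N] [IsCommMonObj N] {M : ℕ} {w : ℤ}
    {a b : (stdEven T).S w ⟶ N}
    (h : (M : HRing (stdEven T) N) * HRing.of (stdEven T) N w a = HRing.of (stdEven T) N w b) :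
    (M : ℤ) • a = b := by
  apply of_inj
  rw [← h]
  refine (map_zsmul (DirectSum.of ((stdEven T).Gr N) w) (M : ℤ) a).trans ?_
  rw [zsmul_eq_mul, Int.cast_natCast]

include hC in
/-- **The kernel on `B^{⊗ (s+1)} ⊗ S/p`.** -/
theorem mem_kx_modP (hp2 : p ≠ 2) (hir : i ≫ r = 𝟙 B) (hK : IsPLocal p K)
    (hs : ser j (j ≫ r ≫ i) = nf p (lawOf j)) (hj : IsIso (j ▷ C)) {s : ℕ} {w : ℤ}
    (z : cobK.wt s w) : z ∈ (rmodOf (j ≫ r)).kx iC s w ↔ toNB p s z.1 = 0 := by
  obtain ⟨M, z', hM, hz', hiff, h⟩ := exists_rN_am j i r hK hs z.2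
  obtain ⟨a, ha⟩ := D.ev_wt s w z' hz'
  set az := (rmodOf (j ≫ r)).evw s w z with haz
  have hjC := isIso_amHom j hj (s + 1)
  have h1 : (M : ℤ) • (az ≫ amHom i (s + 1)) = a ≫ amHom j (s + 1) := by
    apply nsmul_eq_of_mul
    rw [← HRing.map_of, haz, RMod.of_evw, h, ha, HRing.map_of]
  have hri : amHom i (s + 1) ≫ amHom r (s + 1) = 𝟙 _ := by
    rw [amHom_comp, amHom_congr hir, amHom_id]
  rw [RMod.mem_kx, RMod.evX_apply, ← haz, hiff]
  constructor
  · intro h2
    have h3 : (a ≫ ux iC (Am D.R (s + 1))) ≫ amHom j (s + 1) ▷ C = 0 := by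
      rw [Category.assoc, ux_nat, ← Category.assoc, ← h1, Preadditive.zsmul_comp, Category.assoc,
        ← ux_nat, reassoc_of% h2, zero_comp, smul_zero]
    have h4 : a ≫ ux iC (Am D.R (s + 1)) = 0 := by
      rw [← cancel_mono (amHom j (s + 1) ▷ C), h3, zero_comp]
    obtain ⟨y, -, hy⟩ := D.ker p hp2 s C iC δC hC w z' hz' a ha h4
    exact ⟨y, hy⟩
  · rintro ⟨y, rfl⟩
    have hy : Cob.IsWt w y := Cob.isWt_of_smul (by exact_mod_cast hp.out.ne_zero) hz'
    obtain ⟨b, hb⟩ := D.ev_wt s w y hy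
    have h2 : a = (p : ℤ) • b := by
      apply of_inj
      rw [← ha, map_zsmul, hb]
      exact (map_zsmul (DirectSum.of ((stdEven T).Gr (Am D.R (s + 1))) w) (p : ℤ) b).symm
    have h3 : (M : ℤ) • (az ≫ amHom i (s + 1) ≫ ux iC _) = 0 := by
      rw [← Category.assoc, ← Preadditive.zsmul_comp, h1, h2, Preadditive.zsmul_comp,
        Preadditive.zsmul_comp, Category.assoc, ← Preadditive.comp_zsmul,
        ← Preadditive.comp_zsmul, zsmul_ux hC, comp_zero, comp_zero]
    have h4 := ((isPLocal_am hK s).tensor_right C).eq_zero (coprime_of_not_dvd hM) h3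
    have h5 : az ≫ ux iC (Am B (s + 1)) =
        (az ≫ amHom i (s + 1) ≫ ux iC _) ≫ amHom r (s + 1) ▷ C := by
      rw [Category.assoc, Category.assoc, ux_nat, ← Category.assoc (amHom i (s + 1)), hri,
        Category.id_comp]
    rw [h5, h4, zero_comp]

include hC in
/-- the homotopy modulo `p` is generated by the functions on chains -/
theorem surj_modP (hp2 : p ≠ 2) (hir : i ≫ r = 𝟙 B) (hj : IsIso (j ▷ C)) (s : ℕ) (w : ℤ) :
    Function.Surjective ((rmodOf (j ≫ r)).evX iC s w) := by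
  intro f
  have hjC := isIso_amHom j hj (s + 1)
  obtain ⟨z, a, hz, ha, hf⟩ := D.surj p hp2 s C iC δC hC w
    (f ≫ amHom i (s + 1) ▷ C ≫ inv (amHom j (s + 1) ▷ C))
  refine ⟨⟨z, hz⟩, ?_⟩
  rw [RMod.evX_apply, rmodOf_evw (j ≫ r) ⟨z, hz⟩ ha]
  have hri : amHom i (s + 1) ≫ amHom r (s + 1) = 𝟙 _ := by
    rw [amHom_comp, amHom_congr hir, amHom_id]
  have h1 : f ≫ amHom i (s + 1) ▷ C = (a ≫ ux iC _) ≫ amHom j (s + 1) ▷ C := by
    rw [ux, ← hf, Category.assoc, Category.assoc, IsIso.inv_hom_id, Category.comp_id]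
  have h2 : f = (f ≫ amHom i (s + 1) ▷ C) ≫ amHom r (s + 1) ▷ C := by
    rw [Category.assoc, ← comp_whiskerRight, hri, id_whiskerRight, Category.comp_id]
  rw [h2, h1, Category.assoc, Category.assoc, Category.assoc, ← comp_whiskerRight, amHom_comp,
    ux_nat]

include hC in
/-- **`B^{⊗ (s+1)} ⊗ S/p` is sparse and generated by the unit.** -/
theorem xM_modP (hp2 : p ≠ 2) (hir : i ≫ r = 𝟙 B) (hK : IsPLocal p K)
    (hs : ser j (j ≫ r ≫ i) = nf p (lawOf j)) (hj : IsIso (j ▷ C)) :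
    (rmodOf (j ≫ r)).XM (2 * ((p : ℤ) - 1)) iC where
  spa s k hk f := by
    have hjC := isIso_amHom j hj (s + 1)
    have hri : amHom i (s + 1) ≫ amHom r (s + 1) = 𝟙 _ := by
      rw [amHom_comp, amHom_congr hir, amHom_id]
    rcases Int.even_or_odd' k with ⟨l, rfl | rfl⟩
    · have hl : ¬ ((p - 1 : ℕ) : ℤ) ∣ l := by
        intro h
        apply hk
        rw [Nat.cast_sub hp.out.one_le, Nat.cast_one] at h
        exact mul_dvd_mul_left 2 h
      obtain ⟨z, hz⟩ := surj_modP j i r hC hp2 hir hj s l ((sphE T l).hom ≫ f)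
      have h1 : toNB p s z.1 = 0 := by
        have := ploc_of_alg p (NB p s)
        exact ev_eq_zero_of_isNC isNC_UN hl z.2
      have h2 := (mem_kx_modP j i r hC hp2 hir hK hs hj z).2 h1
      rw [RMod.mem_kx, hz] at h2
      rw [← cancel_epi (sphE T l).hom, h2, comp_zero]
    · have h1 := D.odd p hp2 s C iC δC hC l
        (f ≫ amHom i (s + 1) ▷ C ≫ inv (amHom j (s + 1) ▷ C))
      have h2 : f ≫ amHom i (s + 1) ▷ C = 0 := by
        rw [← cancel_mono (inv (amHom j (s + 1) ▷ C)), Category.assoc, h1, zero_comp]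
      have h3 : f = (f ≫ amHom i (s + 1) ▷ C) ≫ amHom r (s + 1) ▷ C := by
        rw [Category.assoc, ← comp_whiskerRight, hri, id_whiskerRight, Category.comp_id]
      rw [h3, h2, zero_comp]
  surj := surj_modP j i r hC hp2 hir hj

end retract

end main

end Vale.Agent.P257.V4.B

end
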