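import Vale.Agent.P251.M.GBasis

/-!
# P257, part B: morphisms of monoids from multiplicative bases

`P` a commutative monoid with a graded basis `w j` over `φ : F ⟶ P` which is multiplicative
(`w i * w j = w (i + j)`). Morphisms of monoids `P ⟶ N` over `ψ : F ⟶ N` are the same as
multiplicative families `y j` of homogeneous elements of `N`.
-/

open CategoryTheory MonoidalCategory MonObj Limits Pretriangulated

universe v u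

set_option linter.unusedSectionVars false

noncomputable section

namespace Vale.Agent.P257.V4.B

open Vale.Agent.P251.S Vale.Agent.P251.T Vale.Agent.P251.M EvenSpheres

section comm

variable {T : Type u} [Category.{v} T] [MonoidalCategory T] [SymmetricCategory T]

/-- `(a b) (c d) = (a c) (b d)` -/
theorem mul_mul_comm' {P X Y Z W : T} [MonObj P] [IsCommMonObj P] (a : X ⟶ P) (b : Y ⟶ P)
    (c : Z ⟶ P) (d : W ⟶ P) :
    (((a ⊗ₘ b) ≫ μ[P]) ⊗ₘ ((c ⊗ₘ d) ≫ μ[P])) ≫ μ[P] =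
      tensorμ X Y Z W ≫ (((a ⊗ₘ c) ≫ μ[P]) ⊗ₘ ((b ⊗ₘ d) ≫ μ[P])) ≫ μ[P] := by
  have h : (μ[P] ⊗ₘ μ[P]) ≫ μ[P] = (tensorμ P P P P ≫ (μ[P] ⊗ₘ μ[P])) ≫ μ[P] :=
    (IsMonHom.mul_hom (f := μ[P])).symm
  rw [← tensorHom_comp_tensorHom, Category.assoc, h, Category.assoc,
    reassoc_of% (tensorμ_natural a b c d), tensorHom_comp_tensorHom_assoc]

end comm

variable {T : Type u} [Category.{v} T] [Preadditive T] [HasZeroObject T]
    [HasShift T ℤ] [∀ n : ℤ, (shiftFunctor T n).Additive] [Pretriangulated T] [IsTriangulated T]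
    [MonoidalCategory T] [SymmetricCategory T] [TensorTriangulated T] [MonoidalClosed T]
    [HasCoproducts.{0} T] [HasProducts.{0} T] [StableCat T] {E : EvenSpheres T}

variable {F P : T} [MonObj F] [MonObj P] {φ : F ⟶ P} {J : Type}

/-- the maps `F ⊗ S^{2k_j} ⟶ P` are jointly epimorphic -/
theorem gbasis_ext (b : GBasis E φ J) {N : T} {f g : P ⟶ N}
    (h : ∀ j, ((φ ⊗ₘ b.w j) ≫ μ[P]) ≫ f = ((φ ⊗ₘ b.w j) ≫ μ[P]) ≫ g) : f = g := by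
  have := b.isIso
  rw [← cancel_epi (Sigma.desc fun j => (φ ⊗ₘ b.w j) ≫ μ[P])]
  refine Sigma.hom_ext _ _ fun j => ?_
  rw [Sigma.ι_desc_assoc, Sigma.ι_desc_assoc]
  exact h j

theorem gbasis_ext_right (b : GBasis E φ J) (Y : T) {N : T} {f g : P ⊗ Y ⟶ N}
    (h : ∀ j, ((φ ⊗ₘ b.w j) ≫ μ[P]) ▷ Y ≫ f = ((φ ⊗ₘ b.w j) ≫ μ[P]) ▷ Y ≫ g) : f = g := by
  have := b.isIsoY Y
  rw [← cancel_epi (Sigma.desc fun j => ((φ ⊗ₘ b.w j) ≫ μ[P]) ▷ Y)]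
  refine Sigma.hom_ext _ _ fun j => ?_
  rw [Sigma.ι_desc_assoc, Sigma.ι_desc_assoc]
  exact h j

theorem gbasis_ext_left (b : GBasis E φ J) (Y : T) {N : T} {f g : Y ⊗ P ⟶ N}
    (h : ∀ j, Y ◁ ((φ ⊗ₘ b.w j) ≫ μ[P]) ≫ f = Y ◁ ((φ ⊗ₘ b.w j) ≫ μ[P]) ≫ g) : f = g := by
  rw [← cancel_epi (β_ P Y).hom]
  refine gbasis_ext_right b Y fun j => ?_
  rw [BraidedCategory.braiding_naturality_left_assoc, BraidedCategory.braiding_naturality_left_assoc,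
    h j]

/-- two variables -/
theorem gbasis_ext₂ (b : GBasis E φ J) {N : T} {f g : P ⊗ P ⟶ N}
    (h : ∀ i j, (((φ ⊗ₘ b.w i) ≫ μ[P]) ⊗ₘ ((φ ⊗ₘ b.w j) ≫ μ[P])) ≫ f =
      (((φ ⊗ₘ b.w i) ≫ μ[P]) ⊗ₘ ((φ ⊗ₘ b.w j) ≫ μ[P])) ≫ g) : f = g := by
  refine gbasis_ext_right b P fun i => ?_
  refine gbasis_ext_left b _ fun j => ?_
  have h1 := h i j
  rw [tensorHom_def', Category.assoc, Category.assoc] at h1
  exact h1

section hom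

variable [AddCommMonoid J] (b : GBasis E φ J)

/-- A multiplicative basis. -/
structure IsMulBasis : Prop where
  k_zero : b.k 0 = 0
  k_add (i j : J) : b.k i + b.k j = b.k (i + j)
  w_zero : b.w 0 = (E.castIso _ _ k_zero).hom ≫ E.zero.inv ≫ η[P]
  w_mul (i j : J) : gmul (k_add i j) (b.w i) (b.w j) = b.w (i + j)

variable {b} (hb : IsMulBasis b) {N : T} [MonObj N]

/-- A multiplicative family. -/
structure IsMulFam (y : ∀ j, E.S (b.k j) ⟶ N) : Prop where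
  zero : y 0 = (E.castIso _ _ hb.k_zero).hom ≫ E.zero.inv ≫ η[N]
  mul (i j : J) : gmul (hb.k_add i j) (y i) (y j) = y (i + j)

theorem phi_eq_aux {F' P' : T} [MonObj F'] [MonObj P'] (φ' : F' ⟶ P') (y : ∀ j, E.S (b.k j) ⟶ P')
    (h : y 0 = (E.castIso _ _ hb.k_zero).hom ≫ E.zero.inv ≫ η[P']) :
    (ρ_ F').inv ≫ F' ◁ (E.zero.hom ≫ (E.castIso _ _ hb.k_zero).inv) ≫ (φ' ⊗ₘ y 0) ≫ μ[P'] = φ' := by
  rw [h, tensorHom_def', MonoidalCategory.whiskerLeft_comp, MonoidalCategory.whiskerLeft_comp,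
    MonoidalCategory.whiskerLeft_comp]
  simp only [Category.assoc]
  rw [whiskerLeft_inv_hom_assoc, whiskerLeft_hom_inv_assoc, whisker_exchange_assoc,
    MonObj.mul_one]
  simp

theorem w_eq_aux {F' P' S : T} [MonObj F'] [MonObj P'] (φ' : F' ⟶ P') [IsMonHom φ']
    (y : S ⟶ P') : (λ_ S).inv ≫ η[F'] ▷ S ≫ (φ' ⊗ₘ y) ≫ μ[P'] = y := by
  rw [tensorHom_def, Category.assoc, ← comp_whiskerRight_assoc, IsMonHom.one_hom,
    ← whisker_exchange_assoc, MonObj.one_mul]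
  simp

theorem exists_hom [IsCommMonObj P] [IsCommMonObj N] [IsMonHom φ] (ψ : F ⟶ N) [IsMonHom ψ]
    (y : ∀ j, E.S (b.k j) ⟶ N) (hy : IsMulFam hb y) :
    ∃ Φ : P ⟶ N, IsMonHom Φ ∧ φ ≫ Φ = ψ ∧ ∀ j, b.w j ≫ Φ = y j := by
  have hiso := b.isIso
  let Φ : P ⟶ N := inv (Sigma.desc fun j => (φ ⊗ₘ b.w j) ≫ μ[P]) ≫
    Sigma.desc fun j => (ψ ⊗ₘ y j) ≫ μ[N]
  have hΦ : ∀ j, ((φ ⊗ₘ b.w j) ≫ μ[P]) ≫ Φ = (ψ ⊗ₘ y j) ≫ μ[N] := by
    intro j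
    have h1 : (φ ⊗ₘ b.w j) ≫ μ[P] = Sigma.ι (fun j => F ⊗ E.S (b.k j)) j ≫
        Sigma.desc fun j => (φ ⊗ₘ b.w j) ≫ μ[P] := by
      rw [Sigma.ι_desc]
    rw [h1, Category.assoc, IsIso.hom_inv_id_assoc, Sigma.ι_desc]
  have h1 : φ ≫ Φ = ψ := by
    have e1 := phi_eq_aux hb φ b.w hb.w_zero
    have e2 := phi_eq_aux hb ψ y hy.zero
    calc φ ≫ Φ = ((ρ_ F).inv ≫ F ◁ (E.zero.hom ≫ (E.castIso _ _ hb.k_zero).inv) ≫
        (φ ⊗ₘ b.w 0) ≫ μ[P]) ≫ Φ := by rw [e1]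
      _ = ψ := by
        simp only [Category.assoc]
        rw [← Category.assoc (φ ⊗ₘ b.w 0), hΦ, e2]
  have h2 : ∀ j, b.w j ≫ Φ = y j := by
    intro j
    calc b.w j ≫ Φ = ((λ_ _).inv ≫ η[F] ▷ _ ≫ (φ ⊗ₘ b.w j) ≫ μ[P]) ≫ Φ := by rw [w_eq_aux]
      _ = y j := by
        simp only [Category.assoc]
        rw [← Category.assoc (φ ⊗ₘ b.w j), hΦ, w_eq_aux]
  refine ⟨Φ, ⟨?_, ?_⟩, h1, h2⟩
  · rw [← IsMonHom.one_hom (f := φ), Category.assoc, h1, IsMonHom.one_hom]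
  · refine gbasis_ext₂ b fun i j => ?_
    have e1 : ∀ {M : T} [MonObj M] (z : ∀ j, E.S (b.k j) ⟶ M),
        gmul (hb.k_add i j) (z i) (z j) = z (i + j) →
        (z i ⊗ₘ z j) ≫ μ[M] = (E.mu _ _ _ (hb.k_add i j)).hom ≫ z (i + j) := by
      intro M _ z hz
      rw [← hz]
      unfold gmul EvenSpheres.ext
      simp
    have e4 := mul_mul_comm' φ (b.w i) φ (b.w j)
    have e5 := mul_mul_comm' ψ (y i) ψ (y j)
    rw [e1 b.w (hb.w_mul i j)] at e4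
    rw [e1 y (hy.mul i j)] at e5
    rw [← Category.assoc, e4, tensorHom_comp_tensorHom_assoc, hΦ, hΦ, e5]
    have e2 : ((φ ⊗ₘ φ) ≫ μ[P] ⊗ₘ (E.mu _ _ _ (hb.k_add i j)).hom ≫ b.w (i + j)) ≫ μ[P] =
        (μ[F] ⊗ₘ (E.mu _ _ _ (hb.k_add i j)).hom) ≫ (φ ⊗ₘ b.w (i + j)) ≫ μ[P] := by
      rw [← IsMonHom.mul_hom, ← tensorHom_comp_tensorHom, Category.assoc]
    have e3 : ((ψ ⊗ₘ ψ) ≫ μ[N] ⊗ₘ (E.mu _ _ _ (hb.k_add i j)).hom ≫ y (i + j)) ≫ μ[N] =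
        (μ[F] ⊗ₘ (E.mu _ _ _ (hb.k_add i j)).hom) ≫ (ψ ⊗ₘ y (i + j)) ≫ μ[N] := by
      rw [← IsMonHom.mul_hom, ← tensorHom_comp_tensorHom, Category.assoc]
    rw [e2, e3]
    simp only [Category.assoc]
    rw [← Category.assoc (φ ⊗ₘ b.w (i + j)), hΦ]

theorem hom_unique {Φ Φ' : P ⟶ N} [IsMonHom Φ] [IsMonHom Φ'] (h1 : φ ≫ Φ = φ ≫ Φ')
    (h2 : ∀ j, b.w j ≫ Φ = b.w j ≫ Φ') : Φ = Φ' := by
  refine gbasis_ext b fun j => ?_
  rw [Category.assoc, Category.assoc, IsMonHom.mul_hom, IsMonHom.mul_hom,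
    tensorHom_comp_tensorHom_assoc, tensorHom_comp_tensorHom_assoc, h1, h2]

end hom

end Vale.Agent.P257.V4.B
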