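import Vale.Agent.P257.V4.B.NF3
import Vale.Agent.P251.F.LazWt
import Vale.Agent.P251.F.Grade
import Vale.Agent.P251.F.F3Line

/-!
# P257, part B: weights on the ring of functions on normal chains

`NB.W p s D` (`D : ℤ`, units of `2 (p - 1)`): weighted homogeneous elements of weight `D` of
`NB p s`, the weights of `NB.v k` and `NB.t i k` are `N_{k+1} = 1 + p + … + p^k`.
`toNB p s : Cob Laz s → NB p s` maps weight `(p - 1) D` onto weight `D` and kills all weights not
divisible by `p - 1`.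
-/

noncomputable section

namespace Vale.Agent.P257.V4.B

open MvPolynomial Vale.Agent.P217 Vale.Agent.P251.F

/-! ### the scaling coaction of a polynomial ring -/

section scaling

open LaurentPolynomial in
/-- the coaction of a grading of a polynomial ring -/
theorem chi_monomial {σ R : Type} [CommRing R] (e : σ → ℤ)
    (χ : MvPolynomial σ R →+* LaurentPolynomial (MvPolynomial σ R))
    (hC : ∀ a, χ (MvPolynomial.C a) = LaurentPolynomial.C (MvPolynomial.C a))
    (hX : ∀ i, χ (MvPolynomial.X i) = LaurentPolynomial.C (MvPolynomial.X i) * T (e i))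
    (u : σ →₀ ℕ) (a : R) :
    χ (monomial u a) = LaurentPolynomial.C (monomial u a) * T (Finsupp.weight e u) := by
  classical
  induction u using Finsupp.induction_linear generalizing a with
  | zero =>
    have h : (monomial (0 : σ →₀ ℕ) a : MvPolynomial σ R) = MvPolynomial.C a := rfl
    rw [h, hC, map_zero, T_zero, mul_one]
  | add f g hf hg =>
    have h : (monomial (f + g) a : MvPolynomial σ R) = monomial f a * monomial g 1 := by
      rw [monomial_mul, mul_one]
    rw [h, map_mul, hf, hg, map_mul, map_add, T_add]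
    ring
  | single i n =>
    have h : (monomial (Finsupp.single i n) a : MvPolynomial σ R) =
        MvPolynomial.C a * MvPolynomial.X i ^ n := by
      rw [C_mul_X_pow_eq_monomial]
    rw [h, map_mul, map_pow, hC, hX, mul_pow, T_pow, map_mul, map_pow, Finsupp.weight_single]
    rw [nsmul_eq_mul]
    ring

/-- The components of the coaction are the homogeneous components. -/
theorem coeff_chi {σ R : Type} [CommRing R] (e : σ → ℤ)
    (χ : MvPolynomial σ R →+* LaurentPolynomial (MvPolynomial σ R))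
    (hC : ∀ a, χ (MvPolynomial.C a) = LaurentPolynomial.C (MvPolynomial.C a))
    (hX : ∀ i, χ (MvPolynomial.X i) =
      LaurentPolynomial.C (MvPolynomial.X i) * LaurentPolynomial.T (e i))
    (x : MvPolynomial σ R) (w : ℤ) :
    (χ x).coeff w = weightedHomogeneousComponent e w x := by
  induction x using MvPolynomial.induction_on' with
  | monomial u a =>
    rw [chi_monomial e χ hC hX, coeff_C_mul_T]
    by_cases h : Finsupp.weight e u = w
    · rw [if_pos h, (isWeightedHomogeneous_monomial e u a h).weightedHomogeneousComponent_same]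
    · rw [if_neg h, (isWeightedHomogeneous_monomial e u a rfl).weightedHomogeneousComponent_ne _
        (Ne.symm h)]
  | add x y hx hy =>
    rw [map_add, map_add, ← hx, ← hy]
    rfl

end scaling

/-! ### numbers -/

theorem N_mul_add_one {p : ℕ} (hp : 1 ≤ p) (k : ℕ) : (p - 1) * A.Ch.N p k + 1 = p ^ k := by
  induction k with
  | zero => simp [A.Ch.N]
  | succ k ih =>
    have h : A.Ch.N p (k + 1) = A.Ch.N p k + p ^ k := by
      rw [A.Ch.N, Finset.sum_range_succ]
      rfl
    rw [h, mul_add, add_right_comm, ih, pow_succ]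
    obtain ⟨q, rfl⟩ := Nat.exists_eq_add_of_le' hp
    rw [Nat.add_sub_cancel]
    ring

theorem N_mul_eq {p : ℕ} (hp : 1 ≤ p) (k : ℕ) : (p - 1) * A.Ch.N p k = p ^ k - 1 := by
  have := N_mul_add_one hp k
  omega

theorem ix_add_one_eq {p : ℕ} (hp : p.Prime) (k : ℕ) :
    ix p k + 1 = (p - 1) * A.Ch.N p (k + 1) := by
  rw [ix_add_one hp, N_mul_eq hp.one_lt.le]

variable {p : ℕ} [hp : Fact p.Prime] {B C : Type} [CommRing B] [Algebra (ZMod p) B] [CommRing C]
  [Algebra (ZMod p) C] {m n l s : ℕ}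

/-! ### the grading -/

/-- the weights of the variables, in units of `p - 1` (degree: `2 (p-1)`) -/
def NB.wf (p s : ℕ) : ℕ ⊕ (Fin s × ℕ) → ℤ :=
  Sum.elim (fun k => (A.Ch.N p (k + 1) : ℤ)) (fun ik => (A.Ch.N p (ik.2 + 1) : ℤ))

/-- elements of weight `D` -/
def NB.W (p s : ℕ) (D : ℤ) : AddSubgroup (NB p s) :=
  (weightedHomogeneousSubmodule (ZMod p) (NB.wf p s) D).toAddSubgroup

omit hp in
theorem NB.mem_W {D : ℤ} {x : NB p s} :
    x ∈ NB.W p s D ↔ IsWeightedHomogeneous (NB.wf p s) x D := Iff.rfl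

omit hp in
theorem NB.mul_mem_W {D E : ℤ} {x y : NB p s} (hx : x ∈ NB.W p s D) (hy : y ∈ NB.W p s E) :
    x * y ∈ NB.W p s (D + E) := IsWeightedHomogeneous.mul hx hy

omit hp in
theorem NB.pow_mem_W {D : ℤ} {x : NB p s} (hx : x ∈ NB.W p s D) (k : ℕ) :
    x ^ k ∈ NB.W p s (k * D) := by
  have := IsWeightedHomogeneous.pow (w := NB.wf p s) hx k
  rwa [nsmul_eq_mul] at this

omit hp in
theorem NB.one_mem_W : (1 : NB p s) ∈ NB.W p s 0 := isWeightedHomogeneous_one _ _

omit hp in
theorem NB.v_mem_W (k : ℕ) : (NB.v k : NB p s) ∈ NB.W p s (A.Ch.N p (k + 1)) :=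
  isWeightedHomogeneous_X _ (NB.wf p s) _

omit hp in
theorem NB.t_mem_W (i : Fin s) (k : ℕ) : (NB.t i k : NB p s) ∈ NB.W p s (A.Ch.N p (k + 1)) :=
  isWeightedHomogeneous_X _ (NB.wf p s) _

/-- The component of weight `D`. -/
def NB.comp (p s : ℕ) (D : ℤ) : NB p s →+ NB p s :=
  (weightedHomogeneousComponent (R := ZMod p) (NB.wf p s) D).toAddMonoidHom

omit hp in
theorem NB.comp_mem (D : ℤ) (x : NB p s) : NB.comp p s D x ∈ NB.W p s D :=
  weightedHomogeneousComponent_isWeightedHomogeneous (w := NB.wf p s) D x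

omit hp in
theorem NB.comp_of_mem {D : ℤ} {x : NB p s} (hx : x ∈ NB.W p s D) (E : ℤ) :
    NB.comp p s E x = if D = E then x else 0 := by
  split_ifs with h
  · subst h
    exact IsWeightedHomogeneous.weightedHomogeneousComponent_same hx
  · exact IsWeightedHomogeneous.weightedHomogeneousComponent_ne _ hx (Ne.symm h)

omit hp in
theorem NB.W_eq_zero {D : ℤ} (hD : D < 0) {x : NB p s} (hx : x ∈ NB.W p s D) : x = 0 := by
  refine IsWeightedHomogeneous.eq_zero_of_no_monomials hx fun d hd => ?_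
  have h : 0 ≤ Finsupp.weight (NB.wf p s) d := by
    rw [Finsupp.weight_apply]
    refine Finset.sum_nonneg fun i _ => nsmul_nonneg ?_ _
    rcases i with k | ik
    · exact Int.natCast_nonneg _
    · exact Int.natCast_nonneg _
  omega

/-! ### scaling of chains -/

omit [Algebra (ZMod p) B] in
theorem evN_scale_aux (u : Bˣ) (k : ℕ) :
    (u : B) ^ (ix p k + 1) = ((u ^ ((p - 1 : ℤ) * A.Ch.N p (k + 1)) : Bˣ) : B) := by
  have h : ((p - 1 : ℤ) * A.Ch.N p (k + 1)) = ((ix p k + 1 : ℕ) : ℤ) := by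
    rw [ix_add_one_eq hp.out]
    push_cast [Nat.cast_sub hp.out.one_lt.le]
    ring
  rw [h, zpow_natCast, Units.val_pow_eq_pow_val]

theorem evN_scale_v (c : Chain Laz s B) (u : Bˣ) (k : ℕ) :
    evN p (c.scale u) (NB.v k) =
      ((u ^ ((p - 1 : ℤ) * A.Ch.N p (k + 1)) : Bˣ) : B) * evN p c (NB.v k) := by
  rw [evN_v, evN_v, ← evN_scale_aux, ix_add_one hp.out]
  rw [← vv_lin_inv_smul hp.out.ne_zero]
  congr 1
  exact LawRing.law_act (N := Laz) (InvSeries.lin u)⁻¹ c.pt

theorem evN_scale_t (c : Chain Laz s B) (u : Bˣ) (i : Fin s) (k : ℕ) :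
    evN p (c.scale u) (NB.t i k) =
      ((u ^ ((p - 1 : ℤ) * A.Ch.N p (k + 1)) : Bˣ) : B) * evN p c (NB.t i k) := by
  rw [evN_t, evN_t, ← evN_scale_aux]
  exact F3.c_conj u (c.g i.succ) (ix p k + 1)

/-- The scaling coaction. -/
def chiN (p : ℕ) [Fact p.Prime] (s : ℕ) : NB p s →+* LaurentPolynomial (NB p s) :=
  evN p (((UN p s).map (LaurentPolynomial.C : NB p s →+* LaurentPolynomial (NB p s))).scale
    (unitT (NB p s)))

/-- the weights in units of `1` (degree: `2`) -/
def NB.wf' (p s : ℕ) (i : ℕ ⊕ (Fin s × ℕ)) : ℤ := (p - 1 : ℤ) * NB.wf p s i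

theorem chiN_X (i : ℕ ⊕ (Fin s × ℕ)) :
    chiN p s (X i) = LaurentPolynomial.C (X i) * LaurentPolynomial.T (NB.wf' p s i) := by
  rcases i with k | ⟨i, k⟩
  · have h := evN_scale_v (p := p) ((UN p s).map
      (LaurentPolynomial.C : NB p s →+* LaurentPolynomial (NB p s))) (unitT (NB p s)) k
    rw [unitT_zpow, evN_map_apply, evN_UN, RingHom.id_apply, mul_comm] at h
    exact h
  · have h := evN_scale_t (p := p) ((UN p s).map
      (LaurentPolynomial.C : NB p s →+* LaurentPolynomial (NB p s))) (unitT (NB p s)) i k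
    rw [unitT_zpow, evN_map_apply, evN_UN, RingHom.id_apply, mul_comm] at h
    exact h

theorem chiN_C (a : ZMod p) :
    chiN p s (MvPolynomial.C a) = LaurentPolynomial.C (MvPolynomial.C a) := by
  have h : (chiN p s).comp (MvPolynomial.C : ZMod p →+* NB p s) =
      (LaurentPolynomial.C).comp (MvPolynomial.C : ZMod p →+* NB p s) := Subsingleton.elim _ _
  exact congrArg (fun f : ZMod p →+* LaurentPolynomial (NB p s) => f a) h

theorem coeff_chiN (x : NB p s) (w : ℤ) :
    (chiN p s x).coeff w = weightedHomogeneousComponent (NB.wf' p s) w x :=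
  coeff_chi _ _ chiN_C chiN_X x w

omit hp in
theorem weight_wf' (d : (ℕ ⊕ (Fin s × ℕ)) →₀ ℕ) :
    Finsupp.weight (NB.wf' p s) d = (p - 1 : ℤ) * Finsupp.weight (NB.wf p s) d := by
  rw [Finsupp.weight_apply, Finsupp.weight_apply, Finsupp.sum, Finsupp.sum, Finset.mul_sum]
  refine Finset.sum_congr rfl fun i _ => ?_
  simp only [NB.wf', nsmul_eq_mul]
  ring

theorem comp_wf' (D : ℤ) (x : NB p s) :
    weightedHomogeneousComponent (NB.wf' p s) ((p - 1 : ℤ) * D) x = NB.comp p s D x := by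
  classical
  have hp1 : ((p : ℤ) - 1) ≠ 0 := by
    have := hp.out.one_lt
    omega
  ext d
  change _ = coeff d (weightedHomogeneousComponent (NB.wf p s) D x)
  rw [coeff_weightedHomogeneousComponent, coeff_weightedHomogeneousComponent, weight_wf']
  simp only [mul_right_inj' hp1]

omit hp in
theorem comp_wf'_eq_zero {w : ℤ} (hw : ¬ (p - 1 : ℤ) ∣ w) (x : NB p s) :
    weightedHomogeneousComponent (NB.wf' p s) w x = 0 := by
  classical
  ext d
  rw [coeff_weightedHomogeneousComponent, weight_wf', coeff_zero, if_neg]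
  rintro rfl
  exact hw (dvd_mul_right _ _)

/-! ### the map from the cobar complex of the Lazard ring -/

theorem chiN_toNB (z : Cob Laz s) (w : ℤ) :
    (chiN p s (toNB p s z)).coeff w = toNB p s (Cob.proj w z) := by
  have hc : IsNCh p ((UN p s).map
      (LaurentPolynomial.C : NB p s →+* LaurentPolynomial (NB p s))) := isNCh_UN.map _
  have hpl : PLoc p (LaurentPolynomial (NB p s)) :=
    (ploc_of_alg p (NB p s)).of_hom (LaurentPolynomial.C : NB p s →+* LaurentPolynomial (NB p s))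
  rw [chiN, evN_toNB (hc.scale (unitT (NB p s))), Cob.coeff_ev_scale]
  rfl

/-- `toNB` of the component of weight `(p-1) D` is the component of weight `D`. -/
theorem toNB_proj (D : ℤ) (z : Cob Laz s) :
    toNB p s (Cob.proj ((p - 1 : ℤ) * D) z) = NB.comp p s D (toNB p s z) := by
  rw [← chiN_toNB, coeff_chiN, comp_wf']

theorem toNB_proj_eq_zero {w : ℤ} (hw : ¬ (p - 1 : ℤ) ∣ w) (z : Cob Laz s) :
    toNB p s (Cob.proj w z) = 0 := by
  rw [← chiN_toNB, coeff_chiN, comp_wf'_eq_zero hw]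

theorem proj_self {w : ℤ} {z : Cob Laz s} (hz : Cob.IsWt w z) : Cob.proj w z = z := by
  rw [Cob.proj_of_isWt hz, if_pos rfl]

/-- `toNB` maps weight `(p-1) D` to weight `D`. -/
theorem toNB_mem_W {D : ℤ} {z : Cob Laz s} (hz : Cob.IsWt ((p - 1 : ℤ) * D) z) :
    toNB p s z ∈ NB.W p s D := by
  rw [← proj_self hz, toNB_proj]
  exact NB.comp_mem _ _

/-- `toNB` kills the weights not divisible by `p - 1`. -/
theorem toNB_eq_zero {w : ℤ} (hw : ¬ (p - 1 : ℤ) ∣ w) {z : Cob Laz s} (hz : Cob.IsWt w z) :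
    toNB p s z = 0 := by
  rw [← proj_self hz, toNB_proj_eq_zero hw]

/-- `toNB` kills the negative weights. -/
theorem toNB_eq_zero_of_neg {w : ℤ} (hw : w < 0) {z : Cob Laz s} (hz : Cob.IsWt w z) :
    toNB p s z = 0 := by
  by_cases h : (p - 1 : ℤ) ∣ w
  · obtain ⟨D, rfl⟩ := h
    refine NB.W_eq_zero ?_ (toNB_mem_W hz)
    have hp1 := hp.out.one_lt
    by_contra hD
    have : 0 ≤ ((p : ℤ) - 1) * D := mul_nonneg (by omega) (by omega)
    omega
  · exact toNB_eq_zero h hz

/-- Homogeneous elements lift to homogeneous elements. -/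
theorem exists_toNB {D : ℤ} {x : NB p s} (hx : x ∈ NB.W p s D) :
    ∃ z : Cob Laz s, Cob.IsWt ((p - 1 : ℤ) * D) z ∧ toNB p s z = x := by
  obtain ⟨z, rfl⟩ := toNB_surjective x
  exact ⟨Cob.proj ((p - 1 : ℤ) * D) z, Cob.isWt_proj _ _, by
    rw [toNB_proj, NB.comp_of_mem hx, if_pos rfl]⟩

theorem NB.map_mem_W (α : Fin (m + 1) → Fin (n + 1)) {D : ℤ} {x : NB p m}
    (hx : x ∈ NB.W p m D) : NB.map α x ∈ NB.W p n D := by
  obtain ⟨z, hz, rfl⟩ := exists_toNB hx
  rw [← toNB_map]
  exact toNB_mem_W (hz.map α)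

theorem NB.d_mem_W {D : ℤ} {x : NB p n} (hx : x ∈ NB.W p n D) :
    NB.d p n x ∈ NB.W p (n + 1) D := by
  rw [NB.d_apply]
  exact sum_mem fun i _ => zsmul_mem (NB.map_mem_W _ hx) _

theorem NB.d_d (x : NB p n) : NB.d p (n + 1) (NB.d p n x) = 0 := by
  obtain ⟨z, rfl⟩ := toNB_surjective x
  rw [← toNB_d, ← toNB_d, Cob.d_d, map_zero]

/-- The components commute with the cosimplicial maps. -/
theorem NB.comp_map (α : Fin (m + 1) → Fin (n + 1)) (D : ℤ) (x : NB p m) :
    NB.comp p n D (NB.map α x) = NB.map α (NB.comp p m D x) := by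
  obtain ⟨z, rfl⟩ := toNB_surjective x
  rw [← toNB_map, ← toNB_proj, ← toNB_proj, ← toNB_map, Cob.proj_map]

end Vale.Agent.P257.V4.B

end
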