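import Vale.Agent.P257.V4.B.NF1
import Vale.Agent.P251.F.Grade
import Vale.Agent.P251.F.F3Line

/-!
# P257, part B: normalisation of chains

`nfC p c` : the chain of the normal forms of the laws of `c`. Sparseness: a function of weight
`w`, `(p - 1) ∤ w`, vanishes on every normal chain over a `p`-local ring.
-/

noncomputable section

namespace Vale.Agent.P257.V4.B

open MvPowerSeries Vale.Agent.P217 Vale.Agent.P251.F LawRing

section lin

variable {p : ℕ} [hp : Fact p.Prime] {B : Type} [CommRing B]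

/-- equivariance of the normalising series under rescaling, with parameters -/
theorem nfS_lin [PLoc p B] (F : Law B) (u : Bˣ) (t : ℕ → B) :
    nfS p ((InvSeries.lin u)⁻¹ • F) (fun n => (u : B) ^ (n + 1) * t n) =
      (InvSeries.lin u)⁻¹ * nfS p F t * InvSeries.lin u := by
  refine (eq_nfS _ _ ?_ (fun n hn => ?_) ?_).symm
  · have h := strict_normal.conj_mem _ (nfS_mem (p := p) F t) (InvSeries.lin u)⁻¹
    rwa [inv_inv] at h
  · rw [F3.c_conj, c_nfS_pw F t hn]
  · rw [mul_assoc, mul_smul, mul_smul, smul_inv_smul]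
    exact isNF_lin u (isNF_nfS F t)

theorem nf_lin [PLoc p B] (F : Law B) (u : Bˣ) :
    nf p ((InvSeries.lin u)⁻¹ • F) = (InvSeries.lin u)⁻¹ * nf p F * InvSeries.lin u := by
  rw [nf, nf, ← nfS_lin]
  congr 1
  funext n
  exact (mul_zero _).symm

end lin

variable {p : ℕ} {N : Type} [CommRing N] [LawRing N] {B C : Type} [CommRing B] [CommRing C]
  {n m : ℕ}

theorem vtx_zero (c : Chain N n B) : c.vertex 0 = law.map c.pt := by
  rw [Chain.vertex, c.zero, one_smul]

theorem vtx_map (φ : B →+* C) (c : Chain N n B) (i : Fin (n + 1)) :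
    (c.map φ).vertex i = (c.vertex i).map φ := by
  rw [Chain.vertex, Chain.vertex, InvSeries.map_smul, Law.map_map]
  rfl

theorem vtx_res (α : Fin (m + 1) → Fin (n + 1)) (c : Chain N n B) (i : Fin (m + 1)) :
    (c.res α).vertex i = c.vertex (α i) := by
  rw [Chain.vertex, Chain.vertex, Chain.res_g, Chain.res_pt, law_act, mul_smul, inv_smul_smul]

theorem vtx_scale (c : Chain N n B) (u : Bˣ) (i : Fin (n + 1)) :
    (c.scale u).vertex i = (InvSeries.lin u)⁻¹ • c.vertex i := by
  change ((InvSeries.lin u)⁻¹ * c.g i * InvSeries.lin u) • law.map (act (InvSeries.lin u)⁻¹ c.pt) =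
    (InvSeries.lin u)⁻¹ • (c.g i • law.map c.pt)
  rw [law_act, mul_smul, mul_smul, smul_inv_smul]

/-- the chain of the normal forms -/
def nfC (p : ℕ) (c : Chain N n B) : Chain N n B where
  pt := act (nf p (c.vertex 0)) c.pt
  g i := nf p (c.vertex i) * c.g i * (nf p (c.vertex 0))⁻¹
  strict i := mul_mem (mul_mem (nf_mem _) (c.strict i)) (inv_mem (nf_mem _))
  zero := by rw [c.zero, mul_one, mul_inv_cancel]

@[simp] theorem nfC_pt (c : Chain N n B) : (nfC p c).pt = act (nf p (c.vertex 0)) c.pt := rfl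
@[simp] theorem nfC_g (c : Chain N n B) (i : Fin (n + 1)) :
    (nfC p c).g i = nf p (c.vertex i) * c.g i * (nf p (c.vertex 0))⁻¹ := rfl

theorem vertex_nfC (c : Chain N n B) (i : Fin (n + 1)) :
    (nfC p c).vertex i = nf p (c.vertex i) • c.vertex i := by
  rw [Chain.vertex, nfC_g, nfC_pt, law_act, mul_smul, inv_smul_smul, mul_smul]
  rfl

theorem res_nfC (α : Fin (m + 1) → Fin (n + 1)) (c : Chain N n B) :
    (nfC p c).res α = nfC p (c.res α) := by
  ext1
  · rw [Chain.res_pt, nfC_pt, nfC_g, nfC_pt, vtx_res, Chain.res_pt, ← act_mul, ← act_mul,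
      inv_mul_cancel_right]
  · funext i
    rw [Chain.res_g, nfC_g, nfC_g, nfC_g, vtx_res, vtx_res, Chain.res_g]
    group

variable [hp : Fact p.Prime]

theorem map_nfC [PLoc p B] (φ : B →+* C) (c : Chain N n B) :
    (nfC p c).map φ = nfC p (c.map φ) := by
  ext1
  · rw [Chain.map_pt, nfC_pt, comp_act, map_nf, nfC_pt, vtx_map]
    rfl
  · funext i
    rw [Chain.map_g, nfC_g, nfC_g, map_mul, map_mul, map_inv, map_nf, map_nf, vtx_map,
      vtx_map]
    rfl

theorem scale_nfC [PLoc p B] (c : Chain N n B) (u : Bˣ) :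
    (nfC p c).scale u = nfC p (c.scale u) := by
  ext1
  · change act (InvSeries.lin u)⁻¹ (act (nf p (c.vertex 0)) c.pt) =
      act (nf p ((c.scale u).vertex 0)) (act (InvSeries.lin u)⁻¹ c.pt)
    rw [vtx_scale, nf_lin, ← act_mul, ← act_mul, mul_inv_cancel_right]
  · funext i
    rw [nfC_g, vtx_scale, vtx_scale, nf_lin, nf_lin]
    change (InvSeries.lin u)⁻¹ * (nf p (c.vertex i) * c.g i * (nf p (c.vertex 0))⁻¹) *
      InvSeries.lin u = _
    change _ = (InvSeries.lin u)⁻¹ * nf p (c.vertex i) * InvSeries.lin u *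
      ((InvSeries.lin u)⁻¹ * c.g i * InvSeries.lin u) *
      ((InvSeries.lin u)⁻¹ * nf p (c.vertex 0) * InvSeries.lin u)⁻¹
    group

/-- all laws of the chain are normal -/
def IsNC (p : ℕ) (c : Chain N n B) : Prop := ∀ i, IsNF p (c.vertex i)

theorem isNC_nfC [PLoc p B] (c : Chain N n B) : IsNC p (nfC p c) := fun i => by
  rw [vertex_nfC]
  exact isNF_nf _

theorem nfC_eq_self [PLoc p B] {c : Chain N n B} (h : IsNC p c) : nfC p c = c := by
  ext1
  · rw [nfC_pt, nf_eq_one (h 0), act_one]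
  · funext i
    rw [nfC_g, nf_eq_one (h 0), nf_eq_one (h i), one_mul, inv_one, mul_one]

theorem nfC_nfC [PLoc p B] (c : Chain N n B) : nfC p (nfC p c) = nfC p c :=
  nfC_eq_self (isNC_nfC c)

omit hp in
theorem IsNC.map {c : Chain N n B} (h : IsNC p c) (φ : B →+* C) : IsNC p (c.map φ) := fun i => by
  rw [vtx_map]
  exact (h i).map φ

omit hp in
theorem IsNC.res {c : Chain N n B} (h : IsNC p c) (α : Fin (m + 1) → Fin (n + 1)) :
    IsNC p (c.res α) := fun i => by
  rw [vtx_res]
  exact h _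

omit hp in
theorem IsNC.scale {c : Chain N n B} (h : IsNC p c) (u : Bˣ) : IsNC p (c.scale u) := fun i => by
  rw [vtx_scale]
  exact isNF_lin u (h i)

/-- extensionality of normal chains over the Lazard ring -/
theorem ext_of_isNC [PLoc p B] {c c' : Chain Laz n B} (h : IsNC p c) (h' : IsNC p c')
    (h1 : ∀ k, xC (c.vertex 0) k = xC (c'.vertex 0) k)
    (h2 : ∀ i k, IsPw p k → (c.g i).c (k + 1) = (c'.g i).c (k + 1)) : c = c' := by
  have h3 : c.vertex 0 = c'.vertex 0 := law_ext_xC h1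
  rw [vtx_zero, vtx_zero] at h3
  have h4 : c.pt = c'.pt := Laz.equiv.injective h3
  ext1
  · exact h4
  · funext i
    refine ext_of_isNF (law.map c.pt) (c.strict i) (c'.strict i) (h2 i) (h i) ?_
    rw [h4]
    exact h' i

/-! ### sparseness -/

section Sparse

/-- the generic root of unity of order `m` -/
def ru (B : Type) [CommRing B] (m : ℕ) : (AddMonoidAlgebra B (ZMod m))ˣ where
  val := AddMonoidAlgebra.single 1 1
  inv := AddMonoidAlgebra.single (-1) 1
  val_inv := by
    rw [AddMonoidAlgebra.single_mul_single, add_neg_cancel, one_mul]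
    rfl
  inv_val := by
    rw [AddMonoidAlgebra.single_mul_single, neg_add_cancel, one_mul]
    rfl

omit hp in
theorem ru_zpow (m : ℕ) (w : ℤ) : ((ru B m ^ w : (AddMonoidAlgebra B (ZMod m))ˣ) :
    AddMonoidAlgebra B (ZMod m)) = AddMonoidAlgebra.single (w : ZMod m) 1 := by
  induction w using Int.induction_on with
  | zero => simp; rfl
  | succ i ih =>
    rw [zpow_add_one, Units.val_mul, ih]
    change _ * AddMonoidAlgebra.single 1 1 = _
    rw [AddMonoidAlgebra.single_mul_single, one_mul]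
    push_cast
    rfl
  | pred i ih =>
    rw [zpow_sub_one, Units.val_mul, ih]
    change _ * AddMonoidAlgebra.single (-1) 1 = _
    rw [AddMonoidAlgebra.single_mul_single, one_mul, ← sub_eq_add_neg]
    push_cast
    rfl

omit hp in
theorem ru_pow (m : ℕ) (w : ℕ) : ((ru B m : (AddMonoidAlgebra B (ZMod m))ˣ) :
    AddMonoidAlgebra B (ZMod m)) ^ w = AddMonoidAlgebra.single (w : ZMod m) 1 := by
  have h := ru_zpow (B := B) m (w : ℤ)
  rw [zpow_natCast, Units.val_pow_eq_pow_val, Int.cast_natCast] at h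
  exact h

omit hp in
theorem ru_pow_of_isPw {k : ℕ} (h : IsPw p k) :
    ((ru B (p - 1) : (AddMonoidAlgebra B (ZMod (p - 1)))ˣ) :
      AddMonoidAlgebra B (ZMod (p - 1))) ^ (k + 1) = 1 := by
  obtain ⟨j, hj⟩ := h
  rw [ru_pow]
  have h1 : p - 1 ∣ k + 1 := by
    have h2 := Nat.sub_dvd_pow_sub_pow p 1 j
    rw [one_pow] at h2
    rwa [show k + 1 = p ^ j - 1 by omega]
  rw [(ZMod.natCast_eq_zero_iff _ _).2 h1]
  rfl

/-- **Sparseness**: on normal chains over `p`-local rings the functions of weight `w`,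
`(p - 1) ∤ w`, vanish. -/
theorem ev_eq_zero_of_isNC [PLoc p B] {c : Chain Laz n B} (hc : IsNC p c) {w : ℤ}
    (hw : ¬ ((p - 1 : ℕ) : ℤ) ∣ w) {z : Cob Laz n} (hz : Cob.IsWt w z) : Cob.ev c z = 0 := by
  set φ : B →+* AddMonoidAlgebra B (ZMod (p - 1)) := AddMonoidAlgebra.singleZeroRingHom with hφ
  set u := ru B (p - 1) with hu
  have hl : PLoc p (AddMonoidAlgebra B (ZMod (p - 1))) := PLoc.of_hom φ
  have h1 : (c.map φ).scale u = c.map φ := by
    refine ext_of_isNC ((hc.map φ).scale u) (hc.map φ) (fun k => ?_) (fun i k hk => ?_)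
    · rw [vtx_scale, xC_lin_inv_smul]
      by_cases hk : IsPw p k
      · rw [hu, ru_pow_of_isPw hk, one_mul]
      · rw [hc.map φ 0 k hk, mul_zero]
    · change ((InvSeries.lin u)⁻¹ * (c.map φ).g i * InvSeries.lin u).c (k + 1) = _
      rw [F3.c_conj, hu, ru_pow_of_isPw hk, one_mul]
  have h2 := hz _ (c.map φ) u
  rw [h1, Cob.ev_map, hu, ru_zpow] at h2
  change AddMonoidAlgebra.single 0 (Cob.ev c z) =
    AddMonoidAlgebra.single _ 1 * AddMonoidAlgebra.single 0 (Cob.ev c z) at h2
  rw [AddMonoidAlgebra.single_mul_single, one_mul, add_zero] at h2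
  have h3 : (w : ZMod (p - 1)) ≠ 0 := by
    intro h
    exact hw ((ZMod.intCast_zmod_eq_zero_iff_dvd _ _).1 h)
  have h4 := congrArg (fun f => AddMonoidAlgebra.coeff f 0) h2
  simp only [AddMonoidAlgebra.coeff_single] at h4
  rw [Finsupp.single_eq_same, Finsupp.single_eq_of_ne h3.symm] at h4
  exact h4

end Sparse

/-! ### normalised functions have integral representatives up to integers prime to `p` -/

/-- integers prime to `p` -/
def prM (p : ℕ) [hp : Fact p.Prime] : Submonoid ℕ where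
  carrier := {m | ¬ p ∣ m}
  one_mem' := fun h => hp.out.one_lt.ne' (Nat.dvd_one.1 h)
  mul_mem' := fun {a b} ha hb h => by
    rcases hp.out.dvd_mul.1 h with h | h
    · exact ha h
    · exact hb h

/-- the normalisation of the function `z` on chains, up to an integer prime to `p` -/
theorem exists_rN (z : Cob Laz n) : ∃ (M : ℕ) (z' : Cob Laz n), ¬ p ∣ M ∧
    ∀ (B : Type) [CommRing B] [PLoc p B] (c : Chain Laz n B),
      (M : B) * Cob.ev (nfC p c) z = Cob.ev c z' := by
  set S := (prM p).map (Nat.castRingHom (Cob Laz n)) with hS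
  set L := Localization S with hL
  have hloc : PLoc p L := ⟨fun m hm => by
    have h := IsLocalization.map_units L (⟨(m : Cob Laz n), ⟨m, hm, rfl⟩⟩ : S)
    rwa [map_natCast] at h⟩
  set c₀ : Chain Laz n L := (Cob.univ Laz n).map (algebraMap _ L) with hc₀
  obtain ⟨⟨z', s⟩, hz'⟩ := IsLocalization.surj S (Cob.ev (nfC p c₀) z)
  obtain ⟨M, hM, hMs⟩ := s.2
  refine ⟨M, z', hM, fun B _ _ c => ?_⟩
  have hu : ∀ y : S, IsUnit (Cob.ev c (y : Cob Laz n)) := by
    rintro ⟨_, m, hm, rfl⟩
    change IsUnit (Cob.ev c ((m : ℕ) : Cob Laz n))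
    rw [map_natCast]
    exact PLoc.isUnit (p := p) m hm
  set ψ : L →+* B := IsLocalization.lift hu with hψ
  have h1 : c₀.map ψ = c := by
    have h2 : (Cob.univ Laz n).map (ψ.comp (algebraMap _ L)) = c := by
      rw [hψ, IsLocalization.lift_comp, Cob.univ_map_ev]
    rw [← h2, hc₀]
    ext1
    · rfl
    · funext i
      rw [Chain.map_g, Chain.map_g, Chain.map_g, InvSeries.map_map]
  have h3 := congrArg ψ hz'
  rw [map_mul, ← hMs] at h3
  change ψ _ * ψ (algebraMap _ L ((M : ℕ) : Cob Laz n)) = ψ (algebraMap _ L z') at h3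
  rw [map_natCast, map_natCast, hψ, IsLocalization.lift_eq, ← hψ, ← Cob.ev_map, map_nfC,
    h1, mul_comm] at h3
  exact h3

/-- the same with weights -/
theorem exists_rN_wt {w : ℤ} {z : Cob Laz n} (hz : Cob.IsWt w z) :
    ∃ (M : ℕ) (z' : Cob Laz n), ¬ p ∣ M ∧ Cob.IsWt w z' ∧
    ∀ (B : Type) [CommRing B] [PLoc p B] (c : Chain Laz n B),
      (M : B) * Cob.ev (nfC p c) z = Cob.ev c z' := by
  obtain ⟨M, z', hM, h⟩ := exists_rN (p := p) z
  refine ⟨M, Cob.proj w z', hM, Cob.isWt_proj w z', fun B _ _ c => ?_⟩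
  have hl : PLoc p (LaurentPolynomial B) := PLoc.of_hom (LaurentPolynomial.C : B →+* _)
  rw [← Cob.coeff_ev_scale, ← h, ← scale_nfC, hz, ← map_nfC, Cob.ev_map, unitT_zpow]
  have h1 : ((M : LaurentPolynomial B) * (LaurentPolynomial.T w *
      LaurentPolynomial.C (Cob.ev (nfC p c) z))) =
      LaurentPolynomial.C ((M : B) * Cob.ev (nfC p c) z) * LaurentPolynomial.T w := by
    rw [map_mul, map_natCast]
    ring
  rw [h1, coeff_C_mul_T, if_pos rfl]

end Vale.Agent.P257.V4.B

end
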