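import Vale.Agent.P257.V4.B.NF1
import Vale.Agent.P257.V4.A.Defs
import Vale.Agent.P251.F.Cob

/-!
# P257, part B: functions on chains of normal laws over `F_p`-algebras

`NB p s = F_p[v_1, v_2, …][t^{(i)}_k : i < s, k ≥ 0]` (one flat polynomial ring) is the ring of
functions on chains of length `s` of laws in normal form over `F_p`-algebras, in homogeneous
coordinates: `NB.v k` is `v_{k+1}` of the law at the vertex `0`, `NB.t i k` is the coefficient of
`x^{p^{k+1}}` in `g_{i+1}`.
-/

noncomputable section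

namespace Vale.Agent.P257.V4.B

open Vale.Agent.P217 Vale.Agent.P251.F

/-! ### indices -/

section index

variable {p : ℕ}

/-- the index of `x^{p^{k+1}}` in the numbering of `xC`, `yF` -/
def ix (p k : ℕ) : ℕ := p ^ (k + 1) - 2

theorem ix_add_two (hp : p.Prime) (k : ℕ) : ix p k + 2 = p ^ (k + 1) :=
  Nat.sub_add_cancel (two_le_pow hp (Nat.succ_ne_zero k))

theorem ix_add_one (hp : p.Prime) (k : ℕ) : ix p k + 1 = p ^ (k + 1) - 1 := by
  have := ix_add_two hp k
  omega

theorem isPw_ix (hp : p.Prime) (k : ℕ) : IsPw p (ix p k) := ⟨k + 1, ix_add_two hp k⟩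

theorem exists_of_isPw (hp : p.Prime) {n : ℕ} (h : IsPw p n) : ∃ k, n = ix p k := by
  obtain ⟨k, hk⟩ := h
  rcases k with _ | k
  · rw [pow_zero] at hk
    omega
  · refine ⟨k, ?_⟩
    have := ix_add_two hp k
    omega

theorem ix_injective (hp : p.Prime) : Function.Injective (ix p) := by
  intro k l h
  have h1 : p ^ (k + 1) = p ^ (l + 1) := by rw [← ix_add_two hp, ← ix_add_two hp, h]
  have := Nat.pow_right_injective hp.two_le h1
  omega

open Classical in
/-- the sequence with value `t k` at `p^{k+1} - 2` and `0` elsewhere -/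
def pw (p : ℕ) {B : Type*} [Zero B] (t : ℕ → B) (n : ℕ) : B :=
  if h : ∃ k, n = ix p k then t h.choose else 0

theorem pw_ix (hp : p.Prime) {B : Type*} [Zero B] (t : ℕ → B) (k : ℕ) : pw p t (ix p k) = t k := by
  have h : ∃ l, ix p k = ix p l := ⟨k, rfl⟩
  rw [pw, dif_pos h]
  exact congrArg t (ix_injective hp h.choose_spec).symm

theorem pw_of_not (hp : p.Prime) {B : Type*} [Zero B] (t : ℕ → B) {n : ℕ} (h : ¬ IsPw p n) :
    pw p t n = 0 := by
  rw [pw, dif_neg]
  rintro ⟨k, rfl⟩
  exact h (isPw_ix hp k)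

theorem map_pw {B C : Type*} [CommRing B] [CommRing C] (φ : B →+* C) (t : ℕ → B) (n : ℕ) :
    φ (pw p t n) = pw p (fun k => φ (t k)) n := by
  rw [pw, pw]
  split_ifs
  · rfl
  · exact map_zero φ

end index

variable {p : ℕ} [hp : Fact p.Prime] {B C : Type} [CommRing B] [Algebra (ZMod p) B] [CommRing C]
  [Algebra (ZMod p) C] {m n l s : ℕ}

theorem p_eq_zero (p : ℕ) (B : Type) [CommRing B] [Algebra (ZMod p) B] : (p : B) = 0 :=
  A.natCast_p_eq_zero

theorem ploc_of_alg (p : ℕ) [Fact p.Prime] (B : Type) [CommRing B] [Algebra (ZMod p) B] :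
    PLoc p B := PLoc.of_zero (p_eq_zero p B)

/-! ### normal laws -/

/-- the normal law with `v_{k+1} = v k` -/
def lawV (p : ℕ) [Fact p.Prime] {B : Type} [CommRing B] [Algebra (ZMod p) B] (v : ℕ → B) :
    Law B := lawOfY (p_eq_zero p B) (pw p v)

theorem isNF_lawV (v : ℕ → B) : IsNF p (lawV p v) := by
  intro n hn
  have h := yF_lawOfY (p_eq_zero p B) (pw p v) n
  rw [pw_of_not hp.out v hn, yF_eq_xC _ hn] at h
  exact h

@[simp] theorem vv_lawV (v : ℕ → B) (k : ℕ) : vv p (k + 1) (lawV p v) = v k := by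
  have h := yF_lawOfY (p_eq_zero p B) (pw p v) (ix p k)
  rw [pw_ix hp.out, yF_eq_vv _ (ix_add_two hp.out k)] at h
  exact h

omit [Algebra (ZMod p) B] in
theorem yF_of_isNF {F : Law B} (h : IsNF p F) (n : ℕ) :
    yF p F n = pw p (fun k => vv p (k + 1) F) n := by
  by_cases hn : IsPw p n
  · obtain ⟨k, rfl⟩ := exists_of_isPw hp.out hn
    rw [pw_ix hp.out, yF_eq_vv _ (ix_add_two hp.out k)]
  · rw [pw_of_not hp.out _ hn, yF_eq_xC _ hn, h n hn]

theorem eq_lawV {F : Law B} (h : IsNF p F) : F = lawV p fun k => vv p (k + 1) F :=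
  law_ext_yF (p_eq_zero p B) fun n => by rw [yF_of_isNF h, lawV, yF_lawOfY]

/-- normal laws over `F_p`-algebras are determined by their `v_k`, `k ≥ 1` -/
theorem isNF_ext {F G : Law B} (hF : IsNF p F) (hG : IsNF p G)
    (h : ∀ k, vv p (k + 1) F = vv p (k + 1) G) : F = G := by
  rw [eq_lawV hF, eq_lawV hG, funext h]

theorem map_lawV (φ : B →+* C) (v : ℕ → B) : (lawV p v).map φ = lawV p fun k => φ (v k) := by
  rw [lawV, lawV, map_lawOfY φ (p_eq_zero p B) (p_eq_zero p C)]
  congr 1
  funext n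
  exact map_pw φ v n

/-! ### normal chains -/

omit hp [Algebra (ZMod p) B] in
/-- all laws of the chain are in normal form -/
def IsNCh (p : ℕ) (c : Chain Laz s B) : Prop := ∀ i, IsNF p (c.vertex i)

omit hp [Algebra (ZMod p) B] in
theorem vertex_zero (c : Chain Laz s B) : c.vertex 0 = Laz.univ.map c.pt := by
  rw [Chain.vertex, c.zero, one_smul]
  rfl

omit hp [Algebra (ZMod p) B] in
theorem vertex_res (α : Fin (m + 1) → Fin (n + 1)) (c : Chain Laz n B) (i : Fin (m + 1)) :
    (c.res α).vertex i = c.vertex (α i) := by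
  rw [Chain.vertex, Chain.vertex, Chain.res_g, Chain.res_pt, LawRing.law_act, ← mul_smul,
    inv_mul_cancel_right]

omit hp [Algebra (ZMod p) B] in
theorem IsNCh.res {c : Chain Laz n B} (hc : IsNCh p c) (α : Fin (m + 1) → Fin (n + 1)) :
    IsNCh p (c.res α) := fun i => by
  rw [vertex_res]
  exact hc _

omit hp [Algebra (ZMod p) B] [Algebra (ZMod p) C] in
theorem vertex_map (φ : B →+* C) (c : Chain Laz s B) (i : Fin (s + 1)) :
    (c.map φ).vertex i = (c.vertex i).map φ := by
  rw [Chain.vertex, Chain.vertex, InvSeries.map_smul, Chain.map_g, Chain.map_pt, Law.map_map]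

omit hp [Algebra (ZMod p) B] [Algebra (ZMod p) C] in
theorem IsNCh.map {c : Chain Laz s B} (hc : IsNCh p c) (φ : B →+* C) : IsNCh p (c.map φ) :=
  fun i => by
    rw [vertex_map]
    exact (hc i).map φ

omit hp [Algebra (ZMod p) B] in
theorem vertex_scale (c : Chain Laz s B) (u : Bˣ) (i : Fin (s + 1)) :
    (c.scale u).vertex i = (InvSeries.lin u)⁻¹ • c.vertex i := by
  change ((InvSeries.lin u)⁻¹ * c.g i * InvSeries.lin u) •
    LawRing.law.map (LawRing.act (InvSeries.lin u)⁻¹ c.pt) = _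
  rw [LawRing.law_act, ← mul_smul, mul_assoc, mul_inv_cancel, mul_one, mul_smul]
  rfl

omit hp in
theorem IsNCh.scale [PLoc p B] {c : Chain Laz s B} (hc : IsNCh p c) (u : Bˣ) :
    IsNCh p (c.scale u) := fun i => by
  rw [vertex_scale]
  exact isNF_lin u (hc i)

/-! ### the ring of functions on normal chains -/

/-- The ring of functions on normal chains of length `s` over `F_p`-algebras. -/
abbrev NB (p s : ℕ) : Type := MvPolynomial (ℕ ⊕ (Fin s × ℕ)) (ZMod p)

/-- `v_{k+1}` of the law at the vertex `0` -/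
def NB.v {p s : ℕ} (k : ℕ) : NB p s := MvPolynomial.X (Sum.inl k)

/-- the coefficient of `x^{p^{k+1}}` in `g_{i+1}` -/
def NB.t {p s : ℕ} (i : Fin s) (k : ℕ) : NB p s := MvPolynomial.X (Sum.inr (i, k))

omit hp in
theorem NB.hom_ext {φ ψ : NB p s →+* B} (hv : ∀ k, φ (NB.v k) = ψ (NB.v k))
    (ht : ∀ i k, φ (NB.t i k) = ψ (NB.t i k)) : φ = ψ := by
  refine MvPolynomial.ringHom_ext (fun a => ?_) (fun x => ?_)
  · rw [← RingHom.comp_apply, ← RingHom.comp_apply]
    exact congrArg (fun f : ZMod p →+* B => f a) (Subsingleton.elim _ _)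
  · rcases x with k | ⟨i, k⟩
    · exact hv k
    · exact ht i k

/-- the universal normal law -/
def FN (p : ℕ) [Fact p.Prime] (s : ℕ) : Law (NB p s) := lawV p NB.v

/-- The universal normal chain. -/
def UN (p : ℕ) [Fact p.Prime] (s : ℕ) : Chain Laz s (NB p s) where
  pt := Laz.lift (FN p s)
  g := Fin.cons 1 fun i => nfS p (FN p s) (pw p (NB.t i))
  strict := by
    intro i
    refine Fin.cases ?_ (fun i => ?_) i
    · rw [Fin.cons_zero]
      exact one_mem _
    · rw [Fin.cons_succ]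
      exact nfS_mem _ _
  zero := Fin.cons_zero _ _

theorem UN_pt : (UN p s).pt = Laz.lift (FN p s) := rfl

theorem UN_g_zero : (UN p s).g 0 = 1 := (UN p s).zero

theorem UN_g_succ (i : Fin s) : (UN p s).g i.succ = nfS p (FN p s) (pw p (NB.t i)) := by
  unfold UN
  exact Fin.cons_succ (α := fun _ => InvSeries (NB p s)) 1
    (fun i => nfS p (FN p s) (pw p (NB.t i))) i

theorem UN_law : Laz.univ.map (UN p s).pt = FN p s := by
  rw [UN_pt, Laz.univ_map_lift]

theorem isNCh_UN : IsNCh p (UN p s) := by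
  have := ploc_of_alg p (NB p s)
  intro i
  refine Fin.cases ?_ (fun i => ?_) i
  · rw [vertex_zero, UN_law]
    exact isNF_lawV _
  · have h : (UN p s).vertex i.succ = nfS p (FN p s) (pw p (NB.t i)) • FN p s := by
      rw [Chain.vertex, UN_g_succ, Laz.law_eq, UN_law]
    rw [h]
    exact isNF_nfS _ _

/-- Evaluation of functions on a chain. -/
def evN (p : ℕ) [Fact p.Prime] {B : Type} [CommRing B] [Algebra (ZMod p) B] {s : ℕ}
    (c : Chain Laz s B) : NB p s →+* B :=
  MvPolynomial.eval₂Hom (algebraMap (ZMod p) B)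
    (Sum.elim (fun k => vv p (k + 1) (Laz.univ.map c.pt))
      (fun ik => (c.g ik.1.succ).c (ix p ik.2 + 1)))

@[simp] theorem evN_v (c : Chain Laz s B) (k : ℕ) :
    evN p c (NB.v k) = vv p (k + 1) (Laz.univ.map c.pt) := by
  simp [evN, NB.v]

@[simp] theorem evN_t (c : Chain Laz s B) (i : Fin s) (k : ℕ) :
    evN p c (NB.t i k) = (c.g i.succ).c (ix p k + 1) := by
  simp [evN, NB.t]

/-- A normal chain is the image of the universal one. -/
theorem UN_map_evN {c : Chain Laz s B} (hc : IsNCh p c) : (UN p s).map (evN p c) = c := by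
  have := ploc_of_alg p (NB p s)
  have := ploc_of_alg p B
  have hF : (FN p s).map (evN p c) = Laz.univ.map c.pt := by
    have h1 := hc 0
    rw [vertex_zero] at h1
    rw [FN, map_lawV, eq_lawV h1]
    congr 1
    funext k
    rw [evN_v]
  ext1
  · rw [Chain.map_pt, UN_pt, Laz.comp_lift, hF, Laz.lift_map_univ]
  · funext i
    refine Fin.cases ?_ (fun i => ?_) i
    · rw [Chain.map_g, UN_g_zero, c.zero, map_one]
    · rw [Chain.map_g, UN_g_succ, map_nfS, hF]
      refine (eq_nfS _ _ (c.strict _) ?_ ?_).symm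
      · intro n hn
        obtain ⟨k, rfl⟩ := exists_of_isPw hp.out hn
        rw [pw_ix hp.out, evN_t]
      · exact hc i.succ

theorem evN_map (φ : B →+* C) (c : Chain Laz s B) : evN p (c.map φ) = φ.comp (evN p c) := by
  refine NB.hom_ext (fun k => ?_) (fun i k => ?_)
  · rw [RingHom.comp_apply, evN_v, evN_v, Chain.map_pt, ← Law.map_map, vv_map]
  · rw [RingHom.comp_apply, evN_t, evN_t, Chain.map_g, InvSeries.c_map]

@[simp] theorem evN_UN : evN p (UN p s) = RingHom.id (NB p s) := by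
  refine NB.hom_ext (fun k => ?_) (fun i k => ?_)
  · rw [evN_v, UN_law, FN, vv_lawV]
    rfl
  · rw [evN_t, UN_g_succ, c_nfS_pw _ _ (isPw_ix hp.out k), pw_ix hp.out]
    rfl

theorem evN_map_apply (φ : B →+* C) (c : Chain Laz s B) (x : NB p s) :
    evN p (c.map φ) x = φ (evN p c x) := by
  rw [evN_map, RingHom.comp_apply]

/-- Every ring homomorphism is the evaluation on a normal chain. -/
theorem evN_UN_map (φ : NB p s →+* B) : evN p ((UN p s).map φ) = φ := by
  rw [evN_map, evN_UN, RingHom.comp_id]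

/-- Extensionality of functions on normal chains. -/
theorem NB.ext_evN {x y : NB p s} (h : ∀ (B : Type) [CommRing B] [Algebra (ZMod p) B]
    (c : Chain Laz s B), IsNCh p c → evN p c x = evN p c y) : x = y := by
  have := h _ (UN p s) isNCh_UN
  rwa [evN_UN, RingHom.id_apply, RingHom.id_apply] at this

/-! ### the cosimplicial structure -/

/-- The cosimplicial structure. -/
def NB.map (α : Fin (m + 1) → Fin (n + 1)) : NB p m →+* NB p n := evN p ((UN p n).res α)

theorem evN_res {c : Chain Laz n B} (hc : IsNCh p c) (α : Fin (m + 1) → Fin (n + 1))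
    (x : NB p m) : evN p c (NB.map α x) = evN p (c.res α) x := by
  rw [NB.map, ← evN_map_apply, Chain.map_res, UN_map_evN hc]

theorem UN_map_map (α : Fin (m + 1) → Fin (n + 1)) :
    (UN p m).map (NB.map α) = (UN p n).res α := UN_map_evN (isNCh_UN.res α)

@[simp] theorem NB.map_id (x : NB p n) : NB.map id x = x := by
  apply NB.ext_evN
  intro B _ _ c hc
  rw [evN_res hc, Chain.res_id]

theorem NB.map_map (α : Fin (m + 1) → Fin (n + 1)) (β : Fin (l + 1) → Fin (m + 1))
    (x : NB p l) : NB.map α (NB.map β x) = NB.map (α ∘ β) x := by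
  apply NB.ext_evN
  intro B _ _ c hc
  rw [evN_res hc, evN_res (hc.res α), evN_res hc, Chain.res_res]

/-- The differential `d = ∑ (-1)^i d^i`. -/
def NB.d (p : ℕ) [Fact p.Prime] (n : ℕ) : NB p n →+ NB p (n + 1) :=
  ∑ i : Fin (n + 2), ((-1 : ℤ) ^ (i : ℕ)) •
    (NB.map (i.succAbove) : NB p n →+* NB p (n + 1)).toAddMonoidHom

theorem NB.d_apply (x : NB p n) :
    NB.d p n x = ∑ i : Fin (n + 2), ((-1 : ℤ) ^ (i : ℕ)) • NB.map i.succAbove x := by
  simp [NB.d, AddMonoidHom.finsetSum_apply]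

/-- The cup product. -/
def NB.cup {a b : ℕ} (x : NB p a) (y : NB p b) : NB p (a + b) :=
  NB.map (Cob.front a b) x * NB.map (Cob.back a b) y

/-! ### the map from the cobar complex of the Lazard ring -/

/-- Restriction of functions to normal chains over `F_p`-algebras. -/
def toNB (p : ℕ) [Fact p.Prime] (s : ℕ) : Cob Laz s →+* NB p s := Cob.ev (UN p s)

theorem evN_toNB {c : Chain Laz s B} (hc : IsNCh p c) (z : Cob Laz s) :
    evN p c (toNB p s z) = Cob.ev c z := by
  rw [toNB, ← Cob.ev_map, UN_map_evN hc]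

theorem toNB_map (α : Fin (m + 1) → Fin (n + 1)) (z : Cob Laz m) :
    toNB p n (Cob.map α z) = NB.map α (toNB p m z) := by
  rw [toNB, Cob.ev_map_res, toNB, ← Cob.ev_map, UN_map_map]

theorem toNB_d (z : Cob Laz n) : toNB p (n + 1) (Cob.d n z) = NB.d p n (toNB p n z) := by
  rw [Cob.d_apply, NB.d_apply, map_sum]
  refine Finset.sum_congr rfl fun i _ => ?_
  rw [map_zsmul, toNB_map]

theorem toNB_cup {a b : ℕ} (x : Cob Laz a) (y : Cob Laz b) :
    toNB p (a + b) (Cob.cup x y) = NB.cup (toNB p a x) (toNB p b y) := by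
  rw [Cob.cup, NB.cup, map_mul, toNB_map, toNB_map]

theorem toNB_v (k : ℕ) : toNB p s (MvPolynomial.C (Laz.v p (k + 1))) = NB.v k := by
  rw [toNB, Cob.ev_C, UN_pt, Laz.lift_v, FN, vv_lawV]

theorem toNB_X (i : Fin s) (k : ℕ) : toNB p s (MvPolynomial.X (i, ix p k)) = NB.t i k := by
  rw [toNB, Cob.ev_X, UN_g_succ, c_nfS_pw _ _ (isPw_ix hp.out k), pw_ix hp.out]

theorem toNB_surjective : Function.Surjective (toNB p s) := by
  intro x
  induction x using MvPolynomial.induction_on with
  | C a =>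
    obtain ⟨z, rfl⟩ := ZMod.intCast_surjective a
    exact ⟨z, by rw [map_intCast, map_intCast]⟩
  | add x y hx hy =>
    obtain ⟨a, rfl⟩ := hx
    obtain ⟨b, rfl⟩ := hy
    exact ⟨a + b, map_add _ _ _⟩
  | mul_X x i hx =>
    obtain ⟨a, rfl⟩ := hx
    rcases i with k | ⟨i, k⟩
    · exact ⟨a * MvPolynomial.C (Laz.v p (k + 1)), by rw [map_mul, toNB_v]; rfl⟩
    · exact ⟨a * MvPolynomial.X (i, ix p k), by rw [map_mul, toNB_X]; rfl⟩

end Vale.Agent.P257.V4.B

end
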