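import Vale.Agent.P257.V4.B.NF2
import Vale.Agent.P257.V4.B.NF3
import Vale.Agent.P251.F.T1Coc
import Mathlib.Data.ZMod.QuotientRing

/-!
# P257, part B: the kernel of the restriction to normal chains modulo `p`

If `M * (normalisation of z) = z'` with `M` prime to `p` (`exists_rN_wt`) then `z` vanishes on all
normal chains over rings with `p = 0` exactly if `z'` is divisible by `p`.
-/

noncomputable section

namespace Vale.Agent.P257.V4.B

open Vale.Agent.P217 Vale.Agent.P251.F

variable {p : ℕ} [hp : Fact p.Prime] {s : ℕ}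

theorem isNC_UN : IsNC p (UN p s) := isNCh_UN

omit hp in
/-- the ring homomorphism `𝔽_p → B` for `p = 0` in `B` -/
def zcHom (p : ℕ) {B : Type*} [CommRing B] (h : (p : B) = 0) : ZMod p →+* B :=
  (Ideal.Quotient.lift (Ideal.span {(p : ℤ)}) (Int.castRingHom B) (fun a ha => by
    obtain ⟨b, rfl⟩ := Ideal.mem_span_singleton'.1 ha
    rw [map_mul, eq_intCast, eq_intCast, Int.cast_natCast, h, mul_zero])).comp
    (Int.quotientSpanNatEquivZMod p).symm.toRingHom

theorem toNB_eq_zero_iff {z z' : Cob Laz s} {M : ℕ} (hM : ¬ p ∣ M)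
    (h : ∀ (B : Type) [CommRing B] [PLoc p B] (c : Chain Laz s B),
      (M : B) * Cob.ev (nfC p c) z = Cob.ev c z') :
    toNB p s z = 0 ↔ ∃ y : Cob Laz s, z' = (p : ℤ) • y := by
  constructor
  · intro hz
    set I : Ideal (Cob Laz s) := Ideal.span {(p : Cob Laz s)} with hI
    have hzero : ((p : ℕ) : Cob Laz s ⧸ I) = 0 := by
      rw [← map_natCast (Ideal.Quotient.mk I)]
      exact Ideal.Quotient.eq_zero_iff_mem.2 (Ideal.subset_span rfl)
    have hloc : PLoc p (Cob Laz s ⧸ I) := PLoc.of_zero hzero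
    let _ : Algebra (ZMod p) (Cob Laz s ⧸ I) := (zcHom p hzero).toAlgebra
    set c : Chain Laz s (Cob Laz s ⧸ I) := (Cob.univ Laz s).map (Ideal.Quotient.mk I) with hc
    have h1 := h _ c
    rw [← evN_toNB (isNC_nfC c), hz, map_zero, mul_zero, hc, Cob.ev_map, Cob.ev_univ] at h1
    have h2 := Ideal.Quotient.eq_zero_iff_mem.1 h1.symm
    obtain ⟨y, hy⟩ := Ideal.mem_span_singleton'.1 h2
    refine ⟨y, ?_⟩
    rw [← hy, zsmul_eq_mul, Int.cast_natCast, mul_comm]
  · rintro ⟨y, rfl⟩
    have := ploc_of_alg p (NB p s)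
    have h1 := h _ (UN p s)
    rw [nfC_eq_self isNC_UN, map_zsmul, zsmul_eq_mul, Int.cast_natCast, p_eq_zero p (NB p s),
      zero_mul] at h1
    exact ((PLoc.isUnit (p := p) M hM).mul_right_eq_zero).1 h1

end Vale.Agent.P257.V4.B

end
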