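import Vale.Agent.P257.V4.B.NF4

/-!
# P257, part B: normalisation of functions, for ring homomorphisms to rings in any universe

`IsNorm p φ φ'` : the chain of the ring homomorphism `φ' : Cob Laz s → B` is the normalisation of
the chain of `φ`.
-/

noncomputable section

universe v

namespace Vale.Agent.P257.V4.B

open Vale.Agent.P217 Vale.Agent.P251.F

variable {p : ℕ} [hp : Fact p.Prime] {s : ℕ} {B : Type v} [CommRing B]

/-- the law at the `i`-th vertex of a ring homomorphism -/
def vtxH (φ : Cob Laz s →+* B) (i : Fin (s + 1)) : Law B :=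
  InvSeries.map φ ((Cob.univ Laz s).g i) • Laz.univ.map (φ.comp MvPolynomial.C)

/-- the chain of `φ'` is the normalisation of the chain of `φ` -/
structure IsNorm (p : ℕ) (φ φ' : Cob Laz s →+* B) : Prop where
  law : Laz.univ.map (φ'.comp MvPolynomial.C) = nf p (vtxH φ 0) • vtxH φ 0
  ser : ∀ i, InvSeries.map φ' ((Cob.univ Laz s).g i) =
    nf p (vtxH φ i) * InvSeries.map φ ((Cob.univ Laz s).g i) * (nf p (vtxH φ 0))⁻¹

omit hp in
theorem hom_ext_chain {φ φ' : Cob Laz s →+* B}
    (h0 : Laz.univ.map (φ.comp MvPolynomial.C) = Laz.univ.map (φ'.comp MvPolynomial.C))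
    (h1 : ∀ i, InvSeries.map φ ((Cob.univ Laz s).g i) =
      InvSeries.map φ' ((Cob.univ Laz s).g i)) : φ = φ' := by
  have h2 : φ.comp MvPolynomial.C = φ'.comp MvPolynomial.C := Laz.equiv.injective h0
  refine MvPolynomial.ringHom_ext (fun a => congrArg (fun f => f a) h2) (fun im => ?_)
  have h3 := congrArg (fun g => InvSeries.c g (im.2 + 1)) (h1 im.1.succ)
  rw [Cob.univ_g_succ, InvSeries.c_map, InvSeries.c_map, c_succ_strictMk] at h3
  exact h3

/-- **Integral representatives of the normalised functions.** -/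
theorem exists_rN_hom {w : ℤ} {z : Cob Laz s} (hz : Cob.IsWt w z) :
    ∃ (M : ℕ) (z' : Cob Laz s), ¬ p ∣ M ∧ Cob.IsWt w z' ∧
      (toNB p s z = 0 ↔ ∃ y : Cob Laz s, z' = (p : ℤ) • y) ∧
      ∀ (B : Type v) [CommRing B] [PLoc p B] (φ φ' : Cob Laz s →+* B), IsNorm p φ φ' →
        (M : B) * φ' z = φ z' := by
  obtain ⟨M, z', hM, hz', h⟩ := exists_rN_wt (p := p) hz
  refine ⟨M, z', hM, hz', toNB_eq_zero_iff hM h, fun B _ _ φ φ' hn => ?_⟩
  set S := (prM p).map (Nat.castRingHom (Cob Laz s)) with hS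
  set L := Localization S with hL
  have hloc : PLoc p L := ⟨fun m hm => by
    have h := IsLocalization.map_units L (⟨(m : Cob Laz s), ⟨m, hm, rfl⟩⟩ : S)
    rwa [map_natCast] at h⟩
  set c₀ : Chain Laz s L := (Cob.univ Laz s).map (algebraMap _ L) with hc₀
  have hu : ∀ y : S, IsUnit (φ (y : Cob Laz s)) := by
    rintro ⟨_, m, hm, rfl⟩
    change IsUnit (φ ((m : ℕ) : Cob Laz s))
    rw [map_natCast]
    exact PLoc.isUnit (p := p) m hm
  set ψ : L →+* B := IsLocalization.lift hu with hψ
  have hψφ : ψ.comp (algebraMap _ L) = φ := IsLocalization.lift_comp hu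
  have hv : ∀ i, (c₀.vertex i).map ψ = vtxH φ i := by
    intro i
    rw [hc₀, vtx_map, Chain.vertex, InvSeries.map_smul, InvSeries.map_smul, Law.map_map,
      Law.map_map, InvSeries.map_map, vtxH, hψφ]
    congr 2
  have h1 : ψ.comp (Cob.ev (nfC p c₀)) = φ' := by
    apply hom_ext_chain
    · rw [hn.law]
      have h2 : ((ψ.comp (Cob.ev (nfC p c₀))).comp MvPolynomial.C) = ψ.comp (nfC p c₀).pt := by
        ext a
        simp
      rw [h2, ← Law.map_map]
      have h3 : Laz.univ.map (nfC p c₀).pt = nf p (c₀.vertex 0) • c₀.vertex 0 := by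
        rw [← vertex_nfC, vtx_zero]
        rfl
      rw [h3, InvSeries.map_smul, map_nf, hv]
    · intro i
      rw [hn.ser]
      have h2 : InvSeries.map (ψ.comp (Cob.ev (nfC p c₀))) ((Cob.univ Laz s).g i) =
          InvSeries.map ψ ((nfC p c₀).g i) := by
        rw [← InvSeries.map_map]
        congr 1
        exact congrArg (fun c => Chain.g c i) (Cob.univ_map_ev (nfC p c₀))
      rw [h2, nfC_g, map_mul, map_mul, map_inv, map_nf, map_nf, hv, hv]
      congr 2
      rw [hc₀, Chain.map_g, InvSeries.map_map, hψφ]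
  have h2 := congrArg ψ (h L c₀)
  rw [map_mul, map_natCast] at h2
  have h3 : ψ (Cob.ev (nfC p c₀) z) = φ' z := congrArg (fun f => f z) h1
  have h4 : ψ (Cob.ev c₀ z') = φ z' := by
    rw [hc₀, Cob.ev_map, Cob.ev_univ]
    exact congrArg (fun f => f z') hψφ
  rw [h3, h4] at h2
  exact h2

end Vale.Agent.P257.V4.B

end
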