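import Vale.Agent.P257.V4.B.NF1

/-!
# P257, part B: strict series with prescribed coefficients at `x^{p^k}` and prescribed other Lazard
coordinates of the new law

For a law `F` over a `p`-local ring and `z : ℕ → B` there is exactly one strict series
`gS p F z` with `(gS p F z).c (n + 1) = z n` if `n + 2` is a power of `p` and
`xC (gS p F z • F) n = z n` otherwise.
-/

noncomputable section

namespace Vale.Agent.P257.V4.B

open MvPowerSeries Vale.Agent.P217 Vale.Agent.P251.F Finsupp

variable {p : ℕ} {A B C : Type*} [CommRing A] [CommRing B] [CommRing C]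

open Classical in
/-- one step of the recursion -/
def gStep (p : ℕ) (F : Law B) (z : ℕ → B) (b : ℕ → B) (n : ℕ) : B :=
  if IsPw p n then z n else Ring.inverse (dC (n + 2) : B) * (z n - xC (strictMk b • F) n)

/-- the first `n` coefficients, continued by zero -/
def gTr (p : ℕ) (F : Law B) (z : ℕ → B) : ℕ → ℕ → B
  | 0 => 0
  | n + 1 => Function.update (gTr p F z n) n (gStep p F z (gTr p F z n) n)

/-- the coefficients -/
def gB (p : ℕ) (F : Law B) (z : ℕ → B) (n : ℕ) : B := gTr p F z (n + 1) n

theorem gB_eq (F : Law B) (z : ℕ → B) (n : ℕ) :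
    gB p F z n = gStep p F z (gTr p F z n) n := by
  rw [gB, gTr, Function.update_self]

theorem gTr_of_le (F : Law B) (z : ℕ → B) {n k : ℕ} (h : n ≤ k) : gTr p F z n k = 0 := by
  induction n with
  | zero => rfl
  | succ n ih =>
    rw [gTr, Function.update_of_ne (by omega)]
    exact ih (by omega)

theorem gTr_of_lt (F : Law B) (z : ℕ → B) {n k : ℕ} (h : k < n) :
    gTr p F z n k = gB p F z k := by
  induction n with
  | zero => omega
  | succ n ih =>
    rcases Nat.lt_or_ge k n with h1 | h1
    · rw [gTr, Function.update_of_ne (by omega)]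
      exact ih h1
    · obtain rfl : k = n := by omega
      rfl

/-- the strict series with the prescribed data -/
def gS (p : ℕ) (F : Law B) (z : ℕ → B) : InvSeries B := strictMk (gB p F z)

theorem gS_mem (F : Law B) (z : ℕ → B) : gS p F z ∈ strict B := strictMk_mem _

theorem c_gS (F : Law B) (z : ℕ → B) (n : ℕ) : (gS p F z).c (n + 1) = gB p F z n := by
  rw [gS, c_succ_strictMk]

theorem c_gS_pw (F : Law B) (z : ℕ → B) {n : ℕ} (h : IsPw p n) :
    (gS p F z).c (n + 1) = z n := by
  rw [c_gS, gB_eq, gStep, if_pos h]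

/-- the recursion formula -/
theorem c_gS_not_pw (F : Law B) (z : ℕ → B) {n : ℕ} (h : ¬ IsPw p n) :
    (gS p F z).c (n + 1) =
      Ring.inverse (dC (n + 2) : B) * (z n - xC (strictMk (gTr p F z n) • F) n) := by
  rw [c_gS, gB_eq, gStep, if_neg h]

/-- the truncations are given by the coefficients -/
theorem gTr_eq (F : Law B) (z : ℕ → B) (n k : ℕ) :
    gTr p F z n k = if k < n then (gS p F z).c (k + 1) else 0 := by
  split_ifs with h
  · rw [gTr_of_lt F z h, c_gS]
  · exact gTr_of_le F z (by omega)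

variable [hp : Fact p.Prime]

theorem xC_gS [PLoc p B] (F : Law B) (z : ℕ → B) {n : ℕ} (hn : ¬ IsPw p n) :
    xC (gS p F z • F) n = z n := by
  rw [gS, xC_strictMk_smul_sub F (gB p F z) (gTr p F z n) n
    (fun k hk => (gTr_of_lt F z hk).symm), gTr_of_le F z le_rfl, sub_zero, gB_eq, gStep,
    if_neg hn, ← mul_assoc, Ring.mul_inverse_cancel _ (isUnit_dC hn), one_mul,
    add_sub_cancel]

/-- **uniqueness** -/
theorem ext_gS [PLoc p B] (F : Law B) {g g' : InvSeries B} (hg : g ∈ strict B)
    (hg' : g' ∈ strict B) (h : ∀ n, IsPw p n → g.c (n + 1) = g'.c (n + 1))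
    (hx : ∀ n, ¬ IsPw p n → xC (g • F) n = xC (g' • F) n) : g = g' := by
  have e : g = strictMk (fun n => g.c (n + 1)) := (strictMk_c hg).symm
  have e' : g' = strictMk (fun n => g'.c (n + 1)) := (strictMk_c hg').symm
  have key : ∀ n, g.c (n + 1) = g'.c (n + 1) := by
    intro n
    induction n using Nat.strong_induction_on with
    | _ n ih =>
      by_cases hn : IsPw p n
      · exact h n hn
      · have h1 := xC_strictMk_smul_sub F (fun n => g.c (n + 1)) (fun n => g'.c (n + 1)) n ih
        rw [← e, ← e', hx n hn] at h1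
        have h2 := ((isUnit_dC (B := B) hn).mul_right_eq_zero).1 (left_eq_add.1 h1)
        exact sub_eq_zero.1 h2
  rw [e, e']
  congr 1
  funext n
  exact key n

theorem eq_gS [PLoc p B] (F : Law B) (z : ℕ → B) {g : InvSeries B} (hg : g ∈ strict B)
    (h : ∀ n, IsPw p n → g.c (n + 1) = z n) (hx : ∀ n, ¬ IsPw p n → xC (g • F) n = z n) :
    g = gS p F z :=
  ext_gS F hg (gS_mem F z) (fun n hn => by rw [h n hn, c_gS_pw F z hn])
    (fun n hn => by rw [hx n hn, xC_gS F z hn])

theorem map_gS [PLoc p A] (φ : A →+* B) (F : Law A) (z : ℕ → A) :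
    InvSeries.map φ (gS p F z) = gS p (F.map φ) (fun n => φ (z n)) := by
  have := PLoc.of_hom (p := p) φ
  refine eq_gS _ _ (map_mem_strict φ (gS_mem F z)) (fun n hn => ?_) (fun n hn => ?_)
  · rw [InvSeries.c_map, c_gS_pw F z hn]
  · rw [← InvSeries.map_smul, ← map_xC, xC_gS F z hn]

open Classical in
/-- `nfS` as a special case -/
theorem nfS_eq_gS [PLoc p B] (F : Law B) (t : ℕ → B) :
    nfS p F t = gS p F (fun n => if IsPw p n then t n else 0) :=
  eq_gS F _ (nfS_mem F t) (fun n hn => by rw [if_pos hn, c_nfS_pw F t hn])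
    (fun n hn => by rw [if_neg hn, isNF_nfS F t n hn])

theorem nf_eq_gS [PLoc p B] (F : Law B) : nf p F = gS p F 0 :=
  eq_gS F 0 (nf_mem F) (fun _ hn => c_nfS_pw F 0 hn) (fun n hn => isNF_nf F n hn)

end Vale.Agent.P257.V4.B

end
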