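import Vale.Agent.P257.V4.B.Ret

/-!
# P257, part B: graded bases of retracts, `A ⊗ B` is free over `A`

* `retBasis` : a splitting of an idempotent which is diagonal in a graded basis;
* `exists_coords` : the graded basis of `K ⊗ MU` adapted to the normalisation;
* `BData.exists_basis` : **`A ⊗ B` has the graded basis of the monomials in the coefficients at
  `x^{p^k}` of the isomorphism from the law of `A` to the law of `B`.**
-/

open CategoryTheory MonoidalCategory MonObj Limits Pretriangulated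

universe v u

set_option linter.unusedSectionVars false

noncomputable section

namespace Vale.Agent.P257.V4.B

open Vale.Agent.P251.S Vale.Agent.P251.T Vale.Agent.P251.M Vale.Agent.P251.F Vale.Agent.P251.I
  Vale.Agent.P251.X EvenSpheres Vale.Agent.P093.PLoc

variable {T : Type u} [Category.{v} T] [Preadditive T] [HasZeroObject T]
    [HasShift T ℤ] [∀ n : ℤ, (shiftFunctor T n).Additive] [Pretriangulated T] [IsTriangulated T]
    [MonoidalCategory T] [SymmetricCategory T] [TensorTriangulated T] [MonoidalClosed T]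
    [HasCoproducts.{0} T] [HasProducts.{0} T] [StableCat T]

section ret

variable {E : EvenSpheres T} {F P Q : T} [MonObj F] [MonObj P] [MonObj Q] {φ : F ⟶ P} {J : Type}

/-- A basis moved by an isomorphism. -/
def isoBasis (b : GBasis E φ J) (Φ : P ⟶ P) [IsMonHom Φ] [IsIso Φ] (h : φ ≫ Φ = φ) :
    GBasis E φ J where
  k := b.k
  w j := b.w j ≫ Φ
  isIso := by
    have h1 := b.isIso
    have h2 : (Sigma.desc fun j => (φ ⊗ₘ (b.w j ≫ Φ)) ≫ μ[P]) =
        (Sigma.desc fun j => (φ ⊗ₘ b.w j) ≫ μ[P]) ≫ Φ := by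
      refine Sigma.hom_ext _ _ fun j => ?_
      rw [Sigma.ι_desc, Sigma.ι_desc_assoc, Category.assoc, IsMonHom.mul_hom,
        tensorHom_comp_tensorHom_assoc, h]
    rw [h2]
    infer_instance

/-- The retract of a basis: `r ≫ s` is the identity on the elements of `S` and zero on the
others. -/
def retBasis (b : GBasis E φ J) (S : J → Prop) (s : Q ⟶ P) (r : P ⟶ Q) [IsMonHom s] [IsMonHom r]
    (h1 : s ≫ r = 𝟙 Q) (h2 : φ ≫ r ≫ s = φ) (h3 : ∀ j, S j → b.w j ≫ r ≫ s = b.w j)
    (h4 : ∀ j, ¬ S j → b.w j ≫ r ≫ s = 0) (ψ : F ⟶ Q) (hψ : φ ≫ r = ψ) :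
    GBasis E ψ {j // S j} where
  k j := b.k j.1
  w j := b.w j.1 ≫ r
  isIso := by
    classical
    have hb := b.isIso
    set Θ := Sigma.desc fun j => (φ ⊗ₘ b.w j) ≫ μ[P] with hΘ
    let inc : (∐ fun j : {j // S j} => F ⊗ E.S (b.k j.1)) ⟶ ∐ fun j => F ⊗ E.S (b.k j) :=
      Sigma.desc fun j => Sigma.ι (fun j => F ⊗ E.S (b.k j)) j.1
    let pr : (∐ fun j => F ⊗ E.S (b.k j)) ⟶ (∐ fun j : {j // S j} => F ⊗ E.S (b.k j.1)) :=
      Sigma.desc fun j => if h : S j then
        Sigma.ι (fun j : {j // S j} => F ⊗ E.S (b.k j.1)) ⟨j, h⟩ else 0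
    have e1 : inc ≫ pr = 𝟙 _ := by
      refine Sigma.hom_ext _ _ fun j => ?_
      rw [Sigma.ι_desc_assoc, Sigma.ι_desc, dif_pos j.2, Category.comp_id]
    have e2 : Θ ≫ r ≫ s = pr ≫ inc ≫ Θ := by
      refine Sigma.hom_ext _ _ fun j => ?_
      rw [hΘ, Sigma.ι_desc_assoc, Sigma.ι_desc_assoc, Category.assoc, IsMonHom.mul_hom,
        tensorHom_comp_tensorHom_assoc, h2]
      by_cases h : S j
      · rw [h3 j h, dif_pos h, Sigma.ι_desc_assoc, Sigma.ι_desc]
      · rw [h4 j h, dif_neg h, zero_comp, MonoidalPreadditive.tensor_zero, zero_comp]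
    have e3 : (Sigma.desc fun j : {j // S j} => (ψ ⊗ₘ (b.w j.1 ≫ r)) ≫ μ[Q]) = inc ≫ Θ ≫ r := by
      refine Sigma.hom_ext _ _ fun j => ?_
      rw [Sigma.ι_desc, Sigma.ι_desc_assoc, hΘ, Sigma.ι_desc_assoc, Category.assoc,
        IsMonHom.mul_hom, tensorHom_comp_tensorHom_assoc, hψ]
    rw [e3]
    refine ⟨s ≫ inv Θ ≫ pr, ?_, ?_⟩
    · have e4 : (inc ≫ Θ ≫ r) ≫ s ≫ inv Θ ≫ pr = inc ≫ (Θ ≫ r ≫ s) ≫ inv Θ ≫ pr := by
        simp only [Category.assoc]
      rw [e4, e2]
      simp only [Category.assoc, IsIso.hom_inv_id_assoc]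
      rw [reassoc_of% e1, e1]
    · have e4 : (s ≫ inv Θ ≫ pr) ≫ inc ≫ Θ ≫ r = s ≫ inv Θ ≫ (pr ≫ inc ≫ Θ) ≫ r := by
        simp only [Category.assoc]
      rw [e4, ← e2]
      simp only [Category.assoc, IsIso.inv_hom_id_assoc]
      rw [h1, Category.comp_id, h1]

end ret

/-! ### coordinates adapted to the normalisation -/

section crd

variable {p : ℕ} {A A' : Type*} [CommRing A] [CommRing A']

open Classical in
/-- The coordinates of a strict series `w` adapted to the normalisation of `w • F`. -/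
def crd (p : ℕ) (F : Law A) (w : InvSeries A) (n : ℕ) : A :=
  if IsPw p n then (nf p (w • F) * w).c (n + 1) else (nf p (w • F)).c (n + 1)

open Classical in
/-- the strict series with the coefficients `z n`, `n + 2` not a power of `p` -/
def nn (p : ℕ) (z : ℕ → A) : InvSeries A := strictMk fun n => if IsPw p n then 0 else z n

theorem nn_mem (z : ℕ → A) : nn p z ∈ Vale.Agent.P251.F.strict A := strictMk_mem _

variable [hp : Fact p.Prime]

theorem crd_of_ext [PLoc p A] {F : Law A} {w w' : InvSeries A}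
    (hw : w ∈ Vale.Agent.P251.F.strict A) (hw' : w' ∈ Vale.Agent.P251.F.strict A)
    (h : crd p F w = crd p F w') : w = w' := by
  have e1 : nf p (w • F) = nf p (w' • F) := by
    refine InvSeries.ext_c fun n => ?_
    rcases n with _ | n
    · exact (show (nf p (w • F)).c 0 = 1 from nf_mem _).trans
        (show (nf p (w' • F)).c 0 = 1 from nf_mem _).symm
    · by_cases hn : IsPw p n
      · exact (c_nfS_pw _ _ hn).trans (c_nfS_pw _ _ hn).symm
      · have h1 := congrFun h n
        unfold crd at h1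
        rwa [if_neg hn, if_neg hn] at h1
  have e2 : nf p (w • F) * w = nf p (w' • F) * w' := by
    refine ext_of_isNF (p := p) F (mul_mem (nf_mem _) hw) (mul_mem (nf_mem _) hw') (fun n hn => ?_) ?_ ?_
    · have h1 := congrFun h n
      unfold crd at h1
      rwa [if_pos hn, if_pos hn] at h1
    · rw [mul_smul]
      exact isNF_nf _
    · rw [mul_smul]
      exact isNF_nf _
  rw [e1] at e2
  exact mul_left_cancel e2

theorem crd_nn [PLoc p A] (F : Law A) (z : ℕ → A) :
    crd p F ((nn p z)⁻¹ * nfS p F z) = z := by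
  have hn : nf p (((nn p z)⁻¹ * nfS p F z) • F) = nn p z := by
    refine (eq_nfS _ 0 (nn_mem z) (fun n hn => ?_) ?_).symm
    · rw [nn, c_succ_strictMk, if_pos hn]
      rfl
    · rw [mul_smul, smul_inv_smul]
      exact isNF_nfS F z
  funext n
  unfold crd
  rw [hn, mul_inv_cancel_left]
  split_ifs with h
  · exact c_nfS_pw F z h
  · rw [nn, c_succ_strictMk, if_neg h]

theorem map_crd [PLoc p A] (φ : A →+* A') (F : Law A) (w : InvSeries A) (n : ℕ) :
    φ (crd p F w n) = crd p (F.map φ) (InvSeries.map φ w) n := by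
  have h1 : InvSeries.map φ (nf p (w • F)) = nf p (InvSeries.map φ w • F.map φ) := by
    rw [map_nf, InvSeries.map_smul]
  unfold crd
  split_ifs with h
  · rw [← h1, ← map_mul, InvSeries.c_map]
  · rw [← h1, InvSeries.c_map]

end crd

section coords

variable {D : MUData T} {p : ℕ} [hp : Fact p.Prime] {K : T} [MonObj K] [IsCommMonObj K]

/-- the strict series with given homogeneous coefficients -/
theorem isHg_strictMk {z : ℕ → HRing (stdEven T) K}
    (hz : ∀ n : ℕ, IsHg ((n + 1 : ℕ) : ℤ) (z n)) (m : ℕ) : IsHg (m : ℤ) ((strictMk z).c m) := by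
  rcases m with _ | m
  · rw [c_zero_strictMk]
    exact isHg_one
  · rw [c_succ_strictMk]
    exact hz m

/-- coordinates of a series `ser f g` -/
theorem crd_ser (f g g' : D.R ⟶ K) [IsMonHom f] [IsMonHom g] [IsMonHom g']
    (h : ser g g' = nf p (lawOf g)) (n : ℕ) :
    crd p (lawOf f) (ser f g) n =
      open Classical in if IsPw p n then (ser f g').c (n + 1) else (ser g g').c (n + 1) := by
  unfold crd
  rw [ser_smul, ← h, ser_mul]

variable {F : SpaceFunctor T} {e : F.S.obj CCF ≅ (stdEven T).L} (H : MUUniv e D)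

include H

theorem isHg_crd (hK : IsPLocal p K) (f g : D.R ⟶ K) [IsMonHom f] [IsMonHom g] (n : ℕ) :
    IsHg ((n + 1 : ℕ) : ℤ) (crd p (lawOf f) (ser f g) n) := by
  obtain ⟨g', hg', h⟩ := exists_nf H hK g
  rw [crd_ser f g g' h]
  split_ifs
  · exact isHg_ser f g' (n + 1)
  · exact isHg_ser g g' (n + 1)

/-- all homogeneous coordinates occur -/
theorem exists_crd (hK : IsPLocal p K) (f : D.R ⟶ K) [IsMonHom f]
    (z : ℕ → HRing (stdEven T) K) (hz : ∀ n : ℕ, IsHg ((n + 1 : ℕ) : ℤ) (z n)) :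
    ∃ g : D.R ⟶ K, ∃ _ : IsMonHom g, crd p (lawOf f) (ser f g) = z := by
  have := pLoc_HRing (E := stdEven T) hK
  obtain ⟨g, hg, h1⟩ := exists_ser f H (nfS p (lawOf f) z) (isHg_nfS H hK f z hz) (nfS_mem _ _)
  obtain ⟨g2, hg2, h2⟩ := exists_ser g H (nn p z) (isHg_strictMk fun n => by
    split_ifs
    · exact isHg_zero _
    · exact hz n) (nn_mem z)
  obtain ⟨g3, hg3, h3⟩ := exists_ser g H (nn p z)⁻¹ (by
    rw [← h2, ser_inv]
    exact isHg_ser g2 g) (inv_mem (nn_mem z))
  refine ⟨g3, hg3, ?_⟩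
  rw [← ser_mul f g g3, h1, h3, crd_nn]

theorem eq_of_crd (hK : IsPLocal p K) (f g g' : D.R ⟶ K) [IsMonHom f] [IsMonHom g] [IsMonHom g']
    (h : crd p (lawOf f) (ser f g) = crd p (lawOf f) (ser f g')) : g = g' := by
  have := pLoc_HRing (E := stdEven T) hK
  exact eq_of_ser f g g' H (crd_of_ext (ser_strict _ _) (ser_strict _ _) h)

end coords

end Vale.Agent.P257.V4.B
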