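import Vale.Agent.P257.V4.B.NF1
import Vale.Agent.P251.F.Height

/-!
# P257, part B-iv: sparseness and the right unit in characteristic `p`

`F` a normal law over a ring in which `p = 0`, `g` a strict series with `g • F` normal.
* `sparse_law`, `sparse_mult`, `sparse_iso`: the coefficients of `F`, `[m]_F`, `g` in degrees
  `n + 1` with `n` not divisible by `p - 1` vanish;
* `vv_smul`: `v_k (g • F) = v_k F` if `v_j F = 0` for `j < k`;
* `right_unit`: for `k ≥ 1` and `v_j F = 0` for `j < k`,
  `v_{k+1} (g • F) + v_k F * t ^ (p ^ k) = v_{k+1} F + t * v_k F ^ p`, `t` the coefficient of `g`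
  at `x ^ p`.
-/

noncomputable section

namespace Vale.Agent.P257.V4.B

open Vale.Agent.P217 Vale.Agent.P251.F

variable {p : ℕ} {B : Type*} [CommRing B]

/-! ### a root of unity which separates the weights modulo `p - 1` -/

/-- the group algebra of `ℤ/(p-1)` -/
abbrev GA (p : ℕ) (B : Type*) [CommRing B] : Type _ :=
  MonoidAlgebra B (Multiplicative (ZMod (p - 1)))

/-- the generator of the group as a unit -/
def gau (p : ℕ) (B : Type*) [CommRing B] : (GA p B)ˣ :=
  Units.map (MonoidAlgebra.of B (Multiplicative (ZMod (p - 1))))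
    (toUnits (Multiplicative.ofAdd (1 : ZMod (p - 1))))

theorem gau_pow_val (n : ℕ) : ((gau p B : (GA p B)ˣ) : GA p B) ^ n =
    MonoidAlgebra.single (Multiplicative.ofAdd (n : ZMod (p - 1))) 1 := by
  rw [gau, Units.coe_map, val_toUnits_apply]
  change (MonoidAlgebra.of B (Multiplicative (ZMod (p - 1))))
    (Multiplicative.ofAdd (1 : ZMod (p - 1))) ^ n = _
  rw [← map_pow, MonoidAlgebra.of_apply, ← ofAdd_nsmul, nsmul_one]

theorem gau_pow_eq_one {n : ℕ} (h : (p - 1) ∣ n) : ((gau p B : (GA p B)ˣ) : GA p B) ^ n = 1 := by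
  rw [gau_pow_val, (ZMod.natCast_eq_zero_iff n (p - 1)).2 h]
  rfl

/-- the inclusion of the coefficients -/
def gai (p : ℕ) (B : Type*) [CommRing B] : B →+* GA p B := algebraMap B (GA p B)

theorem eq_zero_of_gau {n : ℕ} (h : ¬ (p - 1) ∣ n) {a : B}
    (ha : ((gau p B : (GA p B)ˣ) : GA p B) ^ n * gai p B a = gai p B a) : a = 0 := by
  have h0 : Multiplicative.ofAdd (n : ZMod (p - 1)) ≠ 1 := by
    intro h1
    exact h ((ZMod.natCast_eq_zero_iff n (p - 1)).1 (ofAdd_eq_one.1 h1))
  have h1 : gai p B a = MonoidAlgebra.single 1 a := rfl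
  rw [gau_pow_val, h1, MonoidAlgebra.single_mul_single, mul_one, one_mul] at ha
  have h2 : (MonoidAlgebra.single (Multiplicative.ofAdd (n : ZMod (p - 1))) a : GA p B).coeff 1 =
      (MonoidAlgebra.single 1 a : GA p B).coeff 1 := by rw [ha]
  rw [MonoidAlgebra.coeff_single, MonoidAlgebra.coeff_single, Finsupp.single_eq_same,
    Finsupp.single_apply, if_neg h0] at h2
  exact h2.symm

theorem gai_zero (hB : (p : B) = 0) : ((p : ℕ) : GA p B) = 0 := by
  rw [← map_natCast (gai p B), hB, map_zero]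

variable [hp : Fact p.Prime]

omit hp in
theorem sub_one_dvd (k : ℕ) : (p - 1) ∣ p ^ k - 1 := by
  simpa using Nat.sub_dvd_pow_sub_pow p 1 k

/-! ### sparseness -/

/-- normal laws are fixed by the rescaling with `gau`. -/
theorem lin_gau_smul (hB : (p : B) = 0) {F : Law B} (hF : IsNF p F) :
    InvSeries.lin (gau p B) • F.map (gai p B) = F.map (gai p B) := by
  refine lin_smul_eq_self (p := p) (gai_zero hB) _ _ fun n => ?_
  by_cases h : IsPw p n
  · obtain ⟨k, hk⟩ := h
    have h1 : n + 1 = p ^ k - 1 := by omega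
    rw [gau_pow_eq_one (by rw [h1]; exact sub_one_dvd k), one_mul]
  · rw [yF_eq_xC _ h, (hF.map (gai p B)) n h, mul_zero]

theorem sparse_law (hB : (p : B) = 0) {F : Law B} (hF : IsNF p F) {n i j : ℕ}
    (hij : i + j = n + 1) (hn : ¬ (p - 1) ∣ n) : MvPowerSeries.coeff (e2 i j) F.ps = 0 := by
  refine eq_zero_of_gau (p := p) hn ?_
  have h := pow_mul_coeff_of_lin_smul (lin_gau_smul hB hF) hij
  rwa [Law.map_ps, MvPowerSeries.coeff_map] at h

theorem sparse_mult (hB : (p : B) = 0) {F : Law B} (hF : IsNF p F) {n : ℕ} (m : ℕ)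
    (hn : ¬ (p - 1) ∣ n) : PowerSeries.coeff (n + 1) (multSeries F.toFG m) = 0 := by
  refine eq_zero_of_gau (p := p) hn ?_
  have h := coeff_multSeries_lin_inv_smul (gau p B) (F.map (gai p B)) m n
  have h1 : (InvSeries.lin (gau p B))⁻¹ • F.map (gai p B) = F.map (gai p B) := by
    rw [inv_smul_eq_iff, lin_gau_smul hB hF]
  rw [h1, Law.map_toFG, ← map_multSeries, PowerSeries.coeff_map] at h
  exact h.symm

theorem c_conj_lin (u : Bˣ) (g : InvSeries B) (m : ℕ) :
    ((InvSeries.lin u)⁻¹ * g * InvSeries.lin u).c m = (u : B) ^ m * g.c m := by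
  rw [← map_inv]
  have h1 : (InvSeries.lin u⁻¹ * g).val = PowerSeries.C ((u⁻¹ : Bˣ) : B) * g.val := by
    rw [InvSeries.mul_val, InvSeries.lin_val, PowerSeries.subst_mul g.hs, PowerSeries.subst_X g.hs,
      PowerSeries.subst_C]
    rfl
  rw [InvSeries.c, InvSeries.mul_val, h1, InvSeries.lin_val]
  have h2 : PowerSeries.subst (PowerSeries.C (u : B) * PowerSeries.X)
      (PowerSeries.C ((u⁻¹ : Bˣ) : B) * g.val) =
      PowerSeries.rescale (u : B) (PowerSeries.C ((u⁻¹ : Bˣ) : B) * g.val) := by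
    rw [PowerSeries.rescale_eq_subst, PowerSeries.smul_eq_C_mul]
  rw [h2, PowerSeries.coeff_rescale, PowerSeries.coeff_C_mul, InvSeries.c, pow_succ]
  calc (u : B) ^ m * (u : B) * (((u⁻¹ : Bˣ) : B) * (PowerSeries.coeff (m + 1)) g.val) =
      (u : B) ^ m * ((u : B) * ((u⁻¹ : Bˣ) : B)) * (PowerSeries.coeff (m + 1)) g.val := by ring
    _ = (u : B) ^ m * (PowerSeries.coeff (m + 1)) g.val := by
      rw [Units.mul_inv, mul_one]

theorem sparse_iso (hB : (p : B) = 0) {F : Law B} {g : InvSeries B} (hg : g ∈ strict B)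
    (hF : IsNF p F) (hgF : IsNF p (g • F)) {n : ℕ} (hn : ¬ (p - 1) ∣ n) : g.c n = 0 := by
  refine eq_zero_of_gau (p := p) hn ?_
  have := PLoc.of_zero (gai_zero hB)
  set u := gau p B
  set g' := InvSeries.map (gai p B) g with hg'
  have h1 : (InvSeries.lin u)⁻¹ * g' * InvSeries.lin u = g' := by
    refine ext_of_isNF (p := p) (F.map (gai p B)) ?_ (map_mem_strict _ hg) (fun m hm => ?_) ?_ ?_
    · have h := (strict_normal (B := GA p B)).conj_mem g' (map_mem_strict _ hg)
        (InvSeries.lin u)⁻¹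
      rwa [inv_inv] at h
    · obtain ⟨k, hk⟩ := hm
      rw [c_conj_lin, gau_pow_eq_one (by
        rw [show m + 1 = p ^ k - 1 by omega]; exact sub_one_dvd k), one_mul]
    · rw [mul_smul, lin_gau_smul hB hF, mul_smul, hg', ← InvSeries.map_smul, inv_smul_eq_iff.2
        (lin_gau_smul hB hgF).symm]
      exact hgF.map _
    · rw [hg', ← InvSeries.map_smul]
      exact hgF.map _
  have h2 := c_conj_lin u g' n
  rw [h1, hg', InvSeries.c_map] at h2
  exact h2.symm

/-! ### the right unit -/

/-- a series without coefficients strictly between two degrees -/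
theorem exists_two_terms {f : PowerSeries B} {a b : ℕ} (hab : a < b)
    (h : ∀ n < b, n ≠ a → PowerSeries.coeff n f = 0) :
    ∃ h : PowerSeries B, f = PowerSeries.C (PowerSeries.coeff a f) * PowerSeries.X ^ a +
      PowerSeries.C (PowerSeries.coeff b f) * PowerSeries.X ^ b + PowerSeries.X ^ (b + 1) * h := by
  have h1 : (PowerSeries.X : PowerSeries B) ^ (b + 1) ∣
      f - (PowerSeries.C (PowerSeries.coeff a f) * PowerSeries.X ^ a +
        PowerSeries.C (PowerSeries.coeff b f) * PowerSeries.X ^ b) := by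
    rw [PowerSeries.X_pow_dvd_iff]
    intro n hn
    rw [map_sub, map_add, PowerSeries.coeff_C_mul, PowerSeries.coeff_C_mul,
      PowerSeries.coeff_X_pow, PowerSeries.coeff_X_pow]
    rcases eq_or_ne n a with rfl | h2
    · rw [if_pos rfl, if_neg hab.ne]
      ring
    · rw [if_neg h2]
      rcases eq_or_ne n b with rfl | h3
      · rw [if_pos rfl]
        ring
      · rw [if_neg h3, h n (by omega) h2]
        ring
  obtain ⟨k, hk⟩ := h1
  exact ⟨k, by rw [← hk]; ring⟩

theorem vv_smul {F : Law B} {g : InvSeries B} (hg : g ∈ strict B) {k : ℕ}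
    (hv : ∀ j < k, vv p j F = 0) : (∀ j < k, vv p j (g • F) = 0) ∧ vv p k (g • F) = vv p k F := by
  have h := vF_invariant p (InvSeries.isIso_smul g F) k hv
  have h1 : PowerSeries.coeff 1 g.val = 1 := mem_strict.1 hg
  refine ⟨h.1, ?_⟩
  have h2 := h.2
  rw [h1, one_pow, one_mul, one_mul] at h2
  exact h2

/-- the coefficients of `[p]_F` below `x ^ (p ^ (k + 1))` -/
theorem coeff_mult_eq_zero (hB : (p : B) = 0) {F : Law B} (hF : IsNF p F) {k : ℕ}
    (hv : ∀ j < k, vv p j F = 0) {n : ℕ} (hn : n < p ^ (k + 1)) (hn' : n ≠ p ^ k) :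
    PowerSeries.coeff n (multSeries F.toFG p) = 0 := by
  by_cases h1 : p ^ k ∣ n
  · obtain ⟨m, rfl⟩ := h1
    rcases Nat.eq_zero_or_pos m with rfl | hm
    · rw [mul_zero, PowerSeries.coeff_zero_eq_constantCoeff_apply, constantCoeff_multSeries]
    · have hp1 : 0 < p ^ k := pow_pos hp.out.pos k
      have h2 : m ≠ 1 := by
        rintro rfl
        exact hn' (mul_one _)
      have h3 : m < p := by
        rw [pow_succ] at hn
        exact lt_of_mul_lt_mul_left hn (Nat.zero_le _)
      have h4 : 0 < p ^ k * m := Nat.mul_pos hp1 hm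
      obtain ⟨n, hn⟩ := Nat.exists_eq_succ_of_ne_zero h4.ne'
      rw [hn]
      refine sparse_mult hB hF p fun h5 => ?_
      have h6 : n = p ^ k * m - 1 := by omega
      have h7 : p ^ k * m - 1 = (p ^ k - 1) * m + (m - 1) := by
        zify [hp1, hm, h4, Nat.one_le_iff_ne_zero]
        ring
      rw [h6, h7, Nat.dvd_add_right ((sub_one_dvd k).mul_right m)] at h5
      have h8 := Nat.le_of_dvd (by omega) h5
      omega
  · exact coeff_multSeries_eq_zero p F.toFG k hv n h1

theorem right_unit {F : Law B} {g : InvSeries B} (hg : g ∈ strict B) (hF : IsNF p F)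
    (hgF : IsNF p (g • F)) {k : ℕ} (hk : 0 < k) (hv : ∀ j < k, vv p j F = 0) :
    vv p (k + 1) (g • F) + vv p k F * g.c (p - 1) ^ p ^ k =
      vv p (k + 1) F + g.c (p - 1) * vv p k F ^ p := by
  have hB : (p : B) = 0 := by
    rw [← vv_zero p F]
    exact hv 0 hk
  obtain ⟨hv', hvk⟩ := vv_smul hg hv
  have hp1 : p - 1 + 1 = p := Nat.sub_add_cancel hp.out.one_lt.le
  have hpp : 1 < p := hp.out.one_lt
  have hq : p ^ k < p ^ (k + 1) := Nat.pow_lt_pow_right hpp (by omega)
  obtain ⟨a, ha⟩ := exists_two_terms (f := multSeries F.toFG p) hq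
    (fun n hn hn' => coeff_mult_eq_zero hB hF hv hn hn')
  obtain ⟨a', ha'⟩ := exists_two_terms (f := multSeries (g • F).toFG p) hq
    (fun n hn hn' => coeff_mult_eq_zero hB hgF hv' hn hn')
  obtain ⟨b, hb⟩ := exists_two_terms (f := g.val) hpp (fun n hn hn' => by
    rcases Nat.eq_zero_or_pos n with rfl | h0
    · rw [PowerSeries.coeff_zero_eq_constantCoeff_apply]
      exact g.cc
    · obtain ⟨m, rfl⟩ := Nat.exists_eq_succ_of_ne_zero h0.ne'
      refine sparse_iso hB hg hF hgF (n := m) fun h => ?_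
      have := Nat.le_of_dvd (by omega) h
      omega)
  have hg1 : PowerSeries.coeff 1 g.val = 1 := mem_strict.1 hg
  have hgp : PowerSeries.coeff p g.val = g.c (p - 1) := by rw [InvSeries.c, hp1]
  rw [hg1, hgp, map_one, one_mul, pow_one] at hb
  set t := g.c (p - 1) with ht
  change _ = PowerSeries.C (vv p k F) * _ + PowerSeries.C (vv p (k + 1) F) * _ + _ at ha
  change _ = PowerSeries.C (vv p k (g • F)) * _ + PowerSeries.C (vv p (k + 1) (g • F)) * _ + _
    at ha'
  rw [hvk] at ha'
  have key := congrArg (PowerSeries.coeff (p ^ (k + 1))) (smul_multSeries g F p)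
  rcases subsingleton_or_nontrivial B with hs | hs
  · exact Subsingleton.elim _ _
  have hBB : ((p : ℕ) : PowerSeries B) = 0 := by
    rw [← map_natCast (PowerSeries.C (R := B)), hB, map_zero]
  have hchar : CharP (PowerSeries B) p := (CharP.charP_iff_prime_eq_zero hp.out).2 hBB
  have hpq : p ^ (k + 1) = p ^ k * p := pow_succ p k
  have hp0 : 0 < p ^ k := pow_pos hp.out.pos k
  -- the left hand side
  set A := multSeries F.toFG p with hA
  have hAs : PowerSeries.HasSubst A := hasSubst_of_cc (constantCoeff_multSeries _ _)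
  have hA1 : ∃ A1 : PowerSeries B, A = PowerSeries.X ^ p ^ k * A1 ∧
      PowerSeries.constantCoeff A1 = vv p k F := by
    refine ⟨PowerSeries.C (vv p k F) + PowerSeries.C (vv p (k + 1) F) *
      PowerSeries.X ^ (p ^ (k + 1) - p ^ k) + PowerSeries.X ^ (p ^ (k + 1) + 1 - p ^ k) * a,
      ?_, ?_⟩
    · conv_lhs => rw [ha]
      have e1 : (PowerSeries.X : PowerSeries B) ^ p ^ (k + 1) =
          PowerSeries.X ^ p ^ k * PowerSeries.X ^ (p ^ (k + 1) - p ^ k) := by
        rw [← pow_add]
        congr 1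
        omega
      have e2 : (PowerSeries.X : PowerSeries B) ^ (p ^ (k + 1) + 1) =
          PowerSeries.X ^ p ^ k * PowerSeries.X ^ (p ^ (k + 1) + 1 - p ^ k) := by
        rw [← pow_add]
        congr 1
        omega
      rw [e1, e2]
      ring
    · rw [map_add, map_add, map_mul, map_mul, map_pow, map_pow, PowerSeries.constantCoeff_X,
        zero_pow (by omega), zero_pow (by omega), mul_zero, zero_mul, add_zero, add_zero,
        PowerSeries.constantCoeff_C]
  obtain ⟨A1, hA1, hA1c⟩ := hA1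
  have hL : PowerSeries.coeff (p ^ (k + 1)) (PowerSeries.subst A g.val : PowerSeries B) =
      vv p (k + 1) F + t * vv p k F ^ p := by
    rw [hb, PowerSeries.subst_add hAs, PowerSeries.subst_add hAs, PowerSeries.subst_mul hAs,
      PowerSeries.subst_mul hAs, PowerSeries.subst_pow hAs, PowerSeries.subst_pow hAs,
      PowerSeries.subst_X hAs, PowerSeries.subst_C, map_add, map_add]
    have e1 : PowerSeries.coeff (p ^ (k + 1)) (A ^ p) = vv p k F ^ p := by
      rw [hA1, mul_pow, ← pow_mul, ← hpq, PowerSeries.coeff_X_pow_mul', if_pos le_rfl,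
        Nat.sub_self, PowerSeries.coeff_zero_eq_constantCoeff_apply, map_pow, hA1c]
    have e2 : PowerSeries.coeff (p ^ (k + 1))
        (A ^ (p + 1) * (PowerSeries.subst A b : PowerSeries B)) = 0 := by
      rw [hA1, mul_pow, ← pow_mul, mul_assoc, PowerSeries.coeff_X_pow_mul', if_neg]
      rw [hpq]
      intro h
      have := le_of_mul_le_mul_left h hp0
      omega
    have e3 : PowerSeries.coeff (p ^ (k + 1)) (PowerSeries.C t * A ^ p) = t * vv p k F ^ p := by
      rw [PowerSeries.coeff_C_mul, e1]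
    have e4 : (MvPowerSeries.C t : MvPowerSeries Unit B) = PowerSeries.C t := rfl
    rw [e4, e3, e2, add_zero]
    rfl
  -- the right hand side
  have hR : PowerSeries.coeff (p ^ (k + 1)) (PowerSeries.subst g.val
      (multSeries (g • F).toFG p) : PowerSeries B) =
      vv p (k + 1) (g • F) + vv p k F * t ^ p ^ k := by
    have hgs := g.hs
    rw [ha', PowerSeries.subst_add hgs, PowerSeries.subst_add hgs, PowerSeries.subst_mul hgs,
      PowerSeries.subst_mul hgs, PowerSeries.subst_mul hgs, PowerSeries.subst_pow hgs,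
      PowerSeries.subst_pow hgs, PowerSeries.subst_pow hgs,
      PowerSeries.subst_X hgs, PowerSeries.subst_C, PowerSeries.subst_C, map_add, map_add]
    obtain ⟨g1, hg1'⟩ : ∃ g1 : PowerSeries B, g.val = PowerSeries.X * g1 ∧
        PowerSeries.constantCoeff g1 = 1 := by
      obtain ⟨g1, h1⟩ := PowerSeries.X_dvd_iff.2 g.cc
      refine ⟨g1, h1, ?_⟩
      rw [← hg1, h1, ← zero_add 1, PowerSeries.coeff_succ_X_mul,
        PowerSeries.coeff_zero_eq_constantCoeff_apply]
    have e1 : PowerSeries.coeff (p ^ (k + 1)) (g.val ^ p ^ (k + 1) : PowerSeries B) = 1 := by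
      rw [hg1'.1, mul_pow, PowerSeries.coeff_X_pow_mul', if_pos le_rfl, Nat.sub_self,
        PowerSeries.coeff_zero_eq_constantCoeff_apply, map_pow, hg1'.2, one_pow]
    have e2 : PowerSeries.coeff (p ^ (k + 1)) (g.val ^ (p ^ (k + 1) + 1) *
        (PowerSeries.subst g.val a' : PowerSeries B) : PowerSeries B) = 0 := by
      rw [hg1'.1, mul_pow, mul_assoc, PowerSeries.coeff_X_pow_mul', if_neg (by omega)]
    have e3 : PowerSeries.coeff (p ^ (k + 1)) (g.val ^ p ^ k : PowerSeries B) = t ^ p ^ k := by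
      rw [hb, add_pow_char_pow, add_pow_char_pow, mul_pow, mul_pow, ← pow_mul, ← pow_mul,
        map_add, map_add, PowerSeries.coeff_X_pow, if_neg hq.ne', ← map_pow,
        PowerSeries.coeff_C_mul, PowerSeries.coeff_X_pow, mul_comm p, ← hpq, if_pos rfl,
        PowerSeries.coeff_X_pow_mul', if_neg, zero_add, mul_one, add_zero]
      rw [hpq, mul_comm]
      intro h
      have := le_of_mul_le_mul_left h hp0
      omega
    have e4 : (MvPowerSeries.C (vv p k F) : MvPowerSeries Unit B) =
      PowerSeries.C (vv p k F) := rfl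
    have e5 : (MvPowerSeries.C (vv p (k + 1) (g • F)) : MvPowerSeries Unit B) =
      PowerSeries.C (vv p (k + 1) (g • F)) := rfl
    rw [e4, e5, e2, PowerSeries.coeff_C_mul, PowerSeries.coeff_C_mul, e3, e1]
    ring
  rw [hL, hR] at key
  exact key.symm

end Vale.Agent.P257.V4.B

end
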