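import Vale.Agent.P257.V4.B.NF3
import Vale.Agent.P257.V4.B.RightUnit

/-!
# P257, part B-iv: invariance of `v_k` and the right unit in the cobar complex of `B`

In `NB p s` (functions on normal chains over `F_p`-algebras), `NB.v m = v_{m+1}`, `t₁ = NB.t 0 0`.
For every ideal `I` containing `NB.v j`, `j < m` (so modulo `(v_1, …, v_m)`):
* `NB.map_v_sub_mem_of` : all vertices give the same `v_{m+1}`;
* `NB.d_v_add_mem` : `d v_{m+2} + v_{m+1} a ∈ I`, `a = aN p m = t₁^{p^{m+1}} - v_{m+1}^{p-1} t₁`;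
* `NB.d_aN_mem` : `d a ∈ I`.
The same for the cochains `tL p`, `aL p m : Cob Laz 1`, which are homogeneous of weights `p - 1`,
`(p - 1) p^{m+1}`.
-/

noncomputable section

namespace Vale.Agent.P257.V4.B

open Vale.Agent.P217 Vale.Agent.P251.F

variable {p : ℕ} [hp : Fact p.Prime] {B C : Type} [CommRing B] [CommRing C] {m n s : ℕ}

/-! ### pointwise -/

/-- `v_k` at the vertices of a chain of height `≥ k` -/
theorem vv_vertex (c : Chain Laz s B) {k : ℕ} (hv : ∀ j < k, vv p j (c.vertex 0) = 0)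
    (i : Fin (s + 1)) :
    (∀ j < k, vv p j (c.vertex i) = 0) ∧ vv p k (c.vertex i) = vv p k (c.vertex 0) := by
  rw [vertex_zero] at hv ⊢
  exact vv_smul (c.strict i) hv

/-- the coefficient of `x ^ p` of a composite of sparse strict series -/
theorem c_mul_of_sparse {g h : InvSeries B} (hg : g ∈ strict B) (hh : h ∈ strict B) {k : ℕ}
    (hk : 0 < k) (hg0 : ∀ j, 0 < j → j < k → g.c j = 0) (hh0 : ∀ j, 0 < j → j < k → h.c j = 0) :
    (g * h).c k = g.c k + h.c k := by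
  have hc : ∀ {f : InvSeries B}, f ∈ strict B → (∀ j, 0 < j → j < k → f.c j = 0) →
      ∃ a : PowerSeries B, f.val = PowerSeries.X + PowerSeries.C (f.c k) *
        PowerSeries.X ^ (k + 1) + PowerSeries.X ^ (k + 1 + 1) * a := by
    intro f hf h0
    obtain ⟨a, ha⟩ := exists_two_terms (f := f.val) (a := 1) (b := k + 1) (by omega)
      (fun j hj hj' => by
        rcases Nat.eq_zero_or_pos j with rfl | h1
        · rw [PowerSeries.coeff_zero_eq_constantCoeff_apply]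
          exact f.cc
        · obtain ⟨i, rfl⟩ := Nat.exists_eq_succ_of_ne_zero h1.ne'
          exact h0 i (by omega) (by omega))
    refine ⟨a, ?_⟩
    have h1 : PowerSeries.coeff 1 f.val = 1 := mem_strict.1 hf
    rw [h1, map_one, one_mul, pow_one] at ha
    exact ha
  obtain ⟨a, ha⟩ := hc hg hg0
  obtain ⟨b, hb⟩ := hc hh hh0
  have hhs := h.hs
  obtain ⟨h1, hh1, hh1c⟩ : ∃ h1 : PowerSeries B, h.val = PowerSeries.X * h1 ∧
      PowerSeries.constantCoeff h1 = 1 := by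
    obtain ⟨h1, h2⟩ := PowerSeries.X_dvd_iff.2 h.cc
    refine ⟨h1, h2, ?_⟩
    have h3 : PowerSeries.coeff 1 h.val = 1 := mem_strict.1 hh
    rw [← h3, h2, ← zero_add 1, PowerSeries.coeff_succ_X_mul,
      PowerSeries.coeff_zero_eq_constantCoeff_apply]
  rw [InvSeries.c, InvSeries.mul_val, ha, PowerSeries.subst_add hhs, PowerSeries.subst_add hhs,
    PowerSeries.subst_mul hhs, PowerSeries.subst_mul hhs, PowerSeries.subst_pow hhs,
    PowerSeries.subst_pow hhs, PowerSeries.subst_X hhs, PowerSeries.subst_C, map_add, map_add]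
  have e1 : PowerSeries.coeff (k + 1) (h.val ^ (k + 1) : PowerSeries B) = 1 := by
    rw [hh1, mul_pow, PowerSeries.coeff_X_pow_mul', if_pos le_rfl, Nat.sub_self,
      PowerSeries.coeff_zero_eq_constantCoeff_apply, map_pow, hh1c, one_pow]
  have e2 : PowerSeries.coeff (k + 1) (h.val ^ (k + 1 + 1) *
      (PowerSeries.subst h.val a : PowerSeries B) : PowerSeries B) = 0 := by
    rw [hh1, mul_pow, mul_assoc, PowerSeries.coeff_X_pow_mul', if_neg (by omega)]
  have e4 : (MvPowerSeries.C (g.c k) : MvPowerSeries Unit B) = PowerSeries.C (g.c k) := rfl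
  rw [e4, e2, PowerSeries.coeff_C_mul, e1, mul_one, add_zero, add_comm]
  rfl

/-- the coefficient of `x ^ p` is additive on normal chains -/
theorem c_add_of_isNCh (hB : (p : B) = 0) {F : Law B} {g h : InvSeries B} (hg : g ∈ strict B)
    (hh : h ∈ strict B) (hF : IsNF p F) (hhF : IsNF p (h • F)) (hgF : IsNF p (g • h • F)) :
    (g * h).c (p - 1) = g.c (p - 1) + h.c (p - 1) := by
  have hpp : 1 < p := hp.out.one_lt
  refine c_mul_of_sparse hg hh (by omega) (fun j h1 h2 => ?_) (fun j h1 h2 => ?_)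
  · exact sparse_iso hB hg hhF hgF fun h3 => by
      have := Nat.le_of_dvd h1 h3
      omega
  · exact sparse_iso hB hh hF hhF fun h3 => by
      have := Nat.le_of_dvd h1 h3
      omega

/-! ### in `NB p s` -/

section NB

/-- the universal normal chain modulo an ideal -/
def UQ (I : Ideal (NB p s)) : Chain Laz s (NB p s ⧸ I) := (UN p s).map (Ideal.Quotient.mk I)

theorem isNCh_UQ (I : Ideal (NB p s)) : IsNCh p (UQ I) := isNCh_UN.map _

theorem mem_iff_evN_UQ (I : Ideal (NB p s)) (x : NB p s) : x ∈ I ↔ evN p (UQ I) x = 0 := by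
  rw [UQ, evN_map_apply, evN_UN, RingHom.id_apply, Ideal.Quotient.eq_zero_iff_mem]

theorem vv_UQ (I : Ideal (NB p s)) {k : ℕ} (hI : ∀ j < k, (NB.v j : NB p s) ∈ I) :
    ∀ j < k + 1, vv p j ((UQ I).vertex 0) = 0 := by
  rintro (_ | j) hj
  · rw [vv_zero]
    exact p_eq_zero p _
  · rw [vertex_zero, ← evN_v (p := p) (UQ I) j]
    exact (mem_iff_evN_UQ I _).1 (hI j (by omega))

theorem evN_v' {B : Type} [CommRing B] [Algebra (ZMod p) B] (c : Chain Laz s B) (k : ℕ) :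
    evN p c (NB.v k) = vv p (k + 1) (c.vertex 0) := by
  rw [evN_v, vertex_zero]

/-- `t_1` of the edge from the vertex `0` to the vertex `i + 1`. -/
theorem evN_t' {B : Type} [CommRing B] [Algebra (ZMod p) B] (c : Chain Laz s B) (i : Fin s) :
    evN p c (NB.t i 0) = (c.g i.succ).c (p - 1) := by
  rw [evN_t, ix_add_one hp.out, zero_add, pow_one]

/-- Modulo `(v_1, …, v_k)` all vertices have the same `v_{k+1}`. -/
theorem NB.map_v_sub_mem_of (α : Fin (m + 1) → Fin (n + 1)) (k : ℕ) (I : Ideal (NB p n))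
    (hI : ∀ j < k, (NB.v j : NB p n) ∈ I) : NB.map α (NB.v k) - NB.v k ∈ I := by
  rw [mem_iff_evN_UQ, map_sub, evN_res (isNCh_UQ I), evN_v', evN_v', vertex_res,
    (vv_vertex _ (vv_UQ I hI) _).2, sub_self]

/-- the cochain `a = t₁^{p^{k+1}} - v_{k+1}^{p-1} t₁` -/
def aN (p k : ℕ) : NB p 1 := NB.t 0 0 ^ p ^ (k + 1) - NB.v k ^ (p - 1) * NB.t 0 0

/-- **The right unit**: `d v_{k+2} = - v_{k+1} a` modulo `(v_1, …, v_k)`. -/
theorem NB.d_v_add_mem (k : ℕ) (I : Ideal (NB p 1)) (hI : ∀ j < k, (NB.v j : NB p 1) ∈ I) :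
    NB.d p 0 (NB.v (k + 1)) + NB.v k * aN p k ∈ I := by
  set c := UQ I with hc
  have hn := isNCh_UQ I
  have h0 := vv_UQ I hI
  rw [mem_iff_evN_UQ, ← hc, NB.d_apply, Fin.sum_univ_two]
  have e : evN p c (NB.v k * aN p k) = vv p (k + 1) (c.vertex 0) *
      ((c.g 1).c (p - 1) ^ p ^ (k + 1) - vv p (k + 1) (c.vertex 0) ^ (p - 1) *
        (c.g 1).c (p - 1)) := by
    rw [aN, map_mul, map_sub, map_mul, map_pow, map_pow, evN_v', evN_t']
    rfl
  rw [map_add, map_add, e, map_zsmul, map_zsmul, evN_res hn, evN_res hn, evN_v', evN_v',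
    vertex_res, vertex_res]
  have e1 : c.vertex (Fin.succAbove 0 0) = c.g 1 • c.vertex 0 := by
    rw [vertex_zero]
    rfl
  have e2 : c.vertex (Fin.succAbove 1 0) = c.vertex 0 := rfl
  have hr := right_unit (c.strict 1) (hn 0) (by rw [← e1]; exact hn _) (k := k + 1)
    (Nat.succ_pos k) h0
  rw [e1, e2]
  have e3 : vv p (k + 1) (c.vertex 0) ^ p =
      vv p (k + 1) (c.vertex 0) * vv p (k + 1) (c.vertex 0) ^ (p - 1) := by
    rw [← pow_succ', Nat.sub_add_cancel hp.out.one_lt.le]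
  rw [e3] at hr
  simp only [Fin.val_zero, pow_zero, one_smul, Fin.val_one, pow_one, neg_smul]
  linear_combination hr

theorem NB.evN_t_res {B : Type} [CommRing B] [Algebra (ZMod p) B] {c : Chain Laz 2 B}
    (hc : IsNCh p c) : evN p (c.res (Fin.succAbove 0)) (NB.t 0 0) +
      evN p (c.res (Fin.succAbove 2)) (NB.t 0 0) = evN p (c.res (Fin.succAbove 1)) (NB.t 0 0) := by
  rw [evN_t', evN_t', evN_t']
  have h0 : (c.res (Fin.succAbove 0)).g (Fin.succ 0) = c.g 2 * (c.g 1)⁻¹ := rfl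
  have h1 : (c.res (Fin.succAbove 1)).g (Fin.succ 0) = c.g 2 * (c.g 0)⁻¹ := rfl
  have h2 : (c.res (Fin.succAbove 2)).g (Fin.succ 0) = c.g 1 * (c.g 0)⁻¹ := rfl
  rw [h0, h1, h2, c.zero, inv_one, mul_one, mul_one]
  have h3 := c_add_of_isNCh (p_eq_zero p B) (F := c.vertex 0)
    (mul_mem (c.strict 2) (inv_mem (c.strict 1))) (c.strict 1) (hc 0)
    (by
      have := hc 1
      rwa [vertex_zero]) (by
      have := hc 2
      rw [vertex_zero, ← mul_smul, inv_mul_cancel_right]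
      exact this)
  rw [inv_mul_cancel_right] at h3
  exact h3.symm

/-- `t₁` is primitive. -/
theorem NB.d_t : NB.d p 1 (NB.t 0 0) = 0 := by
  apply NB.ext_evN
  intro B _ _ c hc
  have h := NB.evN_t_res hc
  rw [map_zero, NB.d_apply, Fin.sum_univ_three, map_add, map_add, map_zsmul, map_zsmul,
    map_zsmul, evN_res hc, evN_res hc, evN_res hc]
  simp only [Fin.val_zero, pow_zero, one_smul, Fin.val_one, pow_one, neg_smul, Fin.val_two,
    even_two, Even.neg_pow, one_pow]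
  linear_combination h

/-- `a` is a cocycle modulo `(v_1, …, v_k)`. -/
theorem NB.d_aN_mem (k : ℕ) (I : Ideal (NB p 2)) (hI : ∀ j < k, (NB.v j : NB p 2) ∈ I) :
    NB.d p 1 (aN p k) ∈ I := by
  set c := UQ I with hc
  have hn := isNCh_UQ I
  have h0 := vv_UQ I hI
  have h := NB.evN_t_res hn
  rw [mem_iff_evN_UQ, ← hc, NB.d_apply, Fin.sum_univ_three, map_add, map_add, map_zsmul,
    map_zsmul, map_zsmul, evN_res hn, evN_res hn, evN_res hn]
  have e : ∀ i : Fin 3, evN p (c.res (Fin.succAbove i)) (aN p k) =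
      evN p (c.res (Fin.succAbove i)) (NB.t 0 0) ^ p ^ (k + 1) -
        vv p (k + 1) (c.vertex 0) ^ (p - 1) * evN p (c.res (Fin.succAbove i)) (NB.t 0 0) := by
    intro i
    rw [aN, map_sub, map_mul, map_pow, map_pow, evN_v', vertex_res, (vv_vertex c h0 _).2]
  rw [show evN p (c.res (Fin.succAbove (0 : Fin 3))) (aN p k) = _ from e 0,
    show evN p (c.res (Fin.succAbove (1 : Fin 3))) (aN p k) = _ from e 1,
    show evN p (c.res (Fin.succAbove (2 : Fin 3))) (aN p k) = _ from e 2, ← h, A.add_pow_pow]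
  simp only [Fin.val_zero, pow_zero, one_smul, Fin.val_one, pow_one, neg_smul, Fin.val_two,
    even_two, Even.neg_pow, one_pow]
  ring

end NB

/-! ### in the cobar complex of the Lazard ring -/

/-- `t₁ : Cob Laz 1`, the coefficient of `x ^ p` -/
def tL (p : ℕ) : Cob Laz 1 := MvPolynomial.X (0, p - 2)

/-- `v_{k+1}` at the vertex `0` -/
def vL (p s k : ℕ) : Cob Laz s := MvPolynomial.C (Laz.v p (k + 1))

/-- the cochain `a = t₁^{p^{k+1}} - v_{k+1}^{p-1} t₁` -/
def aL (p k : ℕ) : Cob Laz 1 := tL p ^ p ^ (k + 1) - vL p 1 k ^ (p - 1) * tL p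

theorem toNB_tL : toNB p 1 (tL p) = NB.t 0 0 := by
  have h := toNB_X (p := p) (0 : Fin 1) 0
  rwa [ix, zero_add, pow_one] at h

theorem toNB_vL (k : ℕ) : toNB p s (vL p s k) = NB.v k := toNB_v k

theorem toNB_aL (k : ℕ) : toNB p 1 (aL p k) = aN p k := by
  rw [aL, map_sub, map_mul, map_pow, map_pow, toNB_tL, toNB_vL, aN]

/-- `d v_{k+2} = - v_{k+1} a` in `Cob Laz 1`, modulo `(v_1, …, v_k)` on normal chains. -/
theorem toNB_d_vL_mem (k : ℕ) (I : Ideal (NB p 1)) (hI : ∀ j < k, (NB.v j : NB p 1) ∈ I) :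
    toNB p 1 (Cob.d 0 (vL p 0 (k + 1)) + vL p 1 k * aL p k) ∈ I := by
  rw [map_add, map_mul, toNB_d, toNB_vL, toNB_vL, toNB_aL]
  exact NB.d_v_add_mem k I hI

theorem toNB_d_aL_mem (k : ℕ) (I : Ideal (NB p 2)) (hI : ∀ j < k, (NB.v j : NB p 2) ∈ I) :
    toNB p 2 (Cob.d 1 (aL p k)) ∈ I := by
  rw [toNB_d, toNB_aL]
  exact NB.d_aN_mem k I hI

theorem toNB_d_tL : toNB p 2 (Cob.d 1 (tL p)) = 0 := by
  rw [toNB_d, toNB_tL]
  exact NB.d_t

theorem toNB_map_vL_mem (α : Fin (m + 1) → Fin (n + 1)) (k : ℕ) (I : Ideal (NB p n))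
    (hI : ∀ j < k, (NB.v j : NB p n) ∈ I) :
    toNB p n (Cob.map α (vL p m k) - vL p n k) ∈ I := by
  rw [map_sub, toNB_map, toNB_vL, toNB_vL]
  exact NB.map_v_sub_mem_of α k I hI

/-- the variables are homogeneous -/
theorem isWt_X (i : Fin s) (k : ℕ) :
    Cob.IsWt ((k + 1 : ℕ) : ℤ) (MvPolynomial.X (i, k) : Cob Laz s) := by
  intro B _ c u
  rw [Cob.ev_X, Cob.ev_X, zpow_natCast, Units.val_pow_eq_pow_val]
  exact c_conj_lin u (c.g i.succ) (k + 1)

/-- the coefficients of the law at the vertex `0` are homogeneous -/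
theorem isWt_C {w : ℤ} {a : Laz} (h : Cob.IsWt w (MvPolynomial.C a : Cob Laz 0)) :
    Cob.IsWt w (MvPolynomial.C a : Cob Laz n) := by
  have h1 := h.map (fun _ => (0 : Fin (n + 1)))
  have h2 : Cob.map (fun _ => (0 : Fin (n + 1))) (MvPolynomial.C a : Cob Laz 0) =
      (MvPolynomial.C a : Cob Laz n) := by
    apply Cob.ext_ev
    intro B _ c
    rw [Cob.ev_map_res, Cob.ev_C, Cob.ev_C, Chain.res_pt, c.zero]
    rw [LawRing.act_one]
  rwa [h2] at h1

theorem isWt_tL : Cob.IsWt ((p - 1 : ℕ) : ℤ) (tL p) := by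
  have h := isWt_X (s := 1) 0 (p - 2)
  have h1 : p - 2 + 1 = p - 1 := by
    have := hp.out.two_le
    omega
  rwa [h1] at h

theorem isWt_vL (s k : ℕ) : Cob.IsWt ((p ^ (k + 1) - 1 : ℕ) : ℤ) (vL p s k) :=
  isWt_C (Laz.isWt_C_v hp.out.ne_zero (k + 1))

theorem isWt_aL (k : ℕ) : Cob.IsWt (((p - 1) * p ^ (k + 1) : ℕ) : ℤ) (aL p k) := by
  have h1 := (isWt_tL (p := p)).pow (p ^ (k + 1))
  have h2 := ((isWt_vL (p := p) 1 k).pow (p - 1)).mul (isWt_tL (p := p))
  have h3 : (((p ^ (k + 1) : ℕ) : ℤ) * ((p - 1 : ℕ) : ℤ)) =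
      (((p - 1) * p ^ (k + 1) : ℕ) : ℤ) := by
    push_cast
    ring
  have h5 : 1 ≤ p ^ (k + 1) := Nat.one_le_pow _ _ hp.out.pos
  have h4 : (((p - 1 : ℕ) : ℤ) * ((p ^ (k + 1) - 1 : ℕ) : ℤ)) + ((p - 1 : ℕ) : ℤ) =
      (((p - 1) * p ^ (k + 1) : ℕ) : ℤ) := by
    rw [Nat.cast_sub h5]
    push_cast
    ring
  rw [h3] at h1
  rw [h4] at h2
  rw [aL, sub_eq_add_neg]
  exact h1.add h2.neg

end Vale.Agent.P257.V4.B

end
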