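import Vale.Agent.P251.B.Final
import Vale.Agent.P251.M.GBasis
import Vale.Agent.P257.V4.O.Cells

/-!
# P257, part B: sparseness of the tower

`R` a commutative monoid, `U : UnitCof R` (`J` the cofibre of the unit).

* `Spa U q X` : `π_k (R ⊗ J^{⊗ b} ⊗ X) = 0` unless `q ∣ k`; `Spa.of_am` (from the tensor powers of
  `R`, the first field of `XM`), `Spa.J`, `Spa.tow`, `Spa.zr_B`;
* `FreeQ R q` : `R ⊗ R` is a coproduct of left modules `R ⊗ S^k`, `q ∣ k`; `FreeQ.of_gbasis`;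
* `Src R q W` : every map `W ⟶ R ⊗ Y` is zero if `π_k (R ⊗ Y) = 0` for `q ∣ k`; closed under
  `R ⊗ -`, `J ⊗ -`, `J^{⊗ a} ⊗ -`, extensions, coproducts, shifts by multiples of `q`;
* `Src.zr` : then `Hom (W⟦n⟧, R ⊗ Z) = 0` for `q ∤ n` if `π_k (R ⊗ Z) = 0` unless `q ∣ k`;
* `Spa.spj` : `Hom (J^{⊗ a}⟦n⟧, R ⊗ J^{⊗ b} ⊗ X) = 0` unless `q ∣ n`.
-/

open CategoryTheory MonoidalCategory Limits Pretriangulated MonObj

set_option linter.unusedSectionVars false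

universe v u

namespace Vale.Agent.P257.V4.B

open Vale.Agent.P251.T Vale.Agent.P251.M Vale.Agent.P251.S Vale.Agent.P257.V4.O

section basic

variable {T : Type u} [Category.{v} T] [Preadditive T] [HasZeroObject T]
    [HasShift T ℤ] [∀ n : ℤ, (shiftFunctor T n).Additive] [Pretriangulated T]
    [MonoidalCategory T] [SymmetricCategory T] [TensorTriangulated T]

omit [HasZeroObject T] [Pretriangulated T] [MonoidalCategory T] [SymmetricCategory T]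
  [TensorTriangulated T] in
lemma zr_shift_cancel {A M : T} (d : ℤ) (h : Zr (A⟦d⟧) (M⟦d⟧)) : Zr A M := fun f => by
  apply (shiftFunctor T d).map_injective
  rw [Functor.map_zero]
  exact h _

omit [HasZeroObject T] [Pretriangulated T] [MonoidalCategory T] [SymmetricCategory T]
  [TensorTriangulated T] in
lemma zr_shift_right {A M : T} {k m l : ℤ} (h : l + m = k) (hz : Zr (A⟦l⟧) M) :
    Zr (A⟦k⟧) (M⟦m⟧) :=
  (hz.shift m).iso ((shiftFunctorAdd' T l m k h).app A).symm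

omit [HasZeroObject T] [Pretriangulated T] [MonoidalCategory T] [SymmetricCategory T]
  [TensorTriangulated T] in
lemma zr_shift_left {A M : T} {m n : ℤ} (h : m + n = 0) (hz : Zr A (M⟦n⟧)) :
    Zr (A⟦m⟧) M := by
  apply zr_shift_cancel n
  exact hz.iso (((shiftFunctorZero T ℤ).app A).symm ≪≫ (shiftFunctorAdd' T m n 0 h).app A)

/-! ### Sparseness -/

/-- `π_k (R ⊗ J^{⊗ b} ⊗ X) = 0` unless `q ∣ k`. -/
def Spa {R : T} [MonObj R] (U : UnitCof R) (q : ℤ) (X : T) : Prop :=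
  ∀ (b : ℕ) (k : ℤ), ¬ q ∣ k → Zr ((𝟙_ T)⟦k⟧) (R ⊗ U.cobar.B b X)

variable {R : T} [MonObj R] {U : UnitCof R} {q : ℤ} {X : T}

/-- Sparseness of the tower from the sparseness of the `R^{⊗ (s+1)} ⊗ X`. -/
theorem Spa.of_am (h : ∀ (s : ℕ) (k : ℤ), ¬ q ∣ k → ∀ f : (𝟙_ T)⟦k⟧ ⟶ Am R (s + 1) ⊗ X, f = 0) :
    Spa U q X := by
  intro b k hk f
  obtain ⟨c, hc⟩ := U.cobar.q_surjective (F := homF (𝟭 T) (𝟙_ T) k) b X f
  have h1 : c = 0 := by
    have h2 : (show (𝟙_ T)⟦k⟧ ⟶ U.cobar.Q (b + 1) X from c) ≫ (U.θ (b + 1) X).hom = 0 :=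
      h b k hk _
    have h3 : (show (𝟙_ T)⟦k⟧ ⟶ U.cobar.Q (b + 1) X from c) = 0 := by
      rw [← cancel_mono (U.θ (b + 1) X).hom, h2, zero_comp]
    exact h3
  rw [← hc, h1]
  exact map_zero _

theorem Spa.J (h : Spa U q X) : Spa U q (U.J ⊗ X) := fun b k hk => h (b + 1) k hk

theorem Spa.tow (h : Spa U q X) (b : ℕ) : Spa U q (U.cobar.B b X) := by
  induction b generalizing X with
  | zero => exact h
  | succ b ih => exact ih h.J

theorem Spa.zero (h : Spa U q X) {k : ℤ} (hk : ¬ q ∣ k) : Zr ((𝟙_ T)⟦k⟧) (R ⊗ X) := h 0 k hk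

variable (U) in
/-- `J^{⊗ a} ⊗ R ⊗ Z ≅ R ⊗ J^{⊗ a} ⊗ Z`. -/
def swB (R' : T) : ∀ (a : ℕ) (Z : T), U.cobar.B a (R' ⊗ Z) ≅ R' ⊗ U.cobar.B a Z
  | 0, Z => Iso.refl _
  | a + 1, Z =>
    ⟨U.cobar.Bm a (((α_ U.J R' Z).symm ≪≫ whiskerRightIso (β_ U.J R') Z ≪≫ α_ R' U.J Z).hom),
      U.cobar.Bm a (((α_ U.J R' Z).symm ≪≫ whiskerRightIso (β_ U.J R') Z ≪≫ α_ R' U.J Z).inv),
      by rw [← CobarData.Bm_comp, Iso.hom_inv_id, CobarData.Bm_id],
      by rw [← CobarData.Bm_comp, Iso.inv_hom_id, CobarData.Bm_id]⟩ ≪≫ swB R' a (U.J ⊗ Z)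

/-- `π_k (J^{⊗ a} ⊗ R ⊗ J^{⊗ b} ⊗ X) = 0` unless `q ∣ k`. -/
theorem Spa.zr_B (h : Spa U q X) (a b : ℕ) {k : ℤ} (hk : ¬ q ∣ k) :
    Zr ((𝟙_ T)⟦k⟧) (U.cobar.B a (R ⊗ U.cobar.B b X)) :=
  ((h.tow b) a k hk).iso_right (swB U R a _).symm

/-! ### Maps out of free modules -/

/-- `π_k (R ⊗ Y) = 0` for `q ∣ k`. -/
def NoQ (R : T) (q : ℤ) (Y : T) : Prop := ∀ k : ℤ, q ∣ k → Zr ((𝟙_ T)⟦k⟧) (R ⊗ Y)

omit [MonObj R] in
theorem NoQ.shift {Y : T} (h : NoQ R q Y) {m : ℤ} (hm : q ∣ m) : NoQ R q (Y⟦m⟧) := fun k hk =>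
  (zr_shift_right (sub_add_cancel k m) (h (k - m) (dvd_sub hk hm))).iso_right (csh R m Y).symm

omit [MonObj R] in
/-- If the homotopy of `R ⊗ Z` is concentrated in degrees divisible by `q`, then that of
`R ⊗ Z⟦n⟧`, `q ∤ n`, is zero in these degrees. -/
theorem NoQ.of_spa {Z : T} (h : ∀ k : ℤ, ¬ q ∣ k → Zr ((𝟙_ T)⟦k⟧) (R ⊗ Z)) {n : ℤ}
    (hn : ¬ q ∣ n) : NoQ R q (Z⟦n⟧) := fun k hk =>
  (zr_shift_right (sub_add_cancel k n) (h (k - n) (fun h1 => hn (by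
    have := dvd_sub hk h1
    rwa [sub_sub_cancel] at this)))).iso_right (csh R n Z).symm

/-- Every map `W ⟶ R ⊗ Y` is zero if the homotopy of `R ⊗ Y` is zero in the degrees divisible by
`q`. -/
def Src (R : T) (q : ℤ) (W : T) : Prop := ∀ Y : T, NoQ R q Y → Zr W (R ⊗ Y)

omit [MonObj R] in
theorem Src.iso {W W' : T} (e : W ≅ W') (h : Src R q W) : Src R q W' := fun Y hY =>
  (h Y hY).iso e

omit [MonObj R] in
theorem Src.unit : Src R q (𝟙_ T) := fun _ hY =>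
  (hY 0 (dvd_zero q)).iso ((shiftFunctorZero T ℤ).app (𝟙_ T))

omit [MonObj R] in
theorem Src.shift {W : T} (h : Src R q W) {m : ℤ} (hm : q ∣ m) : Src R q (W⟦m⟧) := fun Y hY =>
  zr_shift_left (add_neg_cancel m)
    ((h (Y⟦-m⟧) (hY.shift (dvd_neg.2 hm))).iso_right (csh R (-m) Y))

omit [MonObj R] in
theorem Src.sphere {m : ℤ} (hm : q ∣ m) : Src R q ((𝟙_ T)⟦m⟧) := Src.unit.shift hm

omit [MonObj R] in
theorem Src.sphere_tensor {W : T} (h : Src R q W) {m : ℤ} (hm : q ∣ m) :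
    Src R q ((𝟙_ T)⟦m⟧ ⊗ W) :=
  (h.shift hm).iso ((tensorUnitShiftIso W m).symm ≪≫ β_ W ((𝟙_ T)⟦m⟧))

omit [MonObj R] in
theorem Src.ext {Δ : Triangle T} (hΔ : Δ ∈ distTriang T) (h₁ : Src R q Δ.obj₁)
    (h₃ : Src R q Δ.obj₃) : Src R q Δ.obj₂ := fun Y hY f => by
  obtain ⟨g, hg⟩ := Triangle.yoneda_exact₂ Δ hΔ f (h₁ Y hY _)
  rw [hg, h₃ Y hY g, comp_zero]

omit [MonObj R] in
theorem Src.retract {W W' : T} (a : W ⟶ W') (b : W' ⟶ W) (hab : a ≫ b = 𝟙 W)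
    (h : Src R q W') : Src R q W := fun Y hY f => by
  rw [← Category.id_comp f, ← hab, Category.assoc, h Y hY (b ≫ f), comp_zero]

omit [MonObj R] in
theorem Src.coprod {I : Type*} (W : I → T) [HasCoproduct W] (h : ∀ i, Src R q (W i)) :
    Src R q (∐ W) := fun Y hY f => by
  refine Sigma.hom_ext _ _ fun i => ?_
  rw [comp_zero]
  exact h i Y hY _

omit [MonObj R] in
/-- Maps of degree `n`, `q ∤ n`, into `R ⊗ Z` with sparse homotopy. -/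
theorem Src.zr {W : T} (h : Src R q W) {Z : T}
    (hZ : ∀ k : ℤ, ¬ q ∣ k → Zr ((𝟙_ T)⟦k⟧) (R ⊗ Z)) {n : ℤ} (hn : ¬ q ∣ n) :
    Zr (W⟦n⟧) (R ⊗ Z) :=
  zr_shift_left (add_neg_cancel n)
    ((h (Z⟦-n⟧) (NoQ.of_spa hZ (fun h1 => hn (dvd_neg.1 h1)))).iso_right (csh R (-n) Z))

end basic

section free

variable {T : Type u} [Category.{v} T] [Preadditive T] [HasZeroObject T]
    [HasShift T ℤ] [∀ n : ℤ, (shiftFunctor T n).Additive] [Pretriangulated T] [IsTriangulated T]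
    [MonoidalCategory T] [SymmetricCategory T] [TensorTriangulated T] [MonoidalClosed T]
    [HasCoproducts.{0} T] [HasProducts.{0} T] [StableCat T]

/-- `R ⊗ R` is a coproduct of left `R`-modules `R ⊗ S^k`, `q ∣ k`. -/
def FreeQ (R : T) [MonObj R] (q : ℤ) : Prop :=
  ∃ (I : Type) (k : I → ℤ) (w : ∀ i, (𝟙_ T)⟦k i⟧ ⟶ R ⊗ R), (∀ i, q ∣ k i) ∧
    IsIso (Sigma.desc fun i => (R ◁ w i) ≫ mulMap R R)

variable {R : T} [MonObj R] {U : UnitCof R} {q : ℤ} {X : T}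

/-- The linear extension of `R ⊗ W ⟶ R ⊗ Y` restricted to the sphere factors. -/
lemma lin_aux {W Y A : T} (w : A ⟶ R ⊗ R) (g : R ⊗ W ⟶ R ⊗ Y) :
    (((R ◁ w) ≫ mulMap R R) ▷ W) ≫ (α_ R R W).hom ≫ (R ◁ g) ≫ mulMap R Y =
      (α_ R A W).hom ≫ (R ◁ ((w ▷ W) ≫ (α_ R R W).hom ≫ (R ◁ g) ≫ mulMap R Y)) ≫
        mulMap R Y := by
  have h1 : (mulMap R R ▷ W) ≫ (α_ R R W).hom ≫ (R ◁ g) ≫ mulMap R Y =
      (α_ R (R ⊗ R) W).hom ≫ (R ◁ ((α_ R R W).hom ≫ (R ◁ g) ≫ mulMap R Y)) ≫ mulMap R Y := by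
    have h2 : (R ◁ mulMap R Y) ≫ mulMap R Y = mulMap R (R ⊗ Y) ≫ mulMap R Y := by
      unfold mulMap
      rw [MonoidalCategory.whiskerLeft_comp, Category.assoc, Category.assoc]
      rw [associator_inv_naturality_middle_assoc, ← comp_whiskerRight, MonObj.mul_assoc_flip]
      rw [associator_inv_naturality_left_assoc, ← comp_whiskerRight, comp_whiskerRight]
      monoidal
    have h3 : (mulMap R R ▷ W) ≫ (α_ R R W).hom =
        (α_ R (R ⊗ R) W).hom ≫ (R ◁ (α_ R R W).hom) ≫ mulMap R (R ⊗ W) := by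
      unfold mulMap
      rw [comp_whiskerRight, Category.assoc, associator_naturality_left]
      monoidal
    rw [reassoc_of% h3, MonoidalCategory.whiskerLeft_comp, MonoidalCategory.whiskerLeft_comp,
      Category.assoc, Category.assoc, h2, mulMap_nat_assoc]
  rw [comp_whiskerRight, Category.assoc, h1, associator_naturality_middle_assoc,
    ← MonoidalCategory.whiskerLeft_comp_assoc]

/-- The main step: maps out of `R ⊗ W`. -/
theorem Src.aux (hF : FreeQ R q) {W : T} (h : Src R q W) {Y : T} (hY : NoQ R q Y)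
    (g : R ⊗ W ⟶ R ⊗ Y) : (R ◁ g) ≫ mulMap R Y = 0 := by
  obtain ⟨I, k, w, hk, hiso⟩ := hF
  have h1 : (α_ R R W).hom ≫ (R ◁ g) ≫ mulMap R Y = 0 := by
    have := isIso_desc_whiskerRight _ hiso W
    rw [← cancel_epi (Sigma.desc fun i => ((R ◁ w i) ≫ mulMap R R) ▷ W), comp_zero]
    refine Sigma.hom_ext _ _ fun i => ?_
    have h2 := (h.sphere_tensor (hk i)) Y hY
      (w i ▷ W ≫ (α_ R R W).hom ≫ R ◁ g ≫ mulMap R Y)
    rw [Sigma.ι_desc_assoc, lin_aux, comp_zero, h2, MonoidalPreadditive.whiskerLeft_zero,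
      zero_comp, comp_zero]
  rwa [← cancel_epi (α_ R R W).hom, comp_zero]

theorem Src.tensorR (hF : FreeQ R q) {W : T} (h : Src R q W) : Src R q (R ⊗ W) := fun Y hY g => by
  have h1 := h.aux hF hY g
  rw [← Category.comp_id g, ← unitMap_mulMap Y, unitMap_nat_assoc, h1, comp_zero]

theorem Src.tensorJ (hF : FreeQ R q) {W : T} (h : Src R q W) : Src R q (U.J ⊗ W) := fun Y hY f => by
  have h1 := h.aux hF hY ((U.ρ ▷ W) ≫ f)
  obtain ⟨σ, hσ, -⟩ := U.cobar.split W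
  have hσ' : σ ≫ (R ◁ (U.ρ ▷ W)) = 𝟙 _ := hσ
  have h2 : (R ◁ f) ≫ mulMap R Y = 0 := by
    rw [← Category.id_comp ((R ◁ f) ≫ mulMap R Y), ← hσ', Category.assoc,
      ← MonoidalCategory.whiskerLeft_comp_assoc, h1, comp_zero]
  rw [← Category.comp_id f, ← unitMap_mulMap Y, unitMap_nat_assoc, h2, comp_zero]

theorem Src.tow (hF : FreeQ R q) {W : T} (h : Src R q W) (a : ℕ) :
    Src R q (U.cobar.B a W) := by
  induction a generalizing W with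
  | zero => exact h
  | succ a ih => exact ih (h.tensorJ hF)

/-- (SPJ), general form: `Hom (J^{⊗ a} ⊗ W⟦n⟧, R ⊗ J^{⊗ b} ⊗ X) = 0` unless `q ∣ n`. -/
theorem Spa.hom_B (hF : FreeQ R q) (hX : Spa U q X) {W : T} (hW : Src R q W) (a b : ℕ) {n : ℤ}
    (hn : ¬ q ∣ n) : Zr ((U.cobar.B a W)⟦n⟧) (R ⊗ U.cobar.B b X) :=
  (hW.tow hF a).zr (hX b) hn

/-- (SPJ): `Hom (J^{⊗ a}⟦n⟧, R ⊗ J^{⊗ b} ⊗ X) = 0` unless `q ∣ n`. -/
theorem Spa.spj (hF : FreeQ R q) (hX : Spa U q X) (a b : ℕ) {n : ℤ} (hn : ¬ q ∣ n) :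
    Zr ((U.cobar.B a (𝟙_ T))⟦n⟧) (R ⊗ U.cobar.B b X) :=
  hX.hom_B hF Src.unit a b hn

/-! ### Free modules from graded bases -/

section inlM

omit [Preadditive T] [HasZeroObject T] [HasShift T ℤ] [∀ n : ℤ, (shiftFunctor T n).Additive]
  [Pretriangulated T] [IsTriangulated T] [TensorTriangulated T] [MonoidalClosed T]
  [HasCoproducts.{0} T] [HasProducts.{0} T] [StableCat T]

/-- Left multiplication by the first factor. -/
lemma inlM_mul_left (A C : T) [MonObj A] [MonObj C] :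
    inlM A C ▷ (A ⊗ C) ≫ μ[A ⊗ C] = (α_ A A C).inv ≫ μ[A] ▷ C := by
  have h1 : μ[A ⊗ C] = tensorμ A C A C ≫ (μ[A] ⊗ₘ μ[C]) := rfl
  have h2 : (A ◁ η[C]) ▷ (A ⊗ C) ≫ tensorμ A C A C =
      tensorμ A (𝟙_ T) A C ≫ ((A ⊗ A) ◁ (η[C] ▷ C)) := by
    have h := tensorμ_natural (𝟙 A) η[C] (𝟙 A) (𝟙 C)
    simpa only [tensorHom_id, id_tensorHom, id_whiskerRight, MonoidalCategory.whiskerLeft_id]
      using h
  have h3 : (ρ_ A).inv ▷ (A ⊗ C) ≫ tensorμ A (𝟙_ T) A C ≫ ((A ⊗ A) ◁ (λ_ C).hom) =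
      (α_ A A C).inv := by
    unfold tensorμ
    rw [braiding_tensorUnit_left]
    monoidal
  rw [inlM, comp_whiskerRight, Category.assoc, h1, reassoc_of% h2, tensorHom_def',
    ← MonoidalCategory.whiskerLeft_comp_assoc, MonObj.one_mul, reassoc_of% h3]

lemma inlM_tensor_mul (A C : T) [MonObj A] [MonObj C] {S : T} (w : S ⟶ A ⊗ C) :
    (inlM A C ⊗ₘ w) ≫ μ[A ⊗ C] = (A ◁ w) ≫ mulMap A C := by
  rw [tensorHom_def', Category.assoc, inlM_mul_left]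
  rfl

end inlM

theorem FreeQ.of_gbasis {J : Type} (b : GBasis (stdEven T) (inlM R R) J)
    (hb : ∀ a, q ∣ 2 * b.k a) : FreeQ R q := by
  refine ⟨J, fun a => 2 * b.k a, fun a => (Vale.Agent.P251.B.sphE T (b.k a)).inv ≫ b.w a, hb, ?_⟩
  have h := isIso_desc_comp _ (fun a : J =>
    R ◁ (Vale.Agent.P251.B.sphE T (b.k a)).inv) b.isIso
  have h2 : (fun a : J => (R ◁ ((Vale.Agent.P251.B.sphE T (b.k a)).inv ≫ b.w a)) ≫ mulMap R R) =
      fun a => (R ◁ (Vale.Agent.P251.B.sphE T (b.k a)).inv) ≫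
        ((inlM R R ⊗ₘ b.w a) ≫ μ[R ⊗ R]) := by
    funext a
    rw [inlM_tensor_mul, MonoidalCategory.whiskerLeft_comp, Category.assoc]
  rw [h2]
  exact h

end free

end Vale.Agent.P257.V4.B
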