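import Vale.Agent.P251.S.AmitsurCobar
import Vale.Agent.P251.M.Conn
import Vale.Agent.P093.N.PLocSp

/-!
# P257, part B: sparseness and connectivity of the tower (generic part)

`R` a commutative monoid, `U : UnitCof R`, `X` with `Hom(𝟙⟦k⟧, Am R (s+1) ⊗ X) = 0` unless `q ∣ k`.

* `spj` : `Hom(𝟙⟦k⟧, B a (R ⊗ B b X)) = 0` unless `q ∣ k`;
* `conn_cobar` : if `J ⊗ -` raises the connectivity of `p`-local objects by two then
  `Hom(𝟙⟦n⟧, B s X) = 0` for `n < m + q s`, for `X` `p`-local and `m`-connective, `q ∣ m`.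
-/

open CategoryTheory MonoidalCategory MonObj Limits Pretriangulated

universe v u

set_option linter.unusedSectionVars false

namespace Vale.Agent.P257.V4.B

open Vale.Agent.P251.S Vale.Agent.P251.T Vale.Agent.P251.M Vale.Agent.P093.PLoc

variable {T : Type u} [Category.{v} T] [Preadditive T] [HasZeroObject T]
    [HasShift T ℤ] [∀ n : ℤ, (shiftFunctor T n).Additive] [Pretriangulated T]
    [MonoidalCategory T]

/-- `Hom(𝟙⟦k⟧, Z) = 0` unless `q ∣ k` -/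
def Spa (q : ℤ) (Z : T) : Prop := ∀ k : ℤ, ¬ q ∣ k → ∀ f : (𝟙_ T)⟦k⟧ ⟶ Z, f = 0

/-- `X` is a retract of `Y` -/
def IsRet (X Y : T) : Prop := ∃ (i : X ⟶ Y) (r : Y ⟶ X), i ≫ r = 𝟙 X

omit [Preadditive T] [HasZeroObject T] [HasShift T ℤ] [∀ n : ℤ, (shiftFunctor T n).Additive]
  [Pretriangulated T] [MonoidalCategory T] in
theorem IsRet.trans {X Y Z : T} (h : IsRet X Y) (h' : IsRet Y Z) : IsRet X Z := by
  obtain ⟨i, r, h1⟩ := h
  obtain ⟨i', r', h2⟩ := h'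
  exact ⟨i ≫ i', r' ≫ r, by rw [Category.assoc, reassoc_of% h2, h1]⟩

omit [Preadditive T] [HasZeroObject T] [HasShift T ℤ] [∀ n : ℤ, (shiftFunctor T n).Additive]
  [Pretriangulated T] [MonoidalCategory T] in
theorem IsRet.refl (X : T) : IsRet X X := ⟨𝟙 X, 𝟙 X, Category.id_comp _⟩

theorem Spa.ret {q : ℤ} {Y Z : T} (h : Spa q Z) (hr : IsRet Y Z) : Spa q Y := by
  obtain ⟨i, r, h1⟩ := hr
  intro k hk f
  have h2 : f = (f ≫ i) ≫ r := by rw [Category.assoc, h1, Category.comp_id]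
  rw [h2, h k hk (f ≫ i), zero_comp]

theorem conn_ret {n : ℤ} {Y Z : T} (h : Conn n Z) (hr : IsRet Y Z) : Conn n Y := by
  obtain ⟨i, r, h1⟩ := hr
  exact h.of_retract i r h1

variable [SymmetricCategory T] [TensorTriangulated T]

section cobar

variable {R : T} [MonObj R] (U : UnitCof R)

/-- `J ⊗ (R ⊗ Z)` is a retract of `R ⊗ (R ⊗ Z)` -/
theorem isRet_JR (Z : T) : IsRet (U.J ⊗ (R ⊗ Z)) (R ⊗ (R ⊗ Z)) := by
  obtain ⟨σ, h1, -⟩ := exists_section_of_retraction _ (U.triangle_distinguished (R ⊗ Z))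
    (mulMap R Z) (unitMap_mulMap Z)
  exact ⟨σ, U.ρ ▷ (R ⊗ Z), h1⟩

/-- `R ⊗ (J ⊗ Z)` is a retract of `R ⊗ (R ⊗ Z)` -/
theorem isRet_RJ (Z : T) : IsRet (R ⊗ (U.J ⊗ Z)) (R ⊗ (R ⊗ Z)) := by
  obtain ⟨σ, h1, -⟩ := U.cobar.split Z
  exact ⟨σ, R ◁ (U.ρ ▷ Z), h1⟩

omit [TensorTriangulated T] [SymmetricCategory T] [Preadditive T] [HasZeroObject T]
  [HasShift T ℤ] [∀ n : ℤ, (shiftFunctor T n).Additive] [Pretriangulated T] in
theorem IsRet.tensor {X Y : T} (h : IsRet X Y) (W : T) : IsRet (W ⊗ X) (W ⊗ Y) := by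
  obtain ⟨i, r, h1⟩ := h
  exact ⟨W ◁ i, W ◁ r, by
    rw [← MonoidalCategory.whiskerLeft_comp, h1, MonoidalCategory.whiskerLeft_id]⟩

theorem isRet_Bm {X Y : T} (h : IsRet X Y) (s : ℕ) : IsRet (U.cobar.B s X) (U.cobar.B s Y) := by
  obtain ⟨i, r, h1⟩ := h
  exact ⟨U.cobar.Bm s i, U.cobar.Bm s r, by rw [← CobarData.Bm_comp, h1, CobarData.Bm_id]⟩

theorem isRet_Qm {X Y : T} (h : IsRet X Y) (s : ℕ) : IsRet (U.cobar.Q s X) (U.cobar.Q s Y) := by
  obtain ⟨i, r, h1⟩ := h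
  exact ⟨U.cobar.Qm s i, U.cobar.Qm s r, by rw [← CobarData.Qm_comp, h1, CobarData.Qm_id]⟩

/-- `B a (R ⊗ Z)` is a retract of `Q (a + 1) Z` -/
theorem isRet_B (a : ℕ) (Z : T) : IsRet (U.cobar.B a (R ⊗ Z)) (U.cobar.Q (a + 1) Z) := by
  induction a generalizing Z with
  | zero => exact IsRet.refl _
  | succ a ih => exact (isRet_Bm U (isRet_JR U Z) a).trans (ih (R ⊗ Z))

/-- `Q (n + 1) (J ⊗ Z)` is a retract of `Q (n + 2) Z` -/
theorem isRet_Q (n : ℕ) (Z : T) :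
    IsRet (U.cobar.Q (n + 1) (U.J ⊗ Z)) (U.cobar.Q (n + 2) Z) :=
  isRet_Qm U (isRet_RJ U Z) n

variable {q : ℤ} {X : T}

theorem spa_J (h : ∀ n, Spa q (U.cobar.Q (n + 1) X)) (n : ℕ) :
    Spa q (U.cobar.Q (n + 1) (U.J ⊗ X)) :=
  (h (n + 1)).ret (isRet_Q U n X)

theorem spa_B (h : ∀ n, Spa q (U.cobar.Q (n + 1) X)) (b n : ℕ) :
    Spa q (U.cobar.Q (n + 1) (U.cobar.B b X)) := by
  induction b generalizing X n with
  | zero => exact h n
  | succ b ih => exact ih (fun n => spa_J U h n) n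

/-- **(SPJ)** -/
theorem spj_Q (h : ∀ n, Spa q (U.cobar.Q (n + 1) X)) (a b : ℕ) :
    Spa q (U.cobar.B a (R ⊗ U.cobar.B b X)) :=
  (spa_B U h b a).ret (isRet_B U a _)

end cobar

section comm

variable {R : T} [MonObj R] [IsCommMonObj R] (U : UnitCof R) {q : ℤ} {X : T}

theorem spa_Q (h : ∀ s, Spa q (Am R (s + 1) ⊗ X)) (n : ℕ) : Spa q (U.cobar.Q (n + 1) X) :=
  (h n).ret ⟨(U.θ (n + 1) X).hom, (U.θ (n + 1) X).inv, Iso.hom_inv_id _⟩

/-- **(SPJ)** -/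
theorem spj (h : ∀ s, Spa q (Am R (s + 1) ⊗ X)) (a b : ℕ) :
    Spa q (U.cobar.B a (R ⊗ U.cobar.B b X)) :=
  spj_Q U (spa_Q U h) a b

end comm

section conn

variable {p : ℕ} {R : T} [MonObj R] (U : UnitCof R) {q : ℤ}

/-- one step of the Hurewicz argument -/
theorem conn_succ {Z : T} {c : ℤ} (h : Conn c Z) (hJ : Conn (c + 2) (U.J ⊗ Z))
    (hs : ∀ f : (𝟙_ T)⟦c⟧ ⟶ R ⊗ Z, f = 0) : Conn (c + 1) Z := by
  intro k hk f
  rcases lt_or_eq_of_le (Int.lt_add_one_iff.1 hk) with h1 | rfl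
  · exact h k h1 f
  · obtain ⟨g, hg⟩ := Triangle.coyoneda_exact₂ _
      (inv_rot_of_distTriang _ (U.triangle_distinguished Z)) f (hs (f ≫ unitMap R Z))
    have h2 : Conn (k + 1) ((U.J ⊗ Z)⟦(-1 : ℤ)⟧) := hJ.shift (-1) (k + 1) (by ring)
    have h3 : g = 0 := h2 k (by omega) g
    rw [hg, h3]
    exact zero_comp

theorem conn_add {Z : T} (m : ℤ) (hm : q ∣ m) (hZ : Conn (m + 2) Z)
    (hJ : ∀ c, Conn c Z → Conn (c + 2) (U.J ⊗ Z)) (hs : Spa q (R ⊗ Z)) (r : ℕ)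
    (hr : m + 2 + r ≤ m + q) : Conn (m + 2 + r) Z := by
  induction r with
  | zero => simpa using hZ
  | succ r ih =>
    push_cast at hr ⊢
    have h1 := ih (by omega)
    have h2 := conn_succ U h1 (hJ _ h1) (hs _ ?_)
    · rwa [← add_assoc]
    · rintro ⟨c, hc⟩
      obtain ⟨d, rfl⟩ := hm
      have h3 : q * (c - d) = 2 + r := by linear_combination -hc
      have h4 : 0 < q := by omega
      have h5 : 0 < c - d := by
        by_contra h6
        have : q * (c - d) ≤ 0 := mul_nonpos_of_nonneg_of_nonpos h4.le (by omega)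
        omega
      have h6 : q * 1 ≤ q * (c - d) := mul_le_mul_of_nonneg_left (by omega) h4.le
      omega

/-- **(CON)** -/
theorem conn_cobar (hq : 2 ≤ q)
    (hJ : ∀ (Y : T) (c : ℤ), IsPLocal p Y → Conn c Y → Conn (c + 2) (U.J ⊗ Y))
    (hL : ∀ Y : T, IsPLocal p Y → IsPLocal p (U.J ⊗ Y)) (s : ℕ) {X : T} (m : ℤ) (hm : q ∣ m)
    (hX : IsPLocal p X) (hc : Conn m X) (hs : ∀ n, Spa q (U.cobar.Q (n + 1) X)) :
    Conn (m + q * s) (U.cobar.B s X) := by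
  induction s generalizing X m with
  | zero => simpa using hc
  | succ s ih =>
    obtain ⟨r, hr⟩ : ∃ r : ℕ, (r : ℤ) = q - 2 := ⟨(q - 2).toNat, by omega⟩
    have h1 := conn_add U m hm (hJ X m hX hc) (fun c hc => hJ _ c (hL X hX) hc)
      (spa_J U hs 0) r (by omega)
    have h2 : m + 2 + r = m + q := by omega
    rw [h2] at h1
    have h3 := ih (m + q) (dvd_add_self_right.2 hm) (hL X hX) h1 (fun n => spa_J U hs n)
    have h4 : m + q + q * (s : ℤ) = m + q * ((s + 1 : ℕ) : ℤ) := by push_cast; ring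
    rw [h4] at h3
    exact h3

end conn

end Vale.Agent.P257.V4.B
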