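import Vale.Agent.P257.V4.B.Spj
import Vale.Agent.P257.V4.B.FreeB
import Vale.Agent.P257.V4.O.Cells
import Vale.Agent.P251.M.BaseCh

/-!
# P257, part B: sparseness of `Hom(J^a⟦k⟧, R ⊗ B b X)`

`R` a monoid such that `R ⊗ R` is free over `R` on spheres of dimensions divisible by `q`, `Z` an
object with `Hom(𝟙⟦k⟧, R ⊗ Z) = 0` unless `q ∣ k`. Then `Hom((B a W)⟦k⟧, R ⊗ Z) = 0` unless
`q ∣ k`, if this holds for `W`, in particular for `W = 𝟙`.
-/

open CategoryTheory MonoidalCategory MonObj Limits Pretriangulated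

universe v u

set_option linter.unusedSectionVars false

namespace Vale.Agent.P257.V4.B

open Vale.Agent.P251.S Vale.Agent.P251.T Vale.Agent.P251.M Vale.Agent.P093.PLoc
  Vale.Agent.P257.V4.O Vale.Agent.P251.M.EvenSpheres

variable {T : Type u} [Category.{v} T] [Preadditive T] [HasZeroObject T]
    [HasShift T ℤ] [∀ n : ℤ, (shiftFunctor T n).Additive] [Pretriangulated T] [IsTriangulated T]
    [MonoidalCategory T] [SymmetricCategory T] [TensorTriangulated T] [MonoidalClosed T]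
    [HasCoproducts.{0} T] [HasProducts.{0} T] [StableCat T]

section gen

variable {R : T} [MonObj R]

theorem bind_whiskerRight {S Y : T} (g : S ⟶ R ⊗ Y) (W : T) :
    FM.bind g ▷ W ≫ (α_ R Y W).hom = (α_ R S W).hom ≫ FM.bind (g ▷ W ≫ (α_ R Y W).hom) := by
  rw [FM.bind, FM.bind]
  simp only [comp_whiskerRight, MonoidalCategory.whiskerLeft_comp, Category.assoc,
    whisker_assoc, associator_naturality_left]
  monoidal

theorem bind_zero {Y Z : T} : FM.bind (0 : Y ⟶ R ⊗ Z) = 0 := by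
  rw [FM.bind, MonoidalPreadditive.whiskerLeft_zero, zero_comp]

/-- maps from `R ⊗ W` to `R ⊗ Z` vanish, if the maps from the cells do -/
theorem zr_tensor_of_basis {Jd : Type} (c : GBasis (stdEven T) (inlM R R) Jd) {W Z : T}
    (h : ∀ j, Zr ((stdEven T).S (c.k j) ⊗ W) (R ⊗ Z)) : Zr (R ⊗ W) (R ⊗ Z) := by
  intro f
  have h1 : (α_ R R W).hom ≫ FM.bind f = 0 := by
    have := c.isIsoY W
    rw [← cancel_epi (Sigma.desc fun j => ((inlM R R ⊗ₘ c.w j) ≫ μ[R ⊗ R]) ▷ W), comp_zero]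
    refine Sigma.hom_ext _ _ fun j => ?_
    rw [comp_zero, Sigma.ι_desc_assoc, inlM_tensor_mul, ← Category.assoc, bind_whiskerRight,
      Category.assoc, FM.bind_bind, h j (_ ≫ _), bind_zero, comp_zero]
  have h2 : FM.bind f = 0 := by
    rw [← cancel_epi (α_ R R W).hom, h1, comp_zero]
  have h3 := FM.unit_bind f
  rw [← h3, h2, comp_zero]

variable (U : UnitCof R)

/-- maps from `J ⊗ W` to `R ⊗ Z` vanish, if the maps from `R ⊗ W` do -/
theorem zr_J {W Z : T} (h : Zr (R ⊗ W) (R ⊗ Z)) : Zr (U.J ⊗ W) (R ⊗ Z) := by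
  intro f
  obtain ⟨σ, h1, -⟩ := U.cobar.split W
  change σ ≫ R ◁ (U.ρ ▷ W) = 𝟙 _ at h1
  have h2 : R ◁ f = 0 := by
    have h3 : R ◁ f = σ ≫ R ◁ (U.ρ ▷ W ≫ f) := by
      rw [MonoidalCategory.whiskerLeft_comp, ← Category.assoc, h1, Category.id_comp]
    rw [h3, h (U.ρ ▷ W ≫ f), MonoidalPreadditive.whiskerLeft_zero, comp_zero]
  rw [← FM.unit_bind f, FM.bind, h2, zero_comp, comp_zero]

/-- `Hom(W⟦k⟧, M) = 0` unless `q ∣ k` -/
def SpZ (q : ℤ) (W M : T) : Prop := ∀ k : ℤ, ¬ q ∣ k → Zr (W⟦k⟧) M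

theorem spZ_J {Jd : Type} (c : GBasis (stdEven T) (inlM R R) Jd) {q : ℤ}
    (hq : ∀ j, q ∣ 2 * c.k j) {W Z : T} (h : SpZ q W (R ⊗ Z)) : SpZ q (U.J ⊗ W) (R ⊗ Z) := by
  intro k hk
  refine Zr.iso (tensorShiftIso U.J W k) (zr_J U (zr_tensor_of_basis c fun j => ?_))
  have e1 : W⟦k⟧ ⊗ (stdEven T).S (c.k j) ≅ W⟦k⟧⟦2 * c.k j⟧ :=
    ((stdEven T).shiftNat (Iso.refl _) (c.k j)).app (W⟦k⟧)
  have e2 : W⟦k⟧⟦2 * c.k j⟧ ≅ W⟦k + 2 * c.k j⟧ := ((shiftFunctorAdd T k (2 * c.k j)).app W).symm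
  exact Zr.iso ((β_ _ _) ≪≫ e1 ≪≫ e2).symm
    (h _ fun h1 => hk ((dvd_add_left (hq j)).1 h1))

theorem spZ_B {Jd : Type} (c : GBasis (stdEven T) (inlM R R) Jd) {q : ℤ}
    (hq : ∀ j, q ∣ 2 * c.k j) (a : ℕ) {W Z : T} (h : SpZ q W (R ⊗ Z)) :
    SpZ q (U.cobar.B a W) (R ⊗ Z) := by
  induction a generalizing W with
  | zero => exact h
  | succ a ih => exact ih (spZ_J U c hq h)

end gen

end Vale.Agent.P257.V4.B
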