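import Vale.Agent.P257.V4.B.SpjJ
import Vale.Agent.P257.V4.B.ConnB
import Vale.Agent.P257.V4.L.Van

/-!
# P257, part B: (SPJ) and (CON) in the form of part L, for the retract `B` of `MU_(p)`
-/

open CategoryTheory MonoidalCategory MonObj Limits Pretriangulated

universe v u

set_option linter.unusedSectionVars false

namespace Vale.Agent.P257.V4.B

open Vale.Agent.P251.S Vale.Agent.P251.T Vale.Agent.P251.M Vale.Agent.P251.F Vale.Agent.P251.I
  Vale.Agent.P251.X Vale.Agent.P093.PLoc Vale.Agent.P257.V4.O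

variable {T : Type u} [Category.{v} T] [Preadditive T] [HasZeroObject T]
    [HasShift T ℤ] [∀ n : ℤ, (shiftFunctor T n).Additive] [Pretriangulated T] [IsTriangulated T]
    [MonoidalCategory T] [SymmetricCategory T] [TensorTriangulated T] [MonoidalClosed T]
    [HasCoproducts.{0} T] [HasProducts.{0} T] [StableCat T]
    {D : MUData T} {p : ℕ} [hp : Fact p.Prime]
    {F : SpaceFunctor T} {e : F.S.obj CCF ≅ (stdEven T).L} (H : MUUniv e D) (b : BData D p)
    (U : UnitCof b.obj) {X : T} {u : 𝟙_ T ⟶ X}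

include H in
/-- the basis of `B ⊗ B` over `B`, in dimensions divisible by `2 p - 2` -/
theorem BData.exists_basis_q :
    ∃ c : GBasis (stdEven T) (inlM b.obj b.obj) (Jp p), ∀ j, ((2 * p - 2 : ℕ) : ℤ) ∣ 2 * c.k j := by
  obtain ⟨c, hc, -⟩ := b.exists_basis H b.isPLocal b.u
  refine ⟨c, fun j => ?_⟩
  rw [hc]
  have h1 : ((2 * p - 2 : ℕ) : ℤ) = 2 * ((p - 1 : ℕ) : ℤ) := by
    have := hp.out.one_le
    push_cast [Nat.cast_sub (show 2 ≤ 2 * p by omega), Nat.cast_sub this]
    ring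
  rw [h1]
  exact mul_dvd_mul_left 2 (dvd_degU j.2)

include H in
/-- **(SPJ)** in the form of part L -/
theorem BData.spjL (h : b.rmod.XM ((2 * p - 2 : ℕ) : ℤ) u) :
    L.SPJ U X ((2 * p - 2 : ℕ) : ℤ) := by
  obtain ⟨c, hc⟩ := b.exists_basis_q H
  intro m n k hk
  refine spZ_B U c hc m (W := 𝟙_ T) (fun k hk f => ?_) k hk
  exact b.spj_iv U h 0 n k hk f

/-- **(CON)** in the form of part L -/
theorem BData.conjL (hX : IsPLocal p X) (hc : Conn 0 X)
    (h : b.rmod.XM ((2 * p - 2 : ℕ) : ℤ) u) : L.CONJ U X ((2 * p - 2 : ℕ) : ℤ) :=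
  fun s n hn => b.conn_B U two_le_q hX hc (fun s => h.spa s) s n hn

end Vale.Agent.P257.V4.B
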