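import Vale.Agent.P257.V4.B.XMB
import Vale.Agent.P257.V4.O.Final
import Vale.Agent.P257.V4.E.KTow

/-!
# P257, part B: `V(0) = S/p` as the start of the tower of part O
-/

open CategoryTheory MonoidalCategory MonObj Limits Pretriangulated

universe v u

set_option linter.unusedSectionVars false

noncomputable section

namespace Vale.Agent.P257.V4.B

open Vale.Agent.P251.S Vale.Agent.P251.T Vale.Agent.P251.M Vale.Agent.P251.F Vale.Agent.P251.I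
  Vale.Agent.P251.X EvenSpheres Vale.Agent.P093.PLoc Vale.Agent.P257.V4.O

open Vale.Agent.P257.V4.E (CosR RMod ux sphE)

variable {T : Type u} [Category.{v} T] [Preadditive T] [HasZeroObject T]
    [HasShift T ℤ] [∀ n : ℤ, (shiftFunctor T n).Additive] [Pretriangulated T] [IsTriangulated T]
    [MonoidalCategory T] [SymmetricCategory T] [TensorTriangulated T] [MonoidalClosed T]
    [HasCoproducts.{0} T] [HasProducts.{0} T] [StableCat T]

variable {D : MUData T} {p : ℕ} [hp : Fact p.Prime]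

theorem cls_natCast {R : T} [MonObj R] [IsCommMonObj R] (E : RMod cobK R) (p : ℕ)
    (z : cobK.wt 0 0) (hz : z.1 = (p : Cob Laz 0)) :
    cls E z = (p : ℤ) • ((sphE T 0).inv ≫ (stdEven T).zero.inv ≫ η[R]) := by
  have h1 : E.evw 0 0 z = (p : ℤ) • ((stdEven T).zero.inv ≫ η[Am R 1]) := by
    apply RMod.evw_eq
    refine (congrArg (E.ev 0) hz).trans ((map_natCast (E.ev 0) p).trans ?_)
    refine Eq.trans ?_ (map_zsmul (DirectSum.of ((stdEven T).Gr (Am R 1)) 0) (p : ℤ)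
      ((stdEven T).zero.inv ≫ η[Am R 1])).symm
    change _ = (p : ℤ) • HRing.of (stdEven T) (Am R 1) 0 _
    rw [of_one, zsmul_eq_mul, _root_.mul_one, Int.cast_natCast]
  have h2 : η[Am R 1] ≫ (λ_ R).hom = η[R] := by
    change ((λ_ (𝟙_ T)).inv ≫ (𝟙 (𝟙_ T) ⊗ₘ η[R])) ≫ (λ_ R).hom = η[R]
    simp
  rw [cls, h1, Preadditive.zsmul_comp, Preadditive.comp_zsmul, Category.assoc, h2]

theorem ch_one {R : T} [MonObj R] [IsCommMonObj R] (E : RMod cobK R) (p : ℕ) {w : ℕ → ℤ}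
    (hw : w 0 = 0) (z : ∀ k, cobK.wt 0 (w k)) (hz : (z 0).1 = (p : Cob Laz 0)) {C : T}
    {iC : 𝟙_ T ⟶ C} {δC : C ⟶ (𝟙_ T)⟦(1 : ℤ)⟧}
    (hC : Triangle.mk ((p : ℤ) • 𝟙 (𝟙_ T)) iC δC ∈ distTriang T) :
    Ch (fun k => cls E (z k)) 1 C iC := by
  have key : ∀ (w0 : ℤ) (hw0 : w0 = 0) (z0 : cobK.wt 0 w0) (_ : z0.1 = (p : Cob Laz 0)),
      ∃ e : (𝟙_ T)⟦2 * w0⟧ ≅ 𝟙_ T, (e.hom ≫ ((p : ℤ) • 𝟙 (𝟙_ T))) ≫ unitMap R (𝟙_ T) =
        hur (cls E z0) (𝟙 _) := by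
    rintro w0 rfl z0 hz0
    refine ⟨(sphE T 0).symm ≪≫ (stdEven T).zero.symm, ?_⟩
    rw [cls_natCast E p z0 hz0, hur, MonoidalCategory.whiskerLeft_id, Category.comp_id,
      Preadditive.comp_zsmul, Category.comp_id, Preadditive.zsmul_comp, Preadditive.zsmul_comp]
    congr 1
    change ((sphE T 0).inv ≫ (stdEven T).zero.inv) ≫ (λ_ (𝟙_ T)).inv ≫ (η[R] ▷ 𝟙_ T) = _
    rw [unitors_inv_equal, ← rightUnitor_inv_naturality]
    simp only [Category.assoc]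
  obtain ⟨e, he⟩ := key (w 0) hw (z 0) hz
  have h1 := Ch.step (v := fun k => cls E (z k)) (Ch.base) (e.hom ≫ ((p : ℤ) • 𝟙 (𝟙_ T))) iC
    (δC ≫ e.inv⟦(1 : ℤ)⟧') ?_ ?_
  · rwa [Category.id_comp] at h1
  · refine isomorphic_distinguished _ hC _ ?_
    refine Triangle.isoMk _ _ e (Iso.refl _) (Iso.refl _) ?_ ?_ ?_
    · change (e.hom ≫ _) ≫ 𝟙 _ = e.hom ≫ _
      rw [Category.comp_id]
      rfl
    · change iC ≫ 𝟙 _ = 𝟙 _ ≫ iC
      rw [Category.comp_id, Category.id_comp]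
    · change (δC ≫ e.inv⟦(1 : ℤ)⟧') ≫ e.hom⟦(1 : ℤ)⟧' = 𝟙 _ ≫ δC
      rw [Category.assoc, ← Functor.map_comp, Iso.inv_hom_id, Category.id_comp]
      exact (congrArg _ (CategoryTheory.Functor.map_id _ _)).trans (Category.comp_id _)
  · rw [CategoryTheory.Functor.map_id, Category.id_comp]
    exact he

/-- **The start of the tower: `V(0) = S/p`.** -/
theorem BData.exists_start (b : BData D p) (hp2 : p ≠ 2)
    {I : ℕ → ∀ (s : ℕ) (w : ℤ), AddSubgroup (cobK.wt s w)} {w : ℕ → ℤ} (hw : w 0 = 0)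
    {z : ∀ k, cobK.wt 0 (w k)} (hz : (z 0).1 = (p : Cob Laz 0))
    (hI : ∀ s a (y : cobK.wt s a), y ∈ I 1 s a ↔ toNB p s y.1 = 0) :
    ∃ (X : T) (u : 𝟙_ T ⟶ X), IV b.rmod ((2 * p - 2 : ℕ) : ℤ) I z 1 u := by
  obtain ⟨C, iC, δC, hC⟩ := distinguished_cocone_triangle ((p : ℤ) • 𝟙 (𝟙_ T))
  refine ⟨C, iC, ch_one b.rmod p hw z hz hC, ?_, fun s a => ?_⟩
  · have h1 : ((2 * p - 2 : ℕ) : ℤ) = 2 * ((p : ℤ) - 1) := by
      have := hp.out.two_le
      push_cast [Nat.cast_sub (show 2 ≤ 2 * p by omega)]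
      ring
    rw [h1]
    exact b.xM hC hp2
  · ext y
    rw [b.mem_kx hC hp2, hI]

/-- The start of the tower for the ideals `I_n` of the Lazard ring. -/
theorem BData.exists_start_laz (b : BData D p) (hp2 : p ≠ 2) :
    ∃ (X : T) (u : 𝟙_ T ⟶ X), IV b.rmod ((2 * p - 2 : ℕ) : ℤ) (E.In p) (E.zv p) 1 u := by
  refine b.exists_start hp2 (w := E.wv p) ?_ ?_ fun s a y => ?_
  · rw [E.wv, A.Ch.N_zero]
    simp
  · change (MvPolynomial.C (Laz.v p 0) : Cob Laz 0) = _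
    rw [show Laz.v p 0 = (p : Laz) from vv_zero p _]
    exact map_natCast _ p
  · change toNB p s y.1 ∈ NB.I p 0 s ↔ _
    rw [NB.I_zero]
    exact Ideal.mem_bot

end Vale.Agent.P257.V4.B

end
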